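import Vale.Agent.P192Z.Grp.FP1

/-!
# P192: the Steinberg group on five indices over a finitely presented algebra is finitely presented
-/

namespace Vale.Agent.P192Z

namespace FP

open scoped commutatorElement

variable {X : Type} {Γ : Type} [Group Γ]

theorem exists_ext_comm {C : Type} [CommGroup C] (hC : ∀ x : C, x * x = 1) (P : Pres X)
    (f : List X → C) (h1 : ∀ a b u v, (u, v) ∈ P.eqs → f (a ++ u ++ b) = f (a ++ v ++ b))
    (h2 : ∀ a b z, z ∈ P.zeros → f (a ++ z ++ b) = 1) :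
    ∃ F : Alg P → C, (∀ a b, F (a + b) = F a * F b) ∧ ∀ w, F (P.word w) = f w := by
  let _ : Module (ZMod 2) (Additive C) := AddCommGroup.zmodModule fun x => by
    rw [two_nsmul]
    exact hC x.toMul
  obtain ⟨F, hF⟩ := P.exists_lin (V := Additive C) (fun w => Additive.ofMul (f w))
    ⟨fun a b u v h => congrArg _ (h1 a b u v h), fun a b z h => congrArg _ (h2 a b z h)⟩
  exact ⟨fun a => (F a).toMul, fun a b => congrArg Additive.toMul (map_add F a b),
    fun w => congrArg Additive.toMul (hF w)⟩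

/-- A commuting family of involutions indexed by words extends to the algebra. -/
theorem exists_ext (P : Pres X) (f : List X → Γ) (hc : ∀ u v, Commute (f u) (f v))
    (hs : ∀ u, f u * f u = 1)
    (h1 : ∀ a b u v, (u, v) ∈ P.eqs → f (a ++ u ++ b) = f (a ++ v ++ b))
    (h2 : ∀ a b z, z ∈ P.zeros → f (a ++ z ++ b) = 1) :
    ∃ F : Alg P → Γ, (∀ a b, F (a + b) = F a * F b) ∧ ∀ w, F (P.word w) = f w := by
  have hm : IsMulCommutative (Subgroup.closure (Set.range f)) :=
    Subgroup.isMulCommutative_closure (by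
      rintro _ ⟨u, rfl⟩ _ ⟨v, rfl⟩
      exact (hc u v).eq)
  let _ : CommGroup (Subgroup.closure (Set.range f)) :=
    { (inferInstance : Group (Subgroup.closure (Set.range f))) with
      mul_comm := hm.is_comm.comm }
  have hsq : ∀ x : Subgroup.closure (Set.range f), x * x = 1 := by
    rintro ⟨x, hx⟩
    induction hx using Subgroup.closure_induction with
    | mem x hx =>
      obtain ⟨u, rfl⟩ := hx
      exact Subtype.ext (hs u)
    | one => exact Subtype.ext (mul_one 1)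
    | mul x y hx hy ihx ihy =>
      have e : (⟨x * y, mul_mem hx hy⟩ : Subgroup.closure (Set.range f)) = ⟨x, hx⟩ * ⟨y, hy⟩ := rfl
      rw [e, mul_mul_mul_comm, ihx, ihy, one_mul]
    | inv x hx ih =>
      have e : (⟨x⁻¹, inv_mem hx⟩ : Subgroup.closure (Set.range f)) = ⟨x, hx⟩⁻¹ := rfl
      rw [e, ← mul_inv, ih, inv_one]
  obtain ⟨F, hF1, hF2⟩ := exists_ext_comm hsq P
    (fun w => ⟨f w, Subgroup.subset_closure ⟨w, rfl⟩⟩)
    (fun a b u v h => Subtype.ext (h1 a b u v h)) (fun a b z h => Subtype.ext (h2 a b z h))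
  exact ⟨fun a => (F a).1, fun a b => congrArg Subtype.val (hF1 a b),
    fun w => congrArg Subtype.val (hF2 w)⟩

theorem exists_isSt (P : Pres X) {g : Fin 5 → Fin 5 → Option X → Γ} (hb : BaseU g)
    (h1 : ∀ i j u v, i ≠ j → (u, v) ∈ P.eqs → Z g u i j = Z g v i j)
    (h2 : ∀ i j z, i ≠ j → z ∈ P.zeros → Z g z i j = 1)
    (ok : Fin 5 → Fin 5 → Alg P → Prop) (hok : ∀ i j a, ok i j a ↔ i ≠ j) :
    ∃ x : Fin 5 → Fin 5 → Alg P → Γ, IsSt ok x ∧
      ∀ i j w, i ≠ j → x i j (P.word w) = Z g w i j := by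
  have hex : ∀ i j : Fin 5, ∃ F : Alg P → Γ, i ≠ j →
      (∀ a b, F (a + b) = F a * F b) ∧ ∀ w, F (P.word w) = Z g w i j := by
    intro i j
    by_cases hij : i = j
    · exact ⟨fun _ => 1, fun h => absurd hij h⟩
    obtain ⟨F, hF⟩ := exists_ext P (fun w => Z g w i j)
      (fun u v => hb.toBase.W_comm (by simp) (by simp) hij hij (Ne.symm hij) hij)
      (fun u => hb.toBase.W_sq (by simp) hij)
      (fun a b u v h => by
        rw [hb.Z_ctx a u b hij, hb.Z_ctx a v b hij, h1 _ _ u v (mid_ne_right _ _) h])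
      (fun a b z h => by
        rw [hb.Z_ctx a z b hij, h2 _ _ z (mid_ne_right _ _) h, commutatorElement_one_right,
          commutatorElement_one_left])
    exact ⟨F, fun _ => hF⟩
  choose x hx using hex
  have hadd : ∀ {i j}, i ≠ j → ∀ a b, x i j (a + b) = x i j a * x i j b := fun h => (hx _ _ h).1
  have hw : ∀ {i j}, i ≠ j → ∀ w, x i j (P.word w) = Z g w i j := fun h => (hx _ _ h).2
  have h0 : ∀ {i j}, i ≠ j → x i j 0 = 1 := fun h => by
    have := hadd h 0 0
    rw [add_zero] at this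
    exact left_eq_mul.mp this
  have hcomm : ∀ {i j k l}, i ≠ j → k ≠ l → j ≠ k → i ≠ l → ∀ a b,
      Commute (x i j a) (x k l b) := by
    intro i j k l hij hkl hjk hil a b
    induction a using P.induction with
    | h0 => rw [h0 hij]; exact Commute.one_left _
    | hadd a a' ha ha' => rw [hadd hij]; exact ha.mul_left ha'
    | hw u =>
      induction b using P.induction with
      | h0 => rw [h0 hkl]; exact Commute.one_right _
      | hadd b b' hb hb' => rw [hadd hkl]; exact hb.mul_right hb'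
      | hw v =>
        rw [hw hij, hw hkl]
        exact hb.toBase.W_comm (by simp) (by simp) hij hkl hjk hil
  have hmul : ∀ {i j k}, i ≠ j → j ≠ k → i ≠ k → ∀ a b,
      ⁅x i j a, x j k b⁆ = x i k (a * b) := by
    intro i j k hij hjk hik a b
    induction a using P.induction with
    | h0 => rw [h0 hij, zero_mul, h0 hik, commutatorElement_one_left]
    | hadd a a' ha ha' =>
      rw [hadd hij, comm_mul_left, ha, ha', (hcomm hij hik hij.symm hik a _).eq,
        mul_inv_cancel_right, ← hadd hik, add_mul, add_comm]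
    | hw u =>
      induction b using P.induction with
      | h0 => rw [h0 hjk, mul_zero, h0 hik, commutatorElement_one_right]
      | hadd b b' hb hb' =>
        rw [hadd hjk, comm_mul_right, hb, hb', (hcomm hjk hik hik.symm hjk b _).eq,
          mul_inv_cancel_right, ← hadd hik, mul_add]
      | hw v => rw [hw hij, hw hjk, ← P.word_append, hw hik, hb.Z_mul u v hij hjk hik]
  exact ⟨x, ⟨fun ha _ => hadd ((hok _ _ _).1 ha) _ _,
    fun ha hb h3 h4 => hcomm ((hok _ _ _).1 ha) ((hok _ _ _).1 hb) h3 h4 _ _,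
    fun ha hb h3 => hmul ((hok _ _ _).1 ha) ((hok _ _ _).1 hb) h3 _ _⟩,
    fun i j w h => hw h w⟩

/-- The free generators. -/
def g0 (i j : Fin 5) (y : Option X) : FreeGroup (Fin 5 × Fin 5 × Option X) :=
  FreeGroup.of (i, j, y)

/-- The finitely many relators. -/
def rels (P : Pres X) : Set (FreeGroup (Fin 5 × Fin 5 × Option X)) :=
  Set.range (fun t : Fin 5 × Option X => g0 t.1 t.1 t.2) ∪
  Set.range (fun t : Fin 5 × Fin 5 × Option X => g0 t.1 t.2.1 t.2.2 * g0 t.1 t.2.1 t.2.2) ∪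
  (fun t : (Fin 5 × Fin 5 × Option X) × (Fin 5 × Fin 5 × Option X) =>
      ⁅g0 t.1.1 t.1.2.1 t.1.2.2, g0 t.2.1 t.2.2.1 t.2.2.2⁆) ''
    {t | t.1.1 ≠ t.1.2.1 ∧ t.2.1 ≠ t.2.2.1 ∧ t.1.2.1 ≠ t.2.1 ∧ t.1.1 ≠ t.2.2.1} ∪
  (fun t : (Fin 5 × Fin 5 × Fin 5) × Option X × Option X =>
      ⁅g0 t.1.1 t.1.2.1 t.2.1, g0 t.1.2.1 t.1.2.2 t.2.2⁆ * (W g0 [t.2.1, t.2.2] t.1.1 t.1.2.2)⁻¹) ''
    {t | t.1.1 ≠ t.1.2.1 ∧ t.1.2.1 ≠ t.1.2.2 ∧ t.1.1 ≠ t.1.2.2} ∪
  (fun t : Fin 5 × Fin 5 × Option X => W g0 [none, t.2.2] t.1 t.2.1 * (g0 t.1 t.2.1 t.2.2)⁻¹) ''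
    {t | t.1 ≠ t.2.1} ∪
  (fun t : Fin 5 × Fin 5 × Option X => W g0 [t.2.2, none] t.1 t.2.1 * (g0 t.1 t.2.1 t.2.2)⁻¹) ''
    {t | t.1 ≠ t.2.1} ∪
  (fun t : (Fin 5 × Fin 5) × List X × List X =>
      Z g0 t.2.1 t.1.1 t.1.2 * (Z g0 t.2.2 t.1.1 t.1.2)⁻¹) '' ({t | t.1 ≠ t.2} ×ˢ P.eqs) ∪
  (fun t : (Fin 5 × Fin 5) × List X => Z g0 t.2 t.1.1 t.1.2) '' ({t | t.1 ≠ t.2} ×ˢ P.zeros)

theorem rels_finite [Finite X] (P : Pres X) (h1 : P.eqs.Finite) (h2 : P.zeros.Finite) :
    (rels P).Finite :=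
  (((((((Set.finite_range _).union (Set.finite_range _)).union
    ((Set.toFinite _).image _)).union ((Set.toFinite _).image _)).union
    ((Set.toFinite _).image _)).union ((Set.toFinite _).image _)).union
    (((Set.toFinite _).prod h1).image _)).union (((Set.toFinite _).prod h2).image _)

/-- The generators of the finitely presented group. -/
def g1 (P : Pres X) (i j : Fin 5) (y : Option X) : PresentedGroup (rels P) :=
  PresentedGroup.mk (rels P) (g0 i j y)

theorem mk_W (P : Pres X) (w : List (Option X)) (i j : Fin 5) :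
    PresentedGroup.mk (rels P) (W g0 w i j) = W (g1 P) w i j := map_W _ _ _ _ _

theorem g1_diag (P : Pres X) (i : Fin 5) (y : Option X) : g1 P i i y = 1 :=
  PresentedGroup.one_of_mem (rels := rels P)
    (Or.inl (Or.inl (Or.inl (Or.inl (Or.inl (Or.inl (Or.inl ⟨(i, y), rfl⟩)))))))

theorem g1_base (P : Pres X) : BaseU (g1 P) := by
  refine ⟨⟨fun i j y _ => ?_, fun i j k l y y' h1 h2 h3 h4 => ?_, fun i j k y y' h1 h2 h3 => ?_⟩,
    fun i j y h => ?_, fun i j y h => ?_⟩
  · exact PresentedGroup.one_of_mem (rels := rels P)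
      (Or.inl (Or.inl (Or.inl (Or.inl (Or.inl (Or.inl (Or.inr ⟨(i, j, y), rfl⟩)))))))
  · rw [← commutatorElement_eq_one_iff_commute]
    exact PresentedGroup.one_of_mem (rels := rels P)
      (Or.inl (Or.inl (Or.inl (Or.inl (Or.inl (Or.inr
        ⟨((i, j, y), (k, l, y')), ⟨h1, h2, h3, h4⟩, rfl⟩))))))
  · rw [← mk_W]
    exact PresentedGroup.mk_eq_mk_of_mul_inv_mem (rels := rels P)
      (Or.inl (Or.inl (Or.inl (Or.inl (Or.inr ⟨((i, j, k), y, y'), ⟨h1, h2, h3⟩, rfl⟩)))))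
  · rw [← mk_W]
    exact PresentedGroup.mk_eq_mk_of_mul_inv_mem (rels := rels P)
      (Or.inl (Or.inl (Or.inl (Or.inr ⟨(i, j, y), h, rfl⟩))))
  · rw [← mk_W]
    exact PresentedGroup.mk_eq_mk_of_mul_inv_mem (rels := rels P)
      (Or.inl (Or.inl (Or.inr ⟨(i, j, y), h, rfl⟩)))

theorem g1_eqs (P : Pres X) (i j : Fin 5) (u v : List X) (h : i ≠ j) (huv : (u, v) ∈ P.eqs) :
    Z (g1 P) u i j = Z (g1 P) v i j := by
  unfold Z
  rw [← mk_W, ← mk_W]
  exact PresentedGroup.mk_eq_mk_of_mul_inv_mem (rels := rels P)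
    (Or.inl (Or.inr ⟨((i, j), u, v), ⟨h, huv⟩, rfl⟩))

theorem g1_zeros (P : Pres X) (i j : Fin 5) (z : List X) (h : i ≠ j) (hz : z ∈ P.zeros) :
    Z (g1 P) z i j = 1 := by
  unfold Z
  rw [← mk_W]
  exact PresentedGroup.one_of_mem (rels := rels P) (Or.inr ⟨((i, j), z), ⟨h, hz⟩, rfl⟩)

/-- The value of a letter in the algebra. -/
noncomputable def val (P : Pres X) : Option X → Alg P
  | none => 1
  | some x => P.word [x]

section Back

variable (P : Pres X) (ok : Fin 5 → Fin 5 → Alg P → Prop) (hok : ∀ i j a, ok i j a ↔ i ≠ j)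

include hok

theorem W_St : ∀ (w : List (Option X)) (i j : Fin 5), w ≠ [] → i ≠ j →
    W (fun i j y => St.x ok i j (val P y)) w i j = St.x ok i j (w.map (val P)).prod
  | [], _, _, h, _ => absurd rfl h
  | [y], i, j, _, _ => by simp [W]
  | y :: y' :: w, i, j, _, hij => by
    rw [W, W_St (y' :: w) _ _ (by simp) (mid_ne_right i j),
      (St.isSt ok).mul ((hok _ _ _).2 (mid_ne_left i j).symm) ((hok _ _ _).2 (mid_ne_right i j))
        hij]
    simp

theorem Z_St (w : List X) {i j : Fin 5} (hij : i ≠ j) :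
    Z (fun i j y => St.x ok i j (val P y)) w i j = St.x ok i j (P.word w) := by
  unfold Z
  rw [W_St P ok hok _ i j (by simp) hij, P.word_eq_prod, List.map_cons, List.prod_cons,
    List.map_map]
  simp only [val, one_mul]
  rfl

theorem closed_ok : Closed ok :=
  ⟨fun h => (hok _ _ _).1 h, fun h => (hok _ _ _).2 ((hok _ _ _).1 h),
    fun h _ => (hok _ _ _).2 ((hok _ _ _).1 h), fun _ _ h => (hok _ _ _).2 h⟩

theorem rels_hold : ∀ r ∈ rels P,
    FreeGroup.lift (fun t : Fin 5 × Fin 5 × Option X => St.x ok t.1 t.2.1 (val P t.2.2)) r = 1 := by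
  set φ := FreeGroup.lift (fun t : Fin 5 × Fin 5 × Option X => St.x ok t.1 t.2.1 (val P t.2.2))
    with hφ
  have hg : ∀ i j y, φ (g0 i j y) = St.x ok i j (val P y) := fun i j y => by simp [hφ, g0]
  have hW : ∀ w i j, φ (W g0 w i j) = W (fun i j y => St.x ok i j (val P y)) w i j := by
    intro w i j
    rw [map_W]
    simp only [hg]
  have hZ : ∀ w i j, φ (Z g0 w i j) = Z (fun i j y => St.x ok i j (val P y)) w i j :=
    fun w i j => hW _ i j
  have hS := St.isSt ok
  rintro r (((((((⟨⟨i, y⟩, rfl⟩ | ⟨⟨i, j, y⟩, rfl⟩) | ⟨⟨⟨i, j, y⟩, k, l, y'⟩, ⟨h1, h2, h3, h4⟩, rfl⟩) |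
    ⟨⟨⟨i, j, k⟩, y, y'⟩, ⟨h1, h2, h3⟩, rfl⟩) | ⟨⟨i, j, y⟩, h, rfl⟩) | ⟨⟨i, j, y⟩, h, rfl⟩) |
    ⟨⟨⟨i, j⟩, u, v⟩, ⟨h, huv⟩, rfl⟩) | ⟨⟨⟨i, j⟩, z⟩, ⟨h, hz⟩, rfl⟩)
  · rw [hg]
    exact St.x_not_ok ok fun h => (hok _ _ _).1 h rfl
  · rw [map_mul, hg]
    by_cases hij : i = j
    · rw [St.x_not_ok ok fun h => (hok _ _ _).1 h hij, one_mul]
    · exact hS.mul_self (closed_ok P ok hok) ((hok _ _ _).2 hij)
  · rw [map_commutatorElement, hg, hg, commutatorElement_eq_one_iff_commute]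
    exact hS.comm ((hok _ _ _).2 h1) ((hok _ _ _).2 h2) h3 h4
  · rw [map_mul, map_inv, map_commutatorElement, hg, hg, hW, W_St P ok hok _ _ _ (by simp) h3,
      hS.mul ((hok _ _ _).2 h1) ((hok _ _ _).2 h2) h3]
    simp
  · rw [map_mul, map_inv, hg, hW, W_St P ok hok _ _ _ (by simp) h]
    simp [val]
  · rw [map_mul, map_inv, hg, hW, W_St P ok hok _ _ _ (by simp) h]
    simp [val]
  · rw [map_mul, map_inv, hZ, hZ, Z_St P ok hok _ h, Z_St P ok hok _ h, P.word_eq huv,
      mul_inv_cancel]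
  · rw [hZ, Z_St P ok hok _ h, P.word_zero hz]
    exact hS.zero ((hok _ _ _).2 h)

end Back

end FP

open Vale.Agent.P192Z.FP in
theorem st_fp {X : Type} [Finite X] (P : Pres X) (h1 : P.eqs.Finite) (h2 : P.zeros.Finite)
    (ok : Fin 5 → Fin 5 → Alg P → Prop) (hok : ∀ i j a, ok i j a ↔ i ≠ j) :
    Group.IsFinitelyPresented (St ok) := by
  have _ : Finite (rels P) := rels_finite P h1 h2
  obtain ⟨x, hx, hxw⟩ := exists_isSt P (g1_base P) (g1_eqs P) (g1_zeros P) ok hok
  have hc := closed_ok P ok hok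
  let f : St ok →* PresentedGroup (rels P) := St.lift hc x hx
  let h : PresentedGroup (rels P) →* St ok := PresentedGroup.toGroup (rels_hold P ok hok)
  have hg : ∀ i j y, h (g1 P i j y) = St.x ok i j (val P y) := fun i j y =>
    PresentedGroup.toGroup.of (rels_hold P ok hok)
  have e1 : f.comp h = MonoidHom.id _ := by
    refine PresentedGroup.ext fun ⟨i, j, y⟩ => ?_
    show f (h (g1 P i j y)) = g1 P i j y
    rw [hg]
    by_cases hij : i = j
    · subst hij
      rw [g1_diag, St.x_not_ok ok fun h => (hok _ _ _).1 h rfl, map_one]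
    · rw [St.lift_x hc x hx ((hok _ _ _).2 hij)]
      cases y with
      | none =>
        have := hxw i j [] hij
        rw [P.word_nil] at this
        exact this
      | some y => exact (hxw i j [y] hij).trans ((g1_base P).left i j (some y) hij)
  have e2 : h.comp f = MonoidHom.id _ := by
    refine St.hom_ext fun i j a ha => ?_
    show h (f (St.x ok i j a)) = St.x ok i j a
    have hij := (hok _ _ _).1 ha
    rw [St.lift_x hc x hx ha]
    clear ha
    induction a using P.induction with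
    | h0 =>
      rw [hx.zero ((hok _ _ _).2 hij), map_one, (St.isSt ok).zero ((hok _ _ _).2 hij)]
    | hadd a b ha hb =>
      rw [hx.add ((hok _ _ _).2 hij) ((hok _ _ _).2 hij), map_mul, ha, hb,
        (St.isSt ok).add ((hok _ _ _).2 hij) ((hok _ _ _).2 hij)]
    | hw w =>
      rw [hxw i j w hij, ← Z_St P ok hok w hij]
      unfold Z
      rw [map_W]
      simp only [hg]
  exact Group.IsFinitelyPresented.equiv (MonoidHom.toMulEquiv h f e1 e2)

end Vale.Agent.P192Z
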