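import Vale.Agent.P192Z.Alg

/-!
# P192: Steinberg groups of nets, in characteristic two
-/

namespace Vale.Agent.P192Z

open scoped commutatorElement

theorem add_self_F2 {A : Type*} [Ring A] [Algebra F2 A] (a : A) : a + a = 0 := by
  have h : (2 : F2) = 0 := rfl
  rw [← two_smul F2 a, h, zero_smul]

theorem neg_eq_F2 {A : Type*} [Ring A] [Algebra F2 A] (a : A) : -a = a :=
  neg_eq_of_add_eq_zero_left (add_self_F2 a)

theorem F2_cases (t : F2) : t = 0 ∨ t = 1 := by revert t; decide

section General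

variable {ι A : Type} [Ring A]

/-- Closure properties of the admissible entries. -/
structure Closed (ok : ι → ι → A → Prop) : Prop where
  ne : ∀ {i j a}, ok i j a → i ≠ j
  zero : ∀ {i j a}, ok i j a → ok i j 0
  add : ∀ {i j a b}, ok i j a → ok i j b → ok i j (a + b)
  mul : ∀ {i j k a b}, ok i j a → ok j k b → i ≠ k → ok i k (a * b)

/-- The Steinberg relations for admissible entries, in any group. -/
structure IsSt (ok : ι → ι → A → Prop) {Γ : Type*} [Group Γ] (x : ι → ι → A → Γ) : Prop where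
  add : ∀ {i j a b}, ok i j a → ok i j b → x i j (a + b) = x i j a * x i j b
  comm : ∀ {i j k l a b}, ok i j a → ok k l b → j ≠ k → i ≠ l → Commute (x i j a) (x k l b)
  mul : ∀ {i j k a b}, ok i j a → ok j k b → i ≠ k → ⁅x i j a, x j k b⁆ = x i k (a * b)

namespace IsSt

variable {ok : ι → ι → A → Prop} {Γ : Type*} [Group Γ] {x : ι → ι → A → Γ}

theorem zero (h : IsSt ok x) {i j : ι} (h0 : ok i j 0) : x i j 0 = 1 := by
  have := h.add h0 h0
  rw [add_zero] at this
  exact left_eq_mul.mp this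

theorem mul_self [Algebra F2 A] (h : IsSt ok x) (hc : Closed ok) {i j : ι} {a : A}
    (ha : ok i j a) : x i j a * x i j a = 1 := by
  rw [← h.add ha ha, add_self_F2, h.zero (hc.zero ha)]

theorem inv [Algebra F2 A] (h : IsSt ok x) (hc : Closed ok) {i j : ι} {a : A}
    (ha : ok i j a) : (x i j a)⁻¹ = x i j a :=
  inv_eq_of_mul_eq_one_left (h.mul_self hc ha)

/-- `x_ij(a) x_jk(b) x_ij(a)⁻¹ = x_ik(ab) x_jk(b)`. -/
theorem conj_left (h : IsSt ok x) {i j k : ι} {a b : A} (ha : ok i j a) (hb : ok j k b)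
    (hik : i ≠ k) : x i j a * x j k b * (x i j a)⁻¹ = x i k (a * b) * x j k b := by
  rw [← h.mul ha hb hik, commutatorElement_def]; group

/-- `x_jk(b) x_ij(a) x_jk(b)⁻¹ = x_ik(ab) x_ij(a)`. -/
theorem conj_right [Algebra F2 A] (h : IsSt ok x) (hc : Closed ok) {i j k : ι} {a b : A}
    (ha : ok i j a) (hb : ok j k b) (hik : i ≠ k) :
    x j k b * x i j a * (x j k b)⁻¹ = x i k (a * b) * x i j a := by
  have h1 : x j k b * x i j a * (x j k b)⁻¹ = ⁅x i j a, x j k b⁆⁻¹ * x i j a := by
    rw [commutatorElement_def, h.inv hc ha, h.inv hc hb]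
    simp only [mul_inv_rev, h.inv hc ha, h.inv hc hb, mul_assoc, h.mul_self hc ha, mul_one]
  rw [h1, h.mul ha hb hik, h.inv hc (hc.mul ha hb hik)]

theorem conj_comm (h : IsSt ok x) {i j k l : ι} {a b : A} (ha : ok i j a) (hb : ok k l b)
    (hjk : j ≠ k) (hil : i ≠ l) : x i j a * x k l b * (x i j a)⁻¹ = x k l b := by
  rw [(h.comm ha hb hjk hil).eq]; group

theorem map (h : IsSt ok x) {Δ : Type*} [Group Δ] (f : Γ →* Δ) :
    IsSt ok fun i j a => f (x i j a) :=
  ⟨fun ha hb => by rw [h.add ha hb, map_mul],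
   fun ha hb h1 h2 => (h.comm ha hb h1 h2).map f,
   fun ha hb h1 => by rw [← map_commutatorElement, h.mul ha hb h1]⟩

end IsSt

/-- The relators of the Steinberg group. -/
def stRels (ok : ι → ι → A → Prop) : Set (FreeGroup (ι × ι × A)) :=
  {r | (∃ i j a, ¬ ok i j a ∧ r = FreeGroup.of (i, j, a)) ∨
    (∃ i j a b, ok i j a ∧ ok i j b ∧
      r = FreeGroup.of (i, j, a + b) * (FreeGroup.of (i, j, a) * FreeGroup.of (i, j, b))⁻¹) ∨
    (∃ i j k l a b, ok i j a ∧ ok k l b ∧ j ≠ k ∧ i ≠ l ∧
      r = ⁅FreeGroup.of (i, j, a), FreeGroup.of (k, l, b)⁆) ∨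
    (∃ i j k a b, ok i j a ∧ ok j k b ∧ i ≠ k ∧
      r = ⁅FreeGroup.of (i, j, a), FreeGroup.of (j, k, b)⁆ * (FreeGroup.of (i, k, a * b))⁻¹)}

/-- The Steinberg group for the admissible entries `ok`. -/
def St (ok : ι → ι → A → Prop) : Type := PresentedGroup (stRels ok)

namespace St

variable (ok : ι → ι → A → Prop)

instance : Group (St ok) := inferInstanceAs (Group (PresentedGroup (stRels ok)))

/-- The generators. -/
def x (i j : ι) (a : A) : St ok := PresentedGroup.of (rels := stRels ok) (i, j, a)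

theorem x_not_ok {i j : ι} {a : A} (h : ¬ ok i j a) : x ok i j a = 1 :=
  PresentedGroup.one_of_mem (rels := stRels ok) (Or.inl ⟨i, j, a, h, rfl⟩)

theorem isSt : IsSt ok (x ok) := by
  refine ⟨fun {i j a b} ha hb => ?_, fun {i j k l a b} ha hb h1 h2 => ?_,
    fun {i j k a b} ha hb h1 => ?_⟩
  · exact PresentedGroup.mk_eq_mk_of_mul_inv_mem (rels := stRels ok)
      (Or.inr (Or.inl ⟨i, j, a, b, ha, hb, rfl⟩))
  · rw [← commutatorElement_eq_one_iff_commute]
    exact PresentedGroup.one_of_mem (rels := stRels ok)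
      (Or.inr (Or.inr (Or.inl ⟨i, j, k, l, a, b, ha, hb, h1, h2, rfl⟩)))
  · exact PresentedGroup.mk_eq_mk_of_mul_inv_mem (rels := stRels ok)
      (Or.inr (Or.inr (Or.inr ⟨i, j, k, a, b, ha, hb, h1, rfl⟩)))

variable {ok}

open Classical in
/-- The universal property. -/
noncomputable def lift (hc : Closed ok) {Γ : Type*} [Group Γ] (y : ι → ι → A → Γ)
    (h : IsSt ok y) : St ok →* Γ :=
  PresentedGroup.toGroup (rels := stRels ok)
    (f := fun t => if ok t.1 t.2.1 t.2.2 then y t.1 t.2.1 t.2.2 else 1) (by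
      rintro r (⟨i, j, a, ha, rfl⟩ | ⟨i, j, a, b, ha, hb, rfl⟩ |
        ⟨i, j, k, l, a, b, ha, hb, h1, h2, rfl⟩ | ⟨i, j, k, a, b, ha, hb, h1, rfl⟩)
      · simp [ha]
      · simp [ha, hb, hc.add ha hb, h.add ha hb]
      · simp only [map_commutatorElement, FreeGroup.lift_apply_of, ha, hb, if_true]
        exact commutatorElement_eq_one_iff_commute.mpr (h.comm ha hb h1 h2)
      · simp only [map_mul, map_inv, map_commutatorElement, FreeGroup.lift_apply_of, ha, hb,
          hc.mul ha hb h1, if_true, h.mul ha hb h1, mul_inv_cancel])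

theorem lift_x (hc : Closed ok) {Γ : Type*} [Group Γ] (y : ι → ι → A → Γ) (h : IsSt ok y)
    {i j : ι} {a : A} (ha : ok i j a) : lift hc y h (x ok i j a) = y i j a := by
  unfold lift x
  erw [PresentedGroup.toGroup.of]
  simp [ha]

theorem hom_ext {Γ : Type*} [Group Γ] {f g : St ok →* Γ}
    (h : ∀ i j a, ok i j a → f (x ok i j a) = g (x ok i j a)) : f = g := by
  refine PresentedGroup.ext (rels := stRels ok) fun t => ?_
  by_cases ht : ok t.1 t.2.1 t.2.2
  · exact h _ _ _ ht
  · have := x_not_ok ok ht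
    show f (x ok t.1 t.2.1 t.2.2) = g (x ok t.1 t.2.1 t.2.2)
    rw [this, map_one, map_one]

theorem mem_of_gen (H : Subgroup (St ok)) (h : ∀ i j a, ok i j a → x ok i j a ∈ H)
    (g : St ok) : g ∈ H := by
  refine PresentedGroup.generated_by (stRels ok) H (fun t => ?_) g
  by_cases ht : ok t.1 t.2.1 t.2.2
  · exact h _ _ _ ht
  · have := x_not_ok ok ht
    show x ok t.1 t.2.1 t.2.2 ∈ H
    rw [this]; exact H.one_mem

end St

/-- The subgroup generated by the admissible generators at positions in `T`. -/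
def UT (ok : ι → ι → A → Prop) (T : ι → ι → Prop) : Subgroup (St ok) :=
  Subgroup.closure {g | ∃ i j a, ok i j a ∧ T i j ∧ g = St.x ok i j a}

theorem x_mem_UT {ok : ι → ι → A → Prop} {T : ι → ι → Prop} {i j : ι} {a : A} (h : T i j) :
    St.x ok i j a ∈ UT ok T := by
  by_cases ha : ok i j a
  · exact Subgroup.subset_closure ⟨i, j, a, ha, h, rfl⟩
  · rw [St.x_not_ok ok ha]; exact Subgroup.one_mem _

theorem UT_mono {ok : ι → ι → A → Prop} {T T' : ι → ι → Prop} (h : ∀ i j, T i j → T' i j) :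
    UT ok T ≤ UT ok T' :=
  Subgroup.closure_mono fun _ ⟨i, j, a, ha, ht, e⟩ => ⟨i, j, a, ha, h i j ht, e⟩

/-- Induction by left multiplication with generators (all generators are involutions). -/
theorem UT_induction [Algebra F2 A] {ok : ι → ι → A → Prop} (hc : Closed ok) {T : ι → ι → Prop}
    {p : St ok → Prop} (h1 : p 1)
    (hx : ∀ i j a g, ok i j a → T i j → g ∈ UT ok T → p g → p (St.x ok i j a * g))
    {g : St ok} (hg : g ∈ UT ok T) : p g := by
  induction hg using Subgroup.closure_induction_left with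
  | one => exact h1
  | mul_left s hs g hg ih =>
    obtain ⟨i, j, a, ha, ht, rfl⟩ := hs
    exact hx i j a g ha ht hg ih
  | inv_mul_cancel s hs g hg ih =>
    obtain ⟨i, j, a, ha, ht, rfl⟩ := hs
    rw [(St.isSt ok).inv hc ha]
    exact hx i j a g ha ht hg ih

theorem St.induction_left [Algebra F2 A] {ok : ι → ι → A → Prop} (hc : Closed ok)
    {p : St ok → Prop} (h1 : p 1) (hx : ∀ i j a g, ok i j a → p g → p (St.x ok i j a * g))
    (g : St ok) : p g :=
  UT_induction hc (T := fun _ _ => True) h1 (fun i j a g ha _ _ hp => hx i j a g ha hp)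
    (St.mem_of_gen _ (fun _ _ _ _ => x_mem_UT trivial) g)

section Phi

variable [Fintype ι] [DecidableEq ι] [Algebra F2 A]

/-- The elementary matrix, as a unit. -/
def elem (i j : ι) (a : A) : (Matrix ι ι A)ˣ :=
  if h : i = j then 1 else
    ⟨1 + Matrix.single i j a, 1 + Matrix.single i j a,
      by rw [add_mul, mul_add, mul_add, one_mul, one_mul, mul_one,
          Matrix.single_mul_single_of_ne _ _ _ _ (Ne.symm h), add_zero, add_assoc,
          ← Matrix.single_add, add_self_F2, Matrix.single_zero, add_zero],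
      by rw [add_mul, mul_add, mul_add, one_mul, one_mul, mul_one,
          Matrix.single_mul_single_of_ne _ _ _ _ (Ne.symm h), add_zero, add_assoc,
          ← Matrix.single_add, add_self_F2, Matrix.single_zero, add_zero]⟩

theorem elem_val {i j : ι} (h : i ≠ j) (a : A) :
    ((elem i j a : (Matrix ι ι A)ˣ) : Matrix ι ι A) = 1 + Matrix.single i j a := by
  unfold elem; rw [dif_neg h]

theorem elem_inv_val {i j : ι} (h : i ≠ j) (a : A) :
    (((elem i j a)⁻¹ : (Matrix ι ι A)ˣ) : Matrix ι ι A) = 1 + Matrix.single i j a := by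
  unfold elem; rw [dif_neg h]; rfl

theorem elem_isSt {ok : ι → ι → A → Prop} (hc : Closed ok) :
    IsSt ok (elem : ι → ι → A → (Matrix ι ι A)ˣ) := by
  refine ⟨fun {i j a b} ha hb => ?_, fun {i j k l a b} ha hb h1 h2 => ?_,
    fun {i j k a b} ha hb h1 => ?_⟩
  · have hij := hc.ne ha
    ext1
    rw [Units.val_mul, elem_val hij, elem_val hij, elem_val hij, add_mul, mul_add, mul_add,
      one_mul, one_mul, mul_one, Matrix.single_mul_single_of_ne _ _ _ _ (Ne.symm hij),
      Matrix.single_add]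
    abel
  · ext1
    rw [Units.val_mul, Units.val_mul, elem_val (hc.ne ha), elem_val (hc.ne hb)]
    simp only [add_mul, mul_add, one_mul, mul_one, Matrix.single_mul_single_of_ne _ _ _ _ h1,
      Matrix.single_mul_single_of_ne _ _ _ _ (Ne.symm h2)]
    abel
  · have hij := hc.ne ha
    have hjk := hc.ne hb
    ext1
    rw [commutatorElement_def, Units.val_mul, Units.val_mul, Units.val_mul, elem_inv_val hij,
      elem_inv_val hjk, elem_val hij, elem_val hjk, elem_val h1]
    simp only [add_mul, mul_add, one_mul, mul_one, Matrix.single_mul_single_same,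
      Matrix.single_mul_single_of_ne _ _ _ _ (Ne.symm hij),
      Matrix.single_mul_single_of_ne _ _ _ _ (Ne.symm hjk),
      Matrix.single_mul_single_of_ne _ _ _ _ (Ne.symm h1), add_zero]
    have e1 := add_self_F2 (Matrix.single i j a)
    have e2 := add_self_F2 (Matrix.single j k b)
    have e3 := add_self_F2 (Matrix.single i k (a * b))
    rw [← sub_eq_zero, ← add_zero (0 : Matrix ι ι A), ← add_zero (0 + 0 : Matrix ι ι A)]
    nth_rewrite 1 [← e1]
    nth_rewrite 1 [← e2]
    nth_rewrite 1 [← e3]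
    abel

/-- The map to invertible matrices. -/
noncomputable def phiU {ok : ι → ι → A → Prop} (hc : Closed ok) : St ok →* (Matrix ι ι A)ˣ :=
  St.lift hc elem (elem_isSt hc)

/-- The map to matrices. -/
noncomputable def phi {ok : ι → ι → A → Prop} (hc : Closed ok) : St ok →* Matrix ι ι A :=
  (Units.coeHom _).comp (phiU hc)

theorem phi_x {ok : ι → ι → A → Prop} (hc : Closed ok) {i j : ι} {a : A} (ha : ok i j a) :
    phi hc (St.x ok i j a) = 1 + Matrix.single i j a := by
  show ((phiU hc (St.x ok i j a) : (Matrix ι ι A)ˣ) : Matrix ι ι A) = _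
  unfold phiU
  rw [St.lift_x hc _ _ ha, elem_val (hc.ne ha)]

end Phi

/-- A net: indices `S`, levels, and an augmentation. Entries below the level diagonal lie in the
augmentation ideal. -/
structure Net (ι A : Type) [Ring A] where
  S : Finset ι
  lev : ι → ℕ
  eps : A →+* F2

namespace Net

variable (N : Net ι A)

/-- Admissible entries of a net. -/
def ok (i j : ι) (a : A) : Prop :=
  i ∈ N.S ∧ j ∈ N.S ∧ i ≠ j ∧ (N.lev i ≤ N.lev j ∨ N.eps a = 0)

theorem closed : Closed N.ok := by
  refine ⟨fun h => h.2.2.1, fun h => ⟨h.1, h.2.1, h.2.2.1, Or.inr (map_zero _)⟩,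
    fun ha hb => ⟨ha.1, ha.2.1, ha.2.2.1, ?_⟩, fun ha hb h => ⟨ha.1, hb.2.1, h, ?_⟩⟩
  · rcases ha.2.2.2 with h | h
    · exact Or.inl h
    · rcases hb.2.2.2 with h' | h'
      · exact Or.inl h'
      · exact Or.inr (by rw [map_add, h, h', add_zero])
  · rcases ha.2.2.2 with h | h
    · rcases hb.2.2.2 with h' | h'
      · exact Or.inl (h.trans h')
      · exact Or.inr (by rw [map_mul, h', mul_zero])
    · exact Or.inr (by rw [map_mul, h, zero_mul])

/-- The same net on another index set. -/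
def withS (S : Finset ι) : Net ι A := ⟨S, N.lev, N.eps⟩

end Net

/-- Change of indices: a map of index types that respects admissible entries. -/
noncomputable def St.reindex {κ : Type} {ok : ι → ι → A → Prop} {ok' : κ → κ → A → Prop}
    (hc : Closed ok) (f : ι → κ) (hf : Function.Injective f)
    (h : ∀ i j a, ok i j a → ok' (f i) (f j) a) : St ok →* St ok' :=
  St.lift hc (fun i j a => St.x ok' (f i) (f j) a)
    ⟨fun ha hb => (St.isSt ok').add (h _ _ _ ha) (h _ _ _ hb),
     fun ha hb h1 h2 => (St.isSt ok').comm (h _ _ _ ha) (h _ _ _ hb) (hf.ne h1) (hf.ne h2),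
     fun ha hb h1 => (St.isSt ok').mul (h _ _ _ ha) (h _ _ _ hb) (hf.ne h1)⟩

theorem St.reindex_x {κ : Type} {ok : ι → ι → A → Prop} {ok' : κ → κ → A → Prop}
    (hc : Closed ok) (f : ι → κ) (hf : Function.Injective f)
    (h : ∀ i j a, ok i j a → ok' (f i) (f j) a) {i j : ι} {a : A} (ha : ok i j a) :
    St.reindex hc f hf h (St.x ok i j a) = St.x ok' (f i) (f j) a :=
  St.lift_x hc _ _ ha

/-- The unital net on five indices. -/
def unNet (ε : A →+* F2) : Net (Fin 5) A := ⟨Finset.univ, fun _ => 0, ε⟩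

/-- The Iwahori net on five indices. -/
def iwNet (ε : A →+* F2) : Net (Fin 5) A := ⟨Finset.univ, fun i => i.val, ε⟩

/-- The parahoric net on `5 (m + 1)` indices whose first block is unital. -/
def bigNet (ε : A →+* F2) (m : ℕ) : Net (Fin 5 × Fin (m + 1)) A :=
  ⟨Finset.univ, fun p => if p.2 = 0 then 0 else 5 * p.2.val + p.1.val, ε⟩

theorem unNet_ok (ε : A →+* F2) (i j : Fin 5) (a : A) : (unNet ε).ok i j a ↔ i ≠ j :=
  ⟨fun h => h.2.2.1, fun h => ⟨Finset.mem_univ _, Finset.mem_univ _, h, Or.inl le_rfl⟩⟩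

theorem iwNet_ok (ε : A →+* F2) (i j : Fin 5) (a : A) :
    (iwNet ε).ok i j a ↔ i ≠ j ∧ (i ≤ j ∨ ε a = 0) :=
  ⟨fun h => h.2.2, fun h => ⟨Finset.mem_univ _, Finset.mem_univ _, h⟩⟩

/-- From the Iwahori group to the unital group. -/
noncomputable def iwToUn (ε : A →+* F2) : St (iwNet ε).ok →* St (unNet ε).ok :=
  St.reindex (iwNet ε).closed id Function.injective_id
    fun i j a h => (unNet_ok ε i j a).mpr h.2.2.1

/-- From the unital group to the first block of the parahoric group. -/
noncomputable def unToBig (ε : A →+* F2) (m : ℕ) : St (unNet ε).ok →* St (bigNet ε m).ok :=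
  St.reindex (unNet ε).closed (fun i => (i, 0)) (fun _ _ h => congrArg Prod.fst h)
    fun i j a h => ⟨Finset.mem_univ _, Finset.mem_univ _,
      fun e => h.2.2.1 (congrArg Prod.fst e), Or.inl (by simp [bigNet])⟩

/-- Enlarging the index set of a net. -/
noncomputable def Net.incl (N : Net ι A) {S' : Finset ι} (h : N.S ⊆ S') :
    St N.ok →* St (N.withS S').ok :=
  St.reindex N.closed id Function.injective_id
    fun _ _ _ ha => ⟨h ha.1, h ha.2.1, ha.2.2⟩

end General

end Vale.Agent.P192Z
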