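import Vale.Agent.P192Z.Grp.Defs

/-!
# P192: the Steinberg relations for words follow from the relations for letters
-/

namespace Vale.Agent.P192Z

namespace FP

open scoped commutatorElement

/-- An index different from two given ones. -/
def mid (i j : Fin 5) : Fin 5 :=
  if i ≠ 0 ∧ j ≠ 0 then 0 else if i ≠ 1 ∧ j ≠ 1 then 1 else 2

theorem mid_ne_left : ∀ i j, mid i j ≠ i := by decide

theorem mid_ne_right : ∀ i j, mid i j ≠ j := by decide

theorem exists_fifth : ∀ i j k l : Fin 5, ∃ m, m ≠ i ∧ m ≠ j ∧ m ≠ k ∧ m ≠ l := by decide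

variable {Y : Type} {Γ : Type*} [Group Γ]

/-- The element attached to a word, as an iterated commutator of letters. -/
def W (g : Fin 5 → Fin 5 → Y → Γ) : List Y → Fin 5 → Fin 5 → Γ
  | [], _, _ => 1
  | [y], i, j => g i j y
  | y :: y' :: w, i, j => ⁅g i (mid i j) y, W g (y' :: w) (mid i j) j⁆

theorem map_W {Δ : Type*} [Group Δ] (f : Γ →* Δ) (g : Fin 5 → Fin 5 → Y → Γ) :
    ∀ (w : List Y) (i j : Fin 5), f (W g w i j) = W (fun i j y => f (g i j y)) w i j
  | [], _, _ => map_one f
  | [_], _, _ => rfl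
  | y :: y' :: w, i, j => by
    rw [W, W, map_commutatorElement, map_W f g (y' :: w)]

theorem W_cons (g : Fin 5 → Fin 5 → Y → Γ) (y : Y) {w : List Y} (hw : w ≠ []) (i j : Fin 5) :
    W g (y :: w) i j = ⁅W g [y] i (mid i j), W g w (mid i j) j⁆ := by
  cases w with
  | nil => exact absurd rfl hw
  | cons y' w => rfl

theorem comm_mul_left (x y z : Γ) : ⁅x * y, z⁆ = x * ⁅y, z⁆ * x⁻¹ * ⁅x, z⁆ := by
  simp only [commutatorElement_def]; group

theorem comm_mul_right (x y z : Γ) : ⁅x, y * z⁆ = ⁅x, y⁆ * (y * ⁅x, z⁆ * y⁻¹) := by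
  simp only [commutatorElement_def]; group

theorem commute_comm {x y z : Γ} (h1 : Commute x z) (h2 : Commute y z) : Commute ⁅x, y⁆ z := by
  rw [commutatorElement_def]
  exact ((h1.mul_left h2).mul_left h1.inv_left).mul_left h2.inv_left

theorem comm_assoc {a b c : Γ} (hac : Commute a c) (hef : Commute ⁅a, b⁆ ⁅b, c⁆)
    (hcf : Commute c ⁅b, c⁆) : ⁅a, ⁅b, c⁆⁆ = ⁅⁅a, b⁆, c⁆ := by
  have h1 : a * ⁅b, c⁆ * a⁻¹ = ⁅⁅a, b⁆ * b, c⁆ := by
    have e1 : ⁅a, b⁆ * b = a * b * a⁻¹ := by rw [commutatorElement_def]; group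
    have e2 : c = a * c * a⁻¹ := by rw [hac.eq]; group
    rw [e1]
    conv_rhs => rw [e2]
    simp only [commutatorElement_def]; group
  have h2 : ⁅a, ⁅b, c⁆⁆ = a * ⁅b, c⁆ * a⁻¹ * ⁅b, c⁆⁻¹ := commutatorElement_def _ _
  rw [h2, h1, comm_mul_left, hef.eq, mul_inv_cancel_right, ← (commute_comm hef hcf).eq,
    mul_inv_cancel_right]

/-- The relations between letters. -/
structure Base (g : Fin 5 → Fin 5 → Y → Γ) : Prop where
  sq : ∀ i j y, i ≠ j → g i j y * g i j y = 1
  comm : ∀ i j k l y y', i ≠ j → k ≠ l → j ≠ k → i ≠ l → Commute (g i j y) (g k l y')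
  mul : ∀ i j k y y', i ≠ j → j ≠ k → i ≠ k → ⁅g i j y, g j k y'⁆ = W g [y, y'] i k

variable {g : Fin 5 → Fin 5 → Y → Γ}

/-- The commutator formula up to total length `d`. -/
def CU (g : Fin 5 → Fin 5 → Y → Γ) (d : ℕ) : Prop :=
  ∀ u v : List Y, u ≠ [] → v ≠ [] → u.length + v.length ≤ d → ∀ i j k, i ≠ j → j ≠ k → i ≠ k →
    ⁅W g u i j, W g v j k⁆ = W g (u ++ v) i k

theorem comm_of_CU (hb : Base g) {d : ℕ} (hc : CU g d) (n : ℕ) :
    ∀ u v : List Y, u ≠ [] → v ≠ [] → u.length ≤ d → v.length ≤ d → u.length + v.length ≤ n →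
      ∀ i j k l, i ≠ j → k ≠ l → j ≠ k → i ≠ l → Commute (W g u i j) (W g v k l) := by
  induction n with
  | zero =>
    intro u v hu _ _ _ h
    exact absurd (List.length_eq_zero_iff.1 (by omega)) hu
  | succ n ih =>
    have step : ∀ (y : Y) (u v : List Y), u ≠ [] → v ≠ [] → u.length + 1 ≤ d → v.length ≤ d →
        u.length + v.length ≤ n → ∀ i j k l, i ≠ j → k ≠ l → j ≠ k → i ≠ l →
        Commute (W g (y :: u) i j) (W g v k l) := by
      intro y u v hu hv h1 h2 h3 i j k l hij hkl hjk hil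
      obtain ⟨m, m1, m2, m3, m4⟩ := exists_fifth i j k l
      have hu1 : 1 ≤ u.length := List.length_pos_iff.2 hu
      have e := hc [y] u (by simp) hu (by simp; omega) i m j m1.symm m2 hij
      rw [List.singleton_append] at e
      rw [← e]
      exact commute_comm
        (ih [y] v (by simp) hv (by simp; omega) h2 (by simp; omega) i m k l m1.symm hkl m3 hil)
        (ih u v hu hv (by omega) h2 h3 m j k l m2 hkl hjk m4)
    intro u v hu hv h1 h2 h3 i j k l hij hkl hjk hil
    obtain ⟨y, u, rfl⟩ := List.exists_cons_of_ne_nil hu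
    by_cases hu' : u = []
    · subst hu'
      obtain ⟨y', v, rfl⟩ := List.exists_cons_of_ne_nil hv
      by_cases hv' : v = []
      · subst hv'
        exact hb.comm i j k l y y' hij hkl hjk hil
      · simp only [List.length_cons] at h1 h2 h3
        exact (step y' v [y] hv' (by simp) h2 (by simpa using h1) (by simp at h3 ⊢; omega)
          k l i j hkl hij hil.symm hjk.symm).symm
    · simp only [List.length_cons] at h1 h2 h3
      exact step y u v hu' hv h1 h2 (by omega) i j k l hij hkl hjk hil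

theorem CU_succ (hb : Base g) {d : ℕ} (hd : 2 ≤ d) (hc : CU g d) : CU g (d + 1) := by
  have key : ∀ u s v : List Y, u ≠ [] → s ≠ [] → v ≠ [] →
      u.length + s.length + v.length ≤ d + 1 → ∀ i j j' k, i ≠ j → j ≠ k → i ≠ j' → j' ≠ k →
      i ≠ k → j ≠ j' → ⁅W g u i j, W g (s ++ v) j k⁆ = ⁅W g (u ++ s) i j', W g v j' k⁆ := by
    intro u s v hu hs hv hl i j j' k h1 h2 h3 h4 h5 h6
    have l1 : 1 ≤ u.length := List.length_pos_iff.2 hu
    have l2 : 1 ≤ s.length := List.length_pos_iff.2 hs
    have l3 : 1 ≤ v.length := List.length_pos_iff.2 hv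
    have e := hc u s hu hs (by omega) i j j' h1 h6 h3
    have f := hc s v hs hv (by omega) j j' k h6 h4 h2
    have c1 := comm_of_CU hb hc _ u v hu hv (by omega) (by omega) le_rfl i j j' k h1 h4 h6 h5
    have c2 := comm_of_CU hb hc _ (u ++ s) (s ++ v) (by simp [hu]) (by simp [hs])
      (by simp; omega) (by simp; omega) le_rfl i j' j k h3 h2 h6.symm h5
    have c3 := comm_of_CU hb hc _ v (s ++ v) hv (by simp [hs])
      (by omega) (by simp; omega) le_rfl j' k j k h4 h2 h2.symm h4
    rw [← e] at c2 ⊢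
    rw [← f] at c2 c3 ⊢
    exact comm_assoc c1 c2 c3
  have first : ∀ (y : Y) (v : List Y), 2 ≤ v.length → 1 + v.length ≤ d + 1 →
      ∀ i j k, i ≠ j → j ≠ k → i ≠ k → ⁅W g [y] i j, W g v j k⁆ = W g (y :: v) i k := by
    intro y v h2 hl i j k hij hjk hik
    have hv : v ≠ [] := List.length_pos_iff.1 (by omega)
    rw [W_cons g y hv]
    obtain ⟨z, s, rfl⟩ := List.exists_cons_of_ne_nil hv
    have hs : s ≠ [] := List.length_pos_iff.1 (by simp at h2; omega)
    obtain ⟨m, m1, m2, m3, m4⟩ := exists_fifth i j k (mid i k)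
    have e1 := key [y] [z] s (by simp) (by simp) hs (by simp at hl ⊢; omega) i j m k hij hjk
      m1.symm m3 hik m2.symm
    have e2 := key [y] [z] s (by simp) (by simp) hs (by simp at hl ⊢; omega) i (mid i k) m k
      (mid_ne_left i k).symm (mid_ne_right i k) m1.symm m3 hik m4.symm
    exact e1.trans e2.symm
  intro u v hu hv hl i j k hij hjk hik
  by_cases hle : u.length + v.length ≤ d
  · exact hc u v hu hv hle i j k hij hjk hik
  obtain ⟨y, s, rfl⟩ := List.exists_cons_of_ne_nil hu
  simp only [List.length_cons] at hl hle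
  by_cases hs : s = []
  · subst hs
    exact first y v (by simp at hle; omega) (by simp at hl; omega) i j k hij hjk hik
  · have l2 : 1 ≤ s.length := List.length_pos_iff.2 hs
    have l3 : 1 ≤ v.length := List.length_pos_iff.2 hv
    obtain ⟨m, m1, m2, m3, -⟩ := exists_fifth i j k k
    have e1 := key [y] s v (by simp) hs hv (by simp; omega) i m j k m1.symm m3 hij hjk hik m2
    rw [List.singleton_append] at e1
    rw [← e1, List.cons_append]
    exact first y (s ++ v) (by simp; omega) (by simp; omega) i m k m1.symm m3 hik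

theorem CU_all (hb : Base g) (d : ℕ) : CU g (d + 2) := by
  induction d with
  | zero =>
    intro u v hu hv hl i j k hij hjk hik
    have l1 : 1 ≤ u.length := List.length_pos_iff.2 hu
    have l2 : 1 ≤ v.length := List.length_pos_iff.2 hv
    obtain ⟨y, rfl⟩ := List.length_eq_one_iff.1 (show u.length = 1 by omega)
    obtain ⟨y', rfl⟩ := List.length_eq_one_iff.1 (show v.length = 1 by omega)
    exact hb.mul i j k y y' hij hjk hik
  | succ d ih => exact CU_succ hb (by omega) ih

theorem Base.W_mul (hb : Base g) {u v : List Y} (hu : u ≠ []) (hv : v ≠ []) {i j k : Fin 5}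
    (hij : i ≠ j) (hjk : j ≠ k) (hik : i ≠ k) : ⁅W g u i j, W g v j k⁆ = W g (u ++ v) i k :=
  CU_all hb (u.length + v.length) u v hu hv (by omega) i j k hij hjk hik

theorem Base.W_comm (hb : Base g) {u v : List Y} (hu : u ≠ []) (hv : v ≠ []) {i j k l : Fin 5}
    (hij : i ≠ j) (hkl : k ≠ l) (hjk : j ≠ k) (hil : i ≠ l) : Commute (W g u i j) (W g v k l) :=
  comm_of_CU hb (CU_all hb (u.length + v.length)) _ u v hu hv (by omega) (by omega) le_rfl
    i j k l hij hkl hjk hil

theorem Base.W_sq (hb : Base g) {u : List Y} (hu : u ≠ []) {i j : Fin 5} (hij : i ≠ j) :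
    W g u i j * W g u i j = 1 := by
  obtain ⟨y, s, rfl⟩ := List.exists_cons_of_ne_nil hu
  by_cases hs : s = []
  · subst hs
    exact hb.sq i j y hij
  have m1 := mid_ne_left i j
  have c1 : Commute (W g [y] i (mid i j)) (W g (y :: s) i j) :=
    hb.W_comm (by simp) (by simp) m1.symm hij m1 hij
  have e := comm_mul_left (W g [y] i (mid i j)) (W g [y] i (mid i j)) (W g s (mid i j) j)
  rw [← W_cons g y hs, c1.eq, mul_inv_cancel_right,
    show W g [y] i (mid i j) * W g [y] i (mid i j) = 1 from hb.sq _ _ y m1.symm,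
    commutatorElement_one_left] at e
  exact e.symm

section Unit

variable {X : Type} {g : Fin 5 → Fin 5 → Option X → Γ}

/-- The element attached to a word in the generators of the algebra, the empty word included. -/
def Z (g : Fin 5 → Fin 5 → Option X → Γ) (w : List X) (i j : Fin 5) : Γ :=
  W g (none :: w.map some) i j

/-- The relations between letters, with a unit letter. -/
structure BaseU (g : Fin 5 → Fin 5 → Option X → Γ) : Prop extends Base g where
  left : ∀ i j y, i ≠ j → W g [none, y] i j = g i j y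
  right : ∀ i j y, i ≠ j → W g [y, none] i j = g i j y

theorem BaseU.W_none_cons (hb : BaseU g) {v : List (Option X)} (hv : v ≠ []) {i k : Fin 5}
    (hik : i ≠ k) : W g (none :: v) i k = W g v i k := by
  obtain ⟨y, s, rfl⟩ := List.exists_cons_of_ne_nil hv
  by_cases hs : s = []
  · subst hs
    exact hb.left i k y hik
  have m1 := mid_ne_left i k
  have e := hb.toBase.W_mul (u := [none, y]) (by simp) hs m1.symm (mid_ne_right i k) hik
  rw [hb.left _ _ _ m1.symm] at e
  rw [W_cons g y hs]
  exact e.symm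

theorem BaseU.W_append_none (hb : BaseU g) {u : List (Option X)} (hu : u ≠ []) {i k : Fin 5}
    (hik : i ≠ k) : W g (u ++ [none]) i k = W g u i k := by
  obtain ⟨s, y, rfl⟩ : ∃ s y, u = s ++ [y] :=
    ⟨u.dropLast, u.getLast hu, (List.dropLast_append_getLast hu).symm⟩
  by_cases hs : s = []
  · subst hs
    exact hb.right i k y hik
  have m1 := mid_ne_left i k
  have m2 := mid_ne_right i k
  have e := hb.toBase.W_mul (v := [y, none]) hs (by simp) m1.symm m2 hik
  have e' := hb.toBase.W_mul (v := [y]) hs (by simp) m1.symm m2 hik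
  rw [hb.right _ _ _ m2] at e
  rw [List.append_assoc, ← e']
  exact e.symm

theorem BaseU.Z_mul (hb : BaseU g) (u v : List X) {i j k : Fin 5}
    (hij : i ≠ j) (hjk : j ≠ k) (hik : i ≠ k) : ⁅Z g u i j, Z g v j k⁆ = Z g (u ++ v) i k := by
  unfold Z
  by_cases hv : v = []
  · subst hv
    rw [hb.toBase.W_mul (by simp) (by simp) hij hjk hik, List.map_nil,
      hb.W_append_none (by simp) hik, List.append_nil]
  · have hv' : v.map some ≠ [] := by simpa using hv
    rw [hb.W_none_cons hv' hjk, hb.toBase.W_mul (by simp) hv' hij hjk hik, List.map_append,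
      List.cons_append]

theorem BaseU.Z_ctx (hb : BaseU g) (a u b : List X) {i j : Fin 5} (hij : i ≠ j) :
    Z g (a ++ u ++ b) i j = ⁅⁅Z g a i (mid i (mid i j)), Z g u (mid i (mid i j)) (mid i j)⁆,
      Z g b (mid i j) j⁆ := by
  rw [hb.Z_mul a u (mid_ne_left _ _).symm (mid_ne_right _ _) (mid_ne_left _ _).symm,
    hb.Z_mul (a ++ u) b (mid_ne_left _ _).symm (mid_ne_right _ _) hij]

end Unit

end FP

end Vale.Agent.P192Z
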