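import Vale.Agent.P192Z.Grp.Unip

/-!
# P192: the congruence subgroup lies in the image of the Iwahori group; the torsion quotient
-/

namespace Vale.Agent.P192Z

open scoped commutatorElement

variable {A : Type} [Ring A] [Algebra F2 A]

namespace Nm

variable {ι Γ : Type} [Group Γ] {x : ι → ι → A → Γ}

omit [Algebra F2 A] in
theorem cl : Closed (fun (i j : ι) (_ : A) => i ≠ j) :=
  ⟨fun h => h, fun h => h, fun h _ => h, fun _ _ h => h⟩

variable (h : IsSt (fun (i j : ι) (_ : A) => i ≠ j) x)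
include h

theorem inv {i j : ι} (hij : i ≠ j) (a : A) : (x i j a)⁻¹ = x i j a := h.inv cl hij

theorem sq {i j : ι} (hij : i ≠ j) (a : A) : x i j a * x i j a = 1 := h.mul_self cl hij

omit [Algebra F2 A] in
theorem same {i j : ι} (hij : i ≠ j) (a b : A) : x i j a * x i j b * (x i j a)⁻¹ = x i j b :=
  h.conj_comm hij hij hij.symm hij

theorem weyl_row {i j p : ι} (hij : i ≠ j) (hi : i ≠ p) (hj : j ≠ p) (a : A) :
    x i j 1 * x j i 1 * x i p a * (x i j 1 * x j i 1)⁻¹ = x j p a := by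
  have e1 := h.conj_left (a := 1) (b := a) hij.symm hi hj
  have e2 := h.conj_left (a := 1) (b := a) hij hj hi
  have e3 := h.conj_comm (a := 1) (b := a) hij hi hij.symm hi
  have e4 := h.comm (a := a) (b := a) hi hj hj.symm hi
  rw [one_mul] at e1 e2
  calc x i j 1 * x j i 1 * x i p a * (x i j 1 * x j i 1)⁻¹
      = x i j 1 * (x j i 1 * x i p a * (x j i 1)⁻¹) * (x i j 1)⁻¹ := by group
    _ = (x i j 1 * x j p a * (x i j 1)⁻¹) * (x i j 1 * x i p a * (x i j 1)⁻¹) := by
      rw [e1]; group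
    _ = x j p a := by rw [e2, e3, e4.eq, mul_assoc, sq h hi, mul_one]

theorem weyl_col {i j p : ι} (hij : i ≠ j) (hi : i ≠ p) (hj : j ≠ p) (a : A) :
    x i j 1 * x j i 1 * x p j a * (x i j 1 * x j i 1)⁻¹ = x p i a := by
  have e1 := h.conj_right cl (a := a) (b := 1) hj.symm hij.symm hi.symm
  have e2 := h.conj_right cl (a := a) (b := 1) hi.symm hij hj.symm
  have e3 := h.conj_comm (a := 1) (b := a) hij hj.symm hj hij
  have e4 := h.comm (a := a) (b := a) hj.symm hi.symm hj hi.symm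
  rw [mul_one] at e1 e2
  calc x i j 1 * x j i 1 * x p j a * (x i j 1 * x j i 1)⁻¹
      = x i j 1 * (x j i 1 * x p j a * (x j i 1)⁻¹) * (x i j 1)⁻¹ := by group
    _ = (x i j 1 * x p i a * (x i j 1)⁻¹) * (x i j 1 * x p j a * (x i j 1)⁻¹) := by
      rw [e1]; group
    _ = x p i a := by rw [e2, e3, e4.eq, mul_assoc, sq h hj.symm, mul_one]

theorem weyl {i j p : ι} (hij : i ≠ j) (hi : i ≠ p) (hj : j ≠ p) (a : A) :
    x j i 1 * x i j a * (x j i 1)⁻¹ = x i j 1 * x j i a * (x i j 1)⁻¹ := by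
  have e1 := h.mul (a := a) (b := 1) hi hj.symm hij
  have e2 := h.mul (a := a) (b := 1) hj hi.symm hij.symm
  rw [mul_one] at e1 e2
  have e3 : x i j 1 * x j i 1 * x i j a * (x i j 1 * x j i 1)⁻¹ = x j i a := by
    rw [← e1, ← e2, ← weyl_row h hij hi hj a, ← weyl_col h hij hi hj 1]
    simp only [commutatorElement_def]
    group
  rw [← e3, mul_inv_rev (x i j 1), inv h hij 1]
  simp only [← mul_assoc]
  rw [sq h hij, one_mul, mul_assoc _ (x i j 1), sq h hij, mul_one]

omit h in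
/-- The subgroup generated by entries in the augmentation ideal. -/
def Y (x : ι → ι → A → Γ) (ε : A →+* F2) : Subgroup Γ :=
  Subgroup.closure {g | ∃ i j a, i ≠ j ∧ ε a = 0 ∧ g = x i j a}

omit h in
/-- The subgroup generated by those and their conjugates by the opposite root. -/
def Z (x : ι → ι → A → Γ) (ε : A →+* F2) : Subgroup Γ :=
  Subgroup.closure {g | ∃ i j a, i ≠ j ∧ ε a = 0 ∧
    (g = x i j a ∨ g = x j i 1 * x i j a * (x j i 1)⁻¹)}

variable {ε : A →+* F2}

omit h [Algebra F2 A] in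
theorem mem_Y {i j : ι} {a : A} (hij : i ≠ j) (ha : ε a = 0) : x i j a ∈ Y x ε :=
  Subgroup.subset_closure ⟨i, j, a, hij, ha, rfl⟩

omit h [Algebra F2 A] in
theorem mem_Z {i j : ι} {a : A} (hij : i ≠ j) (ha : ε a = 0) : x i j a ∈ Z x ε :=
  Subgroup.subset_closure ⟨i, j, a, hij, ha, Or.inl rfl⟩

omit h [Algebra F2 A] in
theorem Y_le_Z : Y x ε ≤ Z x ε :=
  Subgroup.closure_mono fun _ ⟨i, j, a, hij, ha, e⟩ => ⟨i, j, a, hij, ha, Or.inl e⟩

omit h in
theorem conj_closure {S : Set Γ} {H : Subgroup Γ} {g : Γ} (hS : ∀ s ∈ S, g * s * g⁻¹ ∈ H)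
    {z : Γ} (hz : z ∈ Subgroup.closure S) : g * z * g⁻¹ ∈ H := by
  have : Subgroup.closure S ≤ H.comap (MulAut.conj g).toMonoidHom :=
    (Subgroup.closure_le _).2 hS
  exact this hz

theorem conj_Y {i j k l : ι} {a : A} (hij : i ≠ j) (ha : ε a = 0) (hkl : k ≠ l) (b : A)
    (h0 : ¬ (l = i ∧ j = k)) : x k l b * x i j a * (x k l b)⁻¹ ∈ Y x ε := by
  by_cases e1 : l = i
  · subst e1
    have hkj : k ≠ j := fun e => h0 ⟨rfl, e.symm⟩
    rw [h.conj_left hkl hij hkj]
    exact mul_mem (mem_Y hkj (by rw [map_mul, ha, mul_zero])) (mem_Y hij ha)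
  · by_cases e2 : j = k
    · subst e2
      rw [h.conj_right cl hij hkl (Ne.symm e1)]
      exact mul_mem (mem_Y (Ne.symm e1) (by rw [map_mul, ha, zero_mul])) (mem_Y hij ha)
    · rw [h.conj_comm hkl hij e1 (Ne.symm e2)]
      exact mem_Y hij ha

theorem conj_x {i j k l : ι} {a : A} (hij : i ≠ j) (ha : ε a = 0) (hkl : k ≠ l) :
    x k l 1 * x i j a * (x k l 1)⁻¹ ∈ Z x ε := by
  by_cases h0 : l = i ∧ j = k
  · obtain ⟨rfl, rfl⟩ := h0
    exact Subgroup.subset_closure ⟨l, j, a, hij, ha, Or.inr rfl⟩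
  · exact Y_le_Z (conj_Y h hij ha hkl 1 h0)

theorem conj_YZ {k l : ι} (hkl : k ≠ l) {y : Γ} (hy : y ∈ Y x ε) :
    x k l 1 * y * (x k l 1)⁻¹ ∈ Z x ε := by
  refine conj_closure ?_ hy
  rintro _ ⟨i, j, a, hij, ha, rfl⟩
  exact conj_x h hij ha hkl

theorem conj_Z (h3 : ∀ i j : ι, ∃ p, i ≠ p ∧ j ≠ p) {k l : ι} (hkl : k ≠ l) {z : Γ}
    (hz : z ∈ Z x ε) : x k l 1 * z * (x k l 1)⁻¹ ∈ Z x ε := by
  refine conj_closure ?_ hz
  rintro _ ⟨i, j, a, hij, ha, rfl | rfl⟩
  · exact conj_x h hij ha hkl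
  have key : ∀ g : Γ, x k l 1 * x j i 1 * (x k l 1)⁻¹ = x j i 1 * g →
      g * (x k l 1 * x i j a * (x k l 1)⁻¹) * g⁻¹ ∈ Y x ε →
      x k l 1 * (x j i 1 * x i j a * (x j i 1)⁻¹) * (x k l 1)⁻¹ ∈ Z x ε := by
    intro g e hg
    have h1 := conj_YZ h hij.symm hg
    have h2 : x k l 1 * (x j i 1 * x i j a * (x j i 1)⁻¹) * (x k l 1)⁻¹ =
        (x k l 1 * x j i 1 * (x k l 1)⁻¹) * (x k l 1 * x i j a * (x k l 1)⁻¹) *
          (x k l 1 * x j i 1 * (x k l 1)⁻¹)⁻¹ := by group
    rw [h2, e]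
    convert h1 using 1
    group
  by_cases e1 : l = j
  · subst e1
    by_cases e2 : i = k
    · subst e2
      obtain ⟨p, hi, hj⟩ := h3 i l
      rw [weyl h hij hi hj, inv h hij 1]
      simp only [← mul_assoc]
      rw [sq h hij, one_mul, mul_assoc, sq h hij, mul_one]
      exact mem_Z hij.symm ha
    · refine key (x k i 1) ?_ ?_
      · rw [h.conj_left hkl hij.symm (Ne.symm e2), one_mul]
        exact (h.comm (Ne.symm e2) hij.symm hij (Ne.symm e2)).eq
      · rw [h.conj_comm hkl hij hij.symm hkl]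
        exact conj_Y h hij ha (Ne.symm e2) 1 fun e => hkl e.2.symm
  · by_cases e2 : i = k
    · subst e2
      refine key (x j l 1) ?_ ?_
      · rw [h.conj_right cl hij.symm hkl (Ne.symm e1), one_mul]
        exact (h.comm (Ne.symm e1) hij.symm e1 hij.symm).eq
      · rw [h.conj_comm hkl hij hkl.symm hij]
        exact conj_Y h hij ha (Ne.symm e1) 1 fun e => hkl e.1.symm
    · by_cases h0 : l = i ∧ j = k
      · obtain ⟨rfl, rfl⟩ := h0
        rw [inv h hkl 1]
        simp only [← mul_assoc]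
        rw [sq h hkl, one_mul, mul_assoc, sq h hkl, mul_one]
        exact mem_Z hij ha
      · refine key 1 ?_ ?_
        · rw [h.conj_comm hkl hij.symm e1 (Ne.symm e2), mul_one]
        · rw [one_mul, inv_one, mul_one]
          exact conj_Y h hij ha hkl 1 h0

theorem split {i j : ι} (hij : i ≠ j) (ε : A →+* F2) (b : A) :
    ε b = 0 ∨ (ε (b + 1) = 0 ∧ x i j b = x i j (b + 1) * x i j 1) := by
  rcases F2_cases (ε b) with e | e
  · exact Or.inl e
  · refine Or.inr ⟨by rw [map_add, e, map_one]; rfl, ?_⟩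
    rw [← h.add hij hij, add_assoc, add_self_F2, add_zero]

end Nm

omit [Algebra F2 A] in
theorem un_isSt (ε : A →+* F2) :
    IsSt (fun (i j : Fin 5) (_ : A) => i ≠ j) (St.x (unNet ε).ok) := by
  have := St.isSt (unNet ε).ok
  exact ⟨fun ha hb => this.add ((unNet_ok ..).2 ha) ((unNet_ok ..).2 hb),
    fun ha hb => this.comm ((unNet_ok ..).2 ha) ((unNet_ok ..).2 hb),
    fun ha hb => this.mul ((unNet_ok ..).2 ha) ((unNet_ok ..).2 hb)⟩

omit [Algebra F2 A] in
theorem iwToUn_x (ε : A →+* F2) {i j : Fin 5} {a : A} (ha : (iwNet ε).ok i j a) :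
    iwToUn ε (St.x (iwNet ε).ok i j a) = St.x (unNet ε).ok i j a :=
  St.reindex_x _ _ _ _ ha

theorem normal_le_iw (ε : A →+* F2) :
    Subgroup.normalClosure {g | ∃ i j a, ε a = 0 ∧ g = St.x (unNet ε).ok i j a} ≤
      (iwToUn ε).range := by
  have h := un_isSt ε
  have h3 : ∀ i j : Fin 5, ∃ p, i ≠ p ∧ j ≠ p := by decide
  have hN : (Nm.Z (St.x (unNet ε).ok) ε).Normal := by
    refine ⟨fun z hz g => ?_⟩
    refine St.induction_left (unNet ε).closed
      (p := fun g => g * z * g⁻¹ ∈ Nm.Z (St.x (unNet ε).ok) ε) (by simpa using hz)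
      (fun i j a g ha ih => ?_) g
    have hij := (unNet_ok ..).1 ha
    rw [show ∀ u : St (unNet ε).ok, u * g * z * (u * g)⁻¹ = u * (g * z * g⁻¹) * u⁻¹ from
      fun u => by group]
    rcases Nm.split h hij ε a with e | ⟨e, e'⟩
    · exact mul_mem (mul_mem (Nm.mem_Z hij e) ih) (inv_mem (Nm.mem_Z hij e))
    · rw [e', show ∀ u v w : St (unNet ε).ok, u * v * w * (u * v)⁻¹ = u * (v * w * v⁻¹) * u⁻¹ from
        fun u v w => by group]
      exact mul_mem (mul_mem (Nm.mem_Z hij e) (Nm.conj_Z h h3 hij ih)) (inv_mem (Nm.mem_Z hij e))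
  have hr : ∀ {i j : Fin 5} {a : A}, i ≠ j → (i ≤ j ∨ ε a = 0) →
      St.x (unNet ε).ok i j a ∈ (iwToUn ε).range :=
    fun h1 h2 => ⟨_, iwToUn_x ε ((iwNet_ok ..).2 ⟨h1, h2⟩)⟩
  refine le_trans (Subgroup.normalClosure_le_normal (N := Nm.Z (St.x (unNet ε).ok) ε) ?_) ?_
  · rintro _ ⟨i, j, a, ha, rfl⟩
    by_cases hij : i = j
    · rw [St.x_not_ok _ fun e => (unNet_ok ..).1 e hij]
      exact one_mem _
    · exact Nm.mem_Z hij ha
  · refine (Subgroup.closure_le _).2 ?_
    rintro _ ⟨i, j, a, hij, ha, rfl | rfl⟩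
    · exact hr hij (Or.inr ha)
    · rcases le_total j i with e | e
      · exact mul_mem (mul_mem (hr hij.symm (Or.inl e)) (hr hij (Or.inr ha)))
          (inv_mem (hr hij.symm (Or.inl e)))
      · obtain ⟨p, hi, hj⟩ := h3 i j
        rw [Nm.weyl h hij hi hj]
        exact mul_mem (mul_mem (hr hij (Or.inl e)) (hr hij.symm (Or.inr ha)))
          (inv_mem (hr hij (Or.inl e)))

theorem one_add_pow_two_pow {R : Type*} [Ring R] [Algebra F2 R] (M : R) (b : ℕ) :
    (1 + M) ^ 2 ^ b = 1 + M ^ 2 ^ b := by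
  induction b with
  | zero => simp
  | succ b ih =>
    rw [pow_succ, pow_mul, ih, pow_mul, sq, sq, add_mul, mul_add, mul_add, one_mul, one_mul,
      mul_one, add_assoc, ← add_assoc (M ^ 2 ^ b), add_self_F2, zero_add]

theorem phi_iwToUn (ε : A →+* F2) (y : St (iwNet ε).ok) :
    phi (unNet ε).closed (iwToUn ε y) = phi (iwNet ε).closed y := by
  have : (phiU (unNet ε).closed).comp (iwToUn ε) = phiU (iwNet ε).closed := by
    refine St.hom_ext fun i j a ha => ?_
    ext1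
    rw [MonoidHom.comp_apply, iwToUn_x ε ha]
    exact (phi_x (unNet ε).closed ((unNet_ok ..).2 ha.2.2.1)).trans
      (phi_x (iwNet ε).closed ha).symm
  exact congrArg Units.val (DFunLike.congr_fun this y)

theorem torsion_quot {X : Type} (D : GrData X A)
    (htr : ∀ y : St (iwNet D.eps).ok, phi (iwNet D.eps).closed y = 1 →
      IsOfFinOrder (iwToUn D.eps y)) :
    ∃ K : Subgroup (St (unNet D.eps).ok), ∃ _ : K.Normal, K.IsFinitelyNormallyGenerated ∧
      K ≤ (phi (unNet D.eps).closed).ker ∧ ∀ g : St (unNet D.eps).ok ⧸ K, IsOfFinOrder g := by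
  set ε := D.eps with hε
  have h := un_isSt ε
  let f : FreeGroup (Fin 5 × Fin 5) →* St (unNet ε).ok :=
    FreeGroup.lift fun p => St.x (unNet ε).ok p.1 p.2 1
  let f0 : FreeGroup (Fin 5 × Fin 5) →* (Matrix (Fin 5) (Fin 5) F2)ˣ :=
    FreeGroup.lift fun p => elem p.1 p.2 1
  have hf : ∀ w, phi (unNet ε).closed (f w) =
      (f0 w : Matrix (Fin 5) (Fin 5) F2).map (algebraMap F2 A) := by
    have : (phi (unNet ε).closed).comp f =
        (((algebraMap F2 A).mapMatrix.toMonoidHom).comp (Units.coeHom _)).comp f0 := by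
      refine FreeGroup.ext_hom _ _ fun ⟨i, j⟩ => ?_
      simp only [MonoidHom.comp_apply, f, f0, FreeGroup.lift_apply_of, Units.coeHom_apply,
        RingHom.toMonoidHom_eq_coe, MonoidHom.coe_coe]
      by_cases hij : i = j
      · rw [St.x_not_ok _ fun e => (unNet_ok ..).1 e hij, elem, dif_pos hij, map_one,
          Units.val_one, map_one]
      · rw [phi_x _ ((unNet_ok ..).2 hij), elem_val hij, map_add, map_one,
          RingHom.mapMatrix_apply, Matrix.map_single, map_one]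
    exact fun w => DFunLike.congr_fun this w
  obtain ⟨S, hS, hSf⟩ := (Subgroup.fg_iff _).1 ((Group.fg_iff_subgroup_fg f0.ker).1 inferInstance)
  have hK : ∀ w ∈ f0.ker, f w ∈ Subgroup.normalClosure (f '' S) := by
    intro w hw
    rw [← hS] at hw
    have : Subgroup.closure S ≤ (Subgroup.normalClosure (f '' S)).comap f :=
      (Subgroup.closure_le _).2 fun s hs => Subgroup.subset_normalClosure ⟨s, hs, rfl⟩
    exact this hw
  refine ⟨Subgroup.normalClosure (f '' S), inferInstance, ⟨_, hSf.image _, rfl⟩, ?_, fun g => ?_⟩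
  · refine Subgroup.normalClosure_le_normal ?_
    rintro _ ⟨s, hs, rfl⟩
    have h1 : s ∈ f0.ker := hS ▸ Subgroup.subset_closure hs
    rw [SetLike.mem_coe, MonoidHom.mem_ker, hf, MonoidHom.mem_ker.1 h1, Units.val_one,
      Matrix.map_one _ (map_zero _) (map_one _)]
  obtain ⟨g, rfl⟩ := QuotientGroup.mk'_surjective _ g
  set N := Subgroup.normalClosure {g | ∃ i j a, ε a = 0 ∧ g = St.x (unNet ε).ok i j a} with hN
  have hx : ∀ i j a, ε a = 0 → QuotientGroup.mk' N (St.x (unNet ε).ok i j a) = 1 :=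
    fun i j a ha => (QuotientGroup.eq_one_iff _).2
      (Subgroup.subset_normalClosure ⟨i, j, a, ha, rfl⟩)
  obtain ⟨w, hw⟩ : ∃ w, QuotientGroup.mk' N g = QuotientGroup.mk' N (f w) := by
    refine St.induction_left (unNet ε).closed
      (p := fun g => ∃ w, QuotientGroup.mk' N g = QuotientGroup.mk' N (f w)) ⟨1, by simp⟩
      (fun i j a g ha ih => ?_) g
    obtain ⟨w, hw⟩ := ih
    rcases Nm.split h ((unNet_ok ..).1 ha) ε a with e | ⟨e, e'⟩
    · exact ⟨w, by rw [map_mul, hx i j a e, one_mul, hw]⟩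
    · refine ⟨FreeGroup.of (i, j) * w, ?_⟩
      rw [e', map_mul, map_mul, hx i j _ e, one_mul, hw, map_mul, map_mul]
      simp only [f, FreeGroup.lift_apply_of]
  obtain ⟨e, he, hwe⟩ := isOfFinOrder_iff_pow_eq_one.1 (isOfFinOrder_of_finite (f0 w))
  have h1 : g ^ e * (f (w ^ e))⁻¹ ∈ N := by
    refine (QuotientGroup.eq_one_iff _).1 ?_
    show QuotientGroup.mk' N _ = 1
    rw [map_mul, map_inv, map_pow, map_pow, map_pow, hw, mul_inv_cancel]
  have h2 : N ≤ ((ε.mapMatrix.toMonoidHom).comp (phi (unNet ε).closed)).ker := by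
    refine Subgroup.normalClosure_le_normal ?_
    rintro _ ⟨i, j, a, ha, rfl⟩
    rw [SetLike.mem_coe, MonoidHom.mem_ker]
    by_cases hij : i = j
    · rw [St.x_not_ok _ fun e => (unNet_ok ..).1 e hij, map_one]
    · simp only [MonoidHom.comp_apply, RingHom.toMonoidHom_eq_coe, MonoidHom.coe_coe]
      rw [phi_x _ ((unNet_ok ..).2 hij), map_add, map_one, RingHom.mapMatrix_apply,
        Matrix.map_single, ha, Matrix.single_zero, add_zero]
  obtain ⟨y, hy⟩ := normal_le_iw ε h1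
  have h3 : ε.mapMatrix (phi (iwNet ε).closed y) = 1 := by
    rw [← phi_iwToUn, hy]
    exact h2 h1
  obtain ⟨b, hb⟩ := D.nil (phi (iwNet ε).closed y - 1) fun i j => by
    have : ε.mapMatrix (phi (iwNet ε).closed y - 1) = 0 := by rw [map_sub, h3, map_one, sub_self]
    exact congrFun (congrFun this i) j
  have h4 : phi (iwNet ε).closed (y ^ 2 ^ b) = 1 := by
    rw [map_pow, ← add_sub_cancel 1 (phi (iwNet ε).closed y), one_add_pow_two_pow,
      pow_eq_zero_of_le (Nat.lt_two_pow_self).le hb, add_zero]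
  have h5 := htr _ h4
  rw [map_pow, hy] at h5
  have h6 := (QuotientGroup.mk' (Subgroup.normalClosure (f '' S))).isOfFinOrder
    (h5.of_pow (by positivity))
  have h7 : QuotientGroup.mk' (Subgroup.normalClosure (f '' S)) (f (w ^ e)) = 1 :=
    (QuotientGroup.eq_one_iff _).2 (hK _ (by rw [MonoidHom.mem_ker, map_pow, hwe]))
  rw [map_mul, map_inv, h7, inv_one, mul_one, map_pow] at h6
  exact h6.of_pow he.ne'

end Vale.Agent.P192Z
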