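import Vale.Agent.P192Z.Grp.TransferB

/-!
# P192: the transfer argument: kernel elements of the Iwahori group become torsion
-/

namespace Vale.Agent.P192Z

namespace Tr

variable {A : Type} [Ring A] [Algebra F2 A] {X : Type} (D : GrData X A) {m : ℕ}

theorem ind' (p : A → Prop) (h0 : p 0) (h1 : p 1) (hx : ∀ x a, p a → p (D.gen x * a))
    (hadd : ∀ a b, p a → p b → p (a + b)) : ∀ a, p a := by
  refine D.ind p h0 (fun w => ?_) hadd
  induction w with
  | nil => simpa using h1
  | cons x w ih => rw [List.map_cons, List.prod_cons]; exact hx x _ ih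

/-- The twisted ring homomorphism. -/
noncomputable def ps (c : Blk F2 m) : A →+* Blk A m := (D.psi (m + 1) c).choose

theorem ps_gen (c : Blk F2 m) (x : X) : ps D c (D.gen x) = c.map fun t => t • D.gen x :=
  (D.psi (m + 1) c).choose_spec x

theorem ps_mul (c : Blk F2 m) (x : X) (a : A) (r r' : Fin (m + 1)) :
    ps D c (D.gen x * a) r r' = ∑ s, c r s • (D.gen x * ps D c a s r') := by
  rw [map_mul, ps_gen, Matrix.mul_apply]
  simp only [Matrix.map_apply, smul_mul_assoc]

theorem eps_ps (c : Blk F2 m) (a : A) :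
    ∀ r r', D.eps (ps D c a r r') = if r = r' then D.eps a else 0 := by
  refine ind' D (fun a => ∀ r r', D.eps (ps D c a r r') = if r = r' then D.eps a else 0)
    (by simp) (fun r r' => ?_) (fun x a _ r r' => ?_) (fun a b ha hb r r' => ?_) a
  · rw [map_one, Matrix.one_apply]; split_ifs <;> simp
  · rw [ps_mul, map_sum, map_mul, D.eps_gen, zero_mul, ite_self]
    refine Finset.sum_eq_zero fun s _ => ?_
    rcases F2_cases (c r s) with h | h
    · rw [h, zero_smul, map_zero]
    · rw [h, one_smul, map_mul, D.eps_gen, zero_mul]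
  · rw [map_add, Matrix.add_apply, map_add, ha, hb, map_add]; split_ifs <;> simp

/-- The twisted ring homomorphism respects the augmentation. -/
noncomputable def gd (c : Blk F2 m) : Good D.eps m where
  f := ps D c
  good := fun a r r' => by
    show D.eps (ps D c a r r') = 0 ∨ _
    rw [eps_ps]
    by_cases h : r = r'
    · by_cases h' : D.eps a = 0
      · left; simp [h']
      · exact Or.inr ⟨h, h'⟩
    · left; simp [h]

theorem gd_f (c : Blk F2 m) (a : A) : (gd D c).f a = ps D c a := rfl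

theorem ps_conj {P c c' : Blk F2 m} (h : P * c' = c * P) (a : A) :
    P.map (algebraMap F2 A) * ps D c' a = ps D c a * P.map (algebraMap F2 A) := by
  refine ind' D
    (fun a => P.map (algebraMap F2 A) * ps D c' a = ps D c a * P.map (algebraMap F2 A))
    (by simp) (by simp) (fun x a ih => ?_) (fun a b ha hb => ?_) a
  · have e : P.map (algebraMap F2 A) * ps D c' (D.gen x) =
        ps D c (D.gen x) * P.map (algebraMap F2 A) := by
      ext r r'
      have := congrArg (fun t => t • D.gen x) (congrFun (congrFun h r) r')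
      simp only [Matrix.mul_apply, Finset.sum_smul] at this
      simp only [ps_gen, Matrix.mul_apply, Matrix.map_apply, Algebra.algebraMap_eq_smul_one,
        smul_mul_assoc, mul_smul_comm, one_mul, mul_one, smul_smul]
      simpa only [mul_comm] using this
    rw [map_mul, map_mul, ← mul_assoc, e, mul_assoc, ih, mul_assoc]
  · rw [map_add, map_add, mul_add, add_mul, ha, hb]

theorem ps_lower {c : Blk F2 m} (hc : ∀ r r', r < r' → c r r' = 0) (a : A) :
    (∀ r r', r < r' → ps D c a r r' = 0) ∧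
      ∀ r, ps D c a r r = if c r r = 1 then a else algebraMap F2 A (D.eps a) := by
  refine ind' D (fun a => (∀ r r', r < r' → ps D c a r r' = 0) ∧
      ∀ r, ps D c a r r = if c r r = 1 then a else algebraMap F2 A (D.eps a))
    (by simp) ⟨fun r r' h => ?_, fun r => ?_⟩ (fun x a ih => ⟨fun r r' h => ?_, fun r => ?_⟩)
    (fun a b ha hb => ⟨fun r r' h => ?_, fun r => ?_⟩) a
  · rw [map_one, Matrix.one_apply_ne h.ne]
  · simp
  · rw [ps_mul]
    refine Finset.sum_eq_zero fun s _ => ?_
    rcases lt_or_ge r s with e | e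
    · rw [hc r s e, zero_smul]
    · rw [ih.1 s r' (lt_of_le_of_lt e h), mul_zero, smul_zero]
  · rw [ps_mul, Finset.sum_eq_single r]
    · rw [ih.2, map_mul, D.eps_gen, zero_mul, map_zero]
      rcases F2_cases (c r r) with h | h
      · simp [h]
      · simp [h]
    · intro s _ hs
      rcases lt_or_gt_of_ne hs with e | e
      · rw [ih.1 s r e, mul_zero, smul_zero]
      · rw [hc r s e, zero_smul]
    · simp
  · rw [map_add, Matrix.add_apply, ha.1 r r' h, hb.1 r r' h, add_zero]
  · rw [map_add, Matrix.add_apply, ha.2, hb.2, map_add, map_add]; split_ifs <;> rfl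

theorem gd_lower {c : Blk F2 m} (hc : ∀ r r', r < r' → c r r' = 0) (s : Finset (Fin (m + 1)))
    (hs : ∀ r, r ∈ s ↔ c r r = 1) {y : St (iwNet D.eps).ok}
    (hy : phi (iwNet D.eps).closed y = 1) : (gd D c).th y = (dl D.eps s).th y :=
  th_eq_dl _ s (fun a => (ps_lower D hc a).1)
    (fun a r hr => by rw [gd_f, (ps_lower D hc a).2, if_pos ((hs r).mp hr)])
    (fun a r hr e => by
      rw [gd_f, (ps_lower D hc a).2, if_neg (fun h => hr ((hs r).mpr h)), e, map_zero]) hy

theorem exists_conj {P c c' : Blk F2 m} (h0 : ∀ r r', r' < r → P r r' = 0) (h1 : ∀ r, P r r = 1)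
    (h : P * c' = c * P) :
    ∃ z ∈ U D.eps m (fun p p' => p.1 = p'.1 ∧ p.2 < p'.2 ∧ P p.2 p'.2 ≠ 0),
      ∀ g, z * (gd D c').th g = (gd D c).th g * z := by
  obtain ⟨z, hz, ez⟩ := exists_Ph (ε := D.eps) (P.map (algebraMap F2 A))
    (fun r r' e => by rw [Matrix.map_apply, h0 r r' e, map_zero])
    (fun r => by rw [Matrix.map_apply, h1, map_one])
  refine ⟨z, UT_mono ?_ hz, conj_th hz ez _ _ (ps_conj D h)⟩
  rintro p p' ⟨e1, e2, e3⟩
  exact ⟨e1, e2, fun e => e3 (by rw [Matrix.map_apply, e, map_zero])⟩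

theorem dl_single (r : Fin (m + 1)) {y : St (iwNet D.eps).ok}
    (hy : phi (iwNet D.eps).closed y = 1) : (dl D.eps {r}).th y = (dl D.eps {0}).th y := by
  by_cases hr : r = 0
  · rw [hr]
  have hr' : (0 : Fin (m + 1)) ≠ r := Ne.symm hr
  have hlt : ∀ t : Fin (m + 1), ¬ t < 0 := fun t => Fin.not_lt_zero t
  obtain ⟨z, hz, ez⟩ := exists_conj D (P := 1 + Matrix.single 0 r 1)
    (c := Matrix.single 0 0 1 + Matrix.single r 0 1)
    (c' := Matrix.single r r 1 + Matrix.single r 0 1)
    (fun t t' h => by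
      rw [Matrix.add_apply, Matrix.one_apply_ne h.ne', Matrix.single_apply, if_neg, add_zero]
      rintro ⟨rfl, rfl⟩
      exact hlt _ h)
    (fun t => by
      rw [Matrix.add_apply, Matrix.one_apply_eq, Matrix.single_apply, if_neg, add_zero]
      rintro ⟨rfl, e⟩
      exact hr e)
    (by
      simp only [add_mul, mul_add, one_mul, mul_one, Matrix.single_mul_single_same]
      abel)
  have e1 := gd_lower D (c := Matrix.single 0 0 1 + Matrix.single r 0 1)
    (fun t t' h => by
      rw [Matrix.add_apply, Matrix.single_apply, Matrix.single_apply, if_neg, if_neg, add_zero]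
      · rintro ⟨_, rfl⟩; exact hlt _ h
      · rintro ⟨_, rfl⟩; exact hlt _ h) {0}
    (fun t => by
      rw [Matrix.add_apply, Matrix.single_apply, Matrix.single_apply, Finset.mem_singleton]
      by_cases h : t = 0
      · simp [h, hr]
      · simp [h, Ne.symm h]) hy
  have e2 := gd_lower D (c := Matrix.single r r 1 + Matrix.single r 0 1)
    (fun t t' h => by
      rw [Matrix.add_apply, Matrix.single_apply, Matrix.single_apply, if_neg, if_neg, add_zero]
      · rintro ⟨_, rfl⟩; exact hlt _ h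
      · rintro ⟨rfl, rfl⟩; exact lt_irrefl _ h) {r}
    (fun t => by
      rw [Matrix.add_apply, Matrix.single_apply, Matrix.single_apply, Finset.mem_singleton]
      by_cases h : t = r
      · simp [h, hr']
      · simp [h, Ne.symm h]) hy
  have e3 := ez y
  rw [e1, e2] at e3
  have hz' : z ∈ U D.eps m (fun p p' => p.2 = 0 ∧ p'.2 = r) := by
    refine UT_mono ?_ hz
    rintro p p' ⟨_, h1, h2⟩
    rw [Matrix.add_apply, Matrix.one_apply_ne h1.ne, zero_add, Matrix.single_apply] at h2
    by_contra h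
    exact h2 (if_neg fun h' => h ⟨h'.1.symm, h'.2.symm⟩)
  have hw := conj_UT_UT (bigNet D.eps m).closed (T := fun p p' => p.2 = 0 ∧ p'.2 = r)
    (T' := fun p p' => p.2 = p'.2 ∧ p.2 ∈ ({r} : Finset (Fin (m + 1))))
    (fun p p' h h' => hr (by rw [← Finset.mem_singleton.mp h.2, h.1, h'.1]))
    (fun p p' l h h' => absurd (by rw [← Finset.mem_singleton.mp h.2, h.1, h'.1]) hr)
    (fun p p' l h h' => ⟨h'.1, by rw [← h.1, h'.2]⟩) (dl_mem {r} y) hz'
  have e4 : (dl D.eps {r}).th y * z * ((dl D.eps {r}).th y)⁻¹ = z := by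
    refine unip_ext (bigNet D.eps m).closed (fun p => p.2.val) ?_ hw hz' ?_
    · rintro p p' ⟨h1, h2⟩
      simp only [h1, h2]
      exact Nat.pos_of_ne_zero fun e => hr (Fin.ext e)
    · rw [map_mul, map_mul, Good.Phi_th_eq_one _ hy, one_mul, ← map_inv, Good.Phi_th_eq_one _ (by
        rw [← one_mul (phi _ y⁻¹), ← hy, ← map_mul, mul_inv_cancel, map_one, hy]), mul_one]
  rw [mul_inv_eq_iff_eq_mul, e3] at e4
  exact mul_right_cancel e4

theorem dl_pow (s : Finset (Fin (m + 1))) {y : St (iwNet D.eps).ok}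
    (hy : phi (iwNet D.eps).closed y = 1) :
    (dl D.eps s).th y = unToBig D.eps m (iwToUn D.eps y) ^ s.card := by
  induction s using Finset.induction_on with
  | empty => rw [dl_empty, Finset.card_empty, pow_zero]
  | insert r s hr ih =>
    rw [dl_insert hr, ih, dl_single D r hy, dl_zero, Finset.card_insert_of_notMem hr, pow_succ']

/-- The cyclic shift. -/
def cyc (m : ℕ) : Blk F2 m := Matrix.of fun r s => if s = r - 1 then 1 else 0

/-- The nilpotent shift. -/
def shf (m : ℕ) : Blk F2 m := Matrix.of fun r s => if r.val = s.val + 1 then 1 else 0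

theorem ps_cyc (x : X) (a : A) (r r' : Fin (m + 1)) :
    ps D (cyc m) (D.gen x * a) r r' = D.gen x * ps D (cyc m) a (r - 1) r' := by
  rw [ps_mul, Finset.sum_eq_single (r - 1)]
  · simp [cyc]
  · intro s _ hs; simp [cyc, hs]
  · simp

theorem ps_shf (x : X) (a : A) (r r' : Fin (m + 1)) :
    ps D (shf m) (D.gen x * a) r r' =
      if r = 0 then 0 else D.gen x * ps D (shf m) a (r - 1) r' := by
  rw [ps_mul]
  split_ifs with h
  · refine Finset.sum_eq_zero fun s _ => ?_
    simp [shf, h]
  · have hv : (r - 1).val = r.val - 1 := by rw [Fin.coe_sub_one, if_neg h]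
    have h' : r.val ≠ 0 := fun e => h (Fin.ext e)
    rw [Finset.sum_eq_single (r - 1)]
    · have : r.val = (r - 1).val + 1 := by omega
      simp only [shf, Matrix.of_apply, if_pos this, one_smul]
    · intro s _ hs
      have : ¬ r.val = s.val + 1 := fun e => hs (Fin.ext (by omega))
      simp only [shf, Matrix.of_apply, if_neg this, zero_smul]
    · simp

/-- Band structure of the images under the two shifts. -/
def Band (n : ℕ) (a : A) : Prop :=
  ∀ (m : ℕ) (r r' : Fin (m + 1)),
    (ps D (shf m) a r r' ≠ 0 → r'.val ≤ r.val ∧ r.val ≤ r'.val + n) ∧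
    (ps D (cyc m) a r r' ≠ ps D (shf m) a r r' → r.val < n ∧ m + 1 ≤ r'.val + n)

theorem exists_band (a : A) : ∃ n, Band D n a := by
  refine ind' D (fun a => ∃ n, Band D n a) ⟨0, fun m r r' => by simp⟩
    ⟨0, fun m r r' => ⟨fun h => ?_, by simp⟩⟩ ?_ ?_ a
  · rw [map_one, Matrix.one_apply] at h
    have : r = r' := by
      by_contra e
      exact h (if_neg e)
    omega
  · rintro x a ⟨n, hn⟩
    refine ⟨n + 1, fun m r r' => ?_⟩
    have hv := Fin.coe_sub_one r
    obtain ⟨h1, h2⟩ := hn m (r - 1) r'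
    rw [ps_cyc, ps_shf]
    by_cases hr : r = 0
    · rw [if_pos hr] at hv ⊢
      refine ⟨fun h => absurd rfl h, fun h => ⟨by rw [hr]; simp, ?_⟩⟩
      by_cases e : ps D (shf m) a (r - 1) r' = 0
      · have := h2 (fun e' => h (by rw [e', e, mul_zero]))
        omega
      · have := h1 e
        omega
    · rw [if_neg hr] at hv ⊢
      have h' : r.val ≠ 0 := fun e => hr (Fin.ext e)
      refine ⟨fun h => ?_, fun h => ?_⟩
      · have := h1 (fun e => h (by rw [e, mul_zero]))
        omega
      · have := h2 (fun e => h (by rw [e]))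
        omega
  · rintro a b ⟨n, hn⟩ ⟨k, hk⟩
    refine ⟨n + k, fun m r r' => ?_⟩
    obtain ⟨h1, h2⟩ := hn m r r'
    obtain ⟨h3, h4⟩ := hk m r r'
    simp only [map_add, Matrix.add_apply]
    refine ⟨fun h => ?_, fun h => ?_⟩
    · by_cases e : ps D (shf m) a r r' = 0
      · have := h3 (fun e' => h (by rw [e, e', add_zero]))
        omega
      · have := h1 e
        omega
    · by_cases e : ps D (cyc m) a r r' = ps D (shf m) a r r'
      · have := h4 (fun e' => h (by rw [e, e']))
        omega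
      · have := h2 e
        omega

theorem exists_local (g : St (iwNet D.eps).ok) : ∃ d : ℕ, ∀ m : ℕ, 2 * d ≤ m →
    (gd D (cyc m)).th g * ((gd D (shf m)).th g)⁻¹ ∈
      U D.eps m (fun p p' => p.2.val < d ∧ m + 1 ≤ p'.2.val + d) := by
  refine St.induction_left (iwNet D.eps).closed (p := fun g => ∃ d : ℕ, ∀ m : ℕ, 2 * d ≤ m →
    (gd D (cyc m)).th g * ((gd D (shf m)).th g)⁻¹ ∈
      U D.eps m (fun p p' => p.2.val < d ∧ m + 1 ≤ p'.2.val + d)) ⟨0, fun m _ => by simp⟩ ?_ g
  rintro i j a g ha ⟨d, hd⟩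
  obtain ⟨n, hn⟩ := exists_band D a
  have hij : i ≠ j := ha.2.2.1
  refine ⟨d + n, fun m hm => ?_⟩
  rw [th_step, th_mul_inv_x _ _ ha]
  refine Subgroup.mul_mem _ (XB_mem' (((gd D _).adm ha).sub ((gd D _).adm ha)) fun r r' h => ?_) ?_
  · have := (hn m r r').2 (fun e => h (by rw [Matrix.sub_apply, gd_f, gd_f, e, sub_self]))
    simp only
    omega
  · have hx : (gd D (shf m)).th (St.x _ i j a) ∈ U D.eps m (fun p p' =>
        p.1 = i ∧ p'.1 = j ∧ p'.2.val ≤ p.2.val ∧ p.2.val ≤ p'.2.val + n) := by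
      rw [Good.th_x _ ha]
      exact XB_mem' ((gd D _).adm ha) fun r r' h => ⟨rfl, rfl, (hn m r r').1 h⟩
    refine UT_mono ?_ (conj_UT_UT (bigNet D.eps m).closed
      (T := fun p p' => (p.2.val < d ∨ (p.1 = i ∧ p.2.val < d + n)) ∧
        (m + 1 ≤ p'.2.val + d ∨ (p'.1 = j ∧ m + 1 ≤ p'.2.val + (d + n)))) ?_ ?_ ?_ hx
      (UT_mono (fun p p' h => ⟨Or.inl h.1, Or.inl h.2⟩) (hd m (by omega))))
    · rintro p p' ⟨h1, h2⟩
      constructor <;> omega
    · rintro p p' ⟨e1, e2, e3, e4⟩ ⟨h1 | h1, h2 | h2⟩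
      · omega
      · exact hij (by rw [← e1, h2.1])
      · exact hij (by rw [← e2, h1.1])
      · exact hij (by rw [← e2, h1.1])
    · rintro p p' l ⟨e1, e2, e3, e4⟩ ⟨h1 | h1, h2⟩
      · exact ⟨Or.inr ⟨e1, by omega⟩, h2⟩
      · exact absurd (by rw [← e2, h1.1]) hij
    · rintro p p' l ⟨e1, e2, e3, e4⟩ ⟨h1, h2 | h2⟩
      · exact ⟨h1, Or.inr ⟨e2, by omega⟩⟩
      · exact absurd (by rw [← e1, h2.1]) hij

theorem cyc_eq_one {y : St (iwNet D.eps).ok} (hy : phi (iwNet D.eps).closed y = 1) :
    ∃ d : ℕ, ∀ m : ℕ, d ≤ m → (gd D (cyc m)).th y = 1 := by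
  obtain ⟨d, hd⟩ := exists_local D y
  refine ⟨2 * d, fun m hm => ?_⟩
  have h1 := hd m hm
  have h2 : (gd D (shf m)).th y = 1 := by
    rw [gd_lower D (c := shf m) (fun r r' h => by
      have : r.val < r'.val := h
      simp only [shf, Matrix.of_apply]
      rw [if_neg (by omega)]) ∅ (fun r => by simp [shf]) hy, dl_empty]
  rw [h2, inv_one, mul_one] at h1
  refine unip_inj (bigNet D.eps m).closed (fun p => if p.2.val < d then 0 else 1) ?_ h1
    (Good.Phi_th_eq_one _ hy)
  rintro p p' ⟨e1, e2⟩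
  rw [if_pos e1, if_neg (by omega)]
  exact Nat.zero_lt_one

/-- The Pascal matrix. -/
def pas (m : ℕ) : Blk F2 m := Matrix.of fun s r => ((r.val.choose s.val : ℕ) : F2)

theorem pas_conj {m k : ℕ} (hm : m + 1 = 2 ^ k) : pas m * (1 + shf m) = cyc m * pas m := by
  ext s r
  have e1 : (cyc m * pas m) s r = ((r.val.choose (s - 1).val : ℕ) : F2) := by
    rw [Matrix.mul_apply, Finset.sum_eq_single (s - 1)]
    · simp [cyc, pas]
    · intro t _ ht; simp [cyc, ht]
    · simp
  have e2 : (pas m * shf m) s r =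
      if r.val < m then (((r.val + 1).choose s.val : ℕ) : F2) else 0 := by
    rw [Matrix.mul_apply]
    split_ifs with h
    · rw [Finset.sum_eq_single ⟨r.val + 1, by omega⟩]
      · simp [shf, pas]
      · intro t _ ht
        have : ¬ t.val = r.val + 1 := fun e => ht (Fin.ext e)
        simp [shf, this]
      · simp
    · refine Finset.sum_eq_zero fun t _ => ?_
      have : ¬ t.val = r.val + 1 := by have := t.2; omega
      simp [shf, this]
  have h2 : (2 : F2) = 0 := rfl
  rw [mul_add, mul_one, Matrix.add_apply, e1, e2, Fin.coe_sub_one]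
  simp only [pas, Matrix.of_apply]
  by_cases hs : s = 0
  · subst hs
    simp only [if_true, Fin.val_zero, Nat.choose_zero_right, Nat.cast_one]
    split_ifs with h
    · rw [Nat.choose_eq_zero_of_lt h]; rfl
    · have : r.val = m := by have := r.2; omega
      rw [this, Nat.choose_self]; rfl
  · rw [if_neg hs]
    obtain ⟨t, ht⟩ : ∃ t, s.val = t + 1 := ⟨s.val - 1, by
      have : s.val ≠ 0 := fun e => hs (Fin.ext e)
      omega⟩
    have e3 : (((r.val + 1).choose s.val : ℕ) : F2) =
        (r.val.choose (s.val - 1) : ℕ) + (r.val.choose s.val : ℕ) := by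
      rw [ht, Nat.choose_succ_succ', Nat.cast_add, Nat.add_sub_cancel]
    split_ifs with h
    · rw [e3, add_comm, add_assoc, ← two_mul, h2, zero_mul, add_zero]
    · have h3 : r.val + 1 = 2 ^ k := by have := r.2; omega
      have h4 : (((r.val + 1).choose s.val : ℕ) : F2) = 0 := by
        rw [h3, ZMod.natCast_eq_zero_iff]
        exact Nat.prime_two.dvd_choose_pow (by omega) (by have := s.2; omega)
      rw [h4] at e3
      rw [add_zero, eq_neg_of_add_eq_zero_left e3.symm, neg_eq_F2]

end Tr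

open Tr in
theorem transfer {A : Type} [Ring A] [Algebra F2 A] {X : Type} (D : GrData X A)
    (y : St (iwNet D.eps).ok) (hy : phi (iwNet D.eps).closed y = 1) :
    ∃ m : ℕ, unToBig D.eps m (iwToUn D.eps y) ^ (m + 1) = 1 := by
  obtain ⟨d, hd⟩ := cyc_eq_one D hy
  have hlt : d < 2 ^ d := Nat.lt_two_pow_self
  obtain ⟨m, hm⟩ : ∃ m, m + 1 = 2 ^ d := ⟨2 ^ d - 1, by omega⟩
  refine ⟨m, ?_⟩
  obtain ⟨z, _, ez⟩ := exists_conj D (P := pas m) (c := cyc m) (c' := 1 + shf m)
    (fun r r' h => by simp only [pas, Matrix.of_apply]; rw [Nat.choose_eq_zero_of_lt h]; rfl)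
    (fun r => by simp [pas]) (pas_conj hm)
  have e1 := ez y
  rw [hd m (by omega), one_mul, mul_eq_left, gd_lower D (c := 1 + shf m) (fun r r' h => by
      have : r.val < r'.val := h
      simp only [shf, Matrix.add_apply, Matrix.of_apply]
      rw [if_neg (by omega), Matrix.one_apply_ne h.ne, add_zero]) Finset.univ
      (fun r => by simp [shf]) hy, dl_pow D _ hy, Finset.card_univ, Fintype.card_fin] at e1
  exact e1

end Vale.Agent.P192Z
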