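import Vale.Agent.P192Z.Grp.OneF
import Vale.Agent.P192Z.Grp.Transfer
import Vale.Agent.P192Z.Grp.Normal
import Vale.Agent.P192Z.Grp.FP
import Vale.Agent.P192Z.Bridge

/-!
# P192: from a finitely presented graded nil algebra to a finitely presented periodic group
-/

namespace Vale.Agent.P192Z

theorem GrData.unit {X A : Type} [Ring A] [Algebra F2 A] (D : GrData X A) (a : A)
    (ha : D.eps a = 0) : IsUnit (1 + a) := by
  have h := D.nil (Matrix.scalar (Fin 5) a) (fun i j => by
    rw [Matrix.scalar_apply, Matrix.diagonal_apply]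
    split_ifs
    · exact ha
    · exact map_zero _)
  obtain ⟨n, hn⟩ := h
  rw [← map_pow] at hn
  have h2 : a ^ n = 0 := by
    have := congrFun (congrFun hn 0) 0
    simpa using this
  exact IsNilpotent.isUnit_one_add ⟨n, h2⟩

theorem group_main {X : Type} [Fintype X] (P : Pres X) (h1 : P.eqs.Finite) (h2 : P.zeros.Finite)
    (hh : P.Homog) (hi : P.INF) (hn : P.NIL) :
    ∃ (G : Type) (_ : Group G), Group.IsFinitelyPresented G ∧ Infinite G ∧
      ∀ g : G, IsOfFinOrder g := by
  obtain ⟨D⟩ := exists_grData P hh hn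
  obtain ⟨K, hK, hfin, hker, htor⟩ := torsion_quot D fun y hy => by
    obtain ⟨m, hm⟩ := transfer D y hy
    rw [← map_pow, ← map_one (unToBig D.eps m)] at hm
    exact isOfFinOrder_iff_pow_eq_one.2 ⟨m + 1, Nat.succ_pos m, unToBig_injective D.eps D.unit m hm⟩
  have := st_fp P h1 h2 (unNet D.eps).ok (unNet_ok D.eps)
  have := infinite_alg P hh hi
  refine ⟨St (unNet D.eps).ok ⧸ K, inferInstance, Group.IsFinitelyPresented.quotient K hfin, ?_,
    htor⟩
  refine Infinite.of_injective
    (fun a : Alg P => (QuotientGroup.mk (St.x (unNet D.eps).ok 0 1 a) : St (unNet D.eps).ok ⧸ K))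
    fun a b hab => ?_
  have h01 : ∀ c, (unNet D.eps).ok 0 1 c := fun c => (unNet_ok ..).2 (by decide)
  have h3 := hker (QuotientGroup.eq.mp hab)
  rw [MonoidHom.mem_ker, (St.isSt _).inv (unNet D.eps).closed (h01 a),
    ← (St.isSt _).add (h01 a) (h01 b), phi_x _ (h01 _)] at h3
  have h4 := congrFun (congrFun h3 0) 1
  simp only [Matrix.add_apply, Matrix.single_apply_same, add_eq_left] at h4
  rw [← neg_eq_F2 b]
  exact eq_neg_of_add_eq_zero_left h4

end Vale.Agent.P192Z
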