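import Vale.Agent.P192Z.Grp.Unip

/-!
# P192: diagonal automorphisms and torus elements of Steinberg groups of nets
-/

namespace Vale.Agent.P192Z

open scoped commutatorElement

variable {ι A : Type} [Ring A] [Algebra F2 A]

namespace One

variable (N : Net ι A)

omit [Algebra F2 A] in
theorem ok_conj {i j : ι} {a : A} (h : N.ok i j a) (u w : A) : N.ok i j (u * a * w) := by
  refine ⟨h.1, h.2.1, h.2.2.1, h.2.2.2.imp id fun e => ?_⟩
  rw [map_mul, map_mul, e, mul_zero, zero_mul]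

omit [Algebra F2 A] in
theorem ok_top {i j : ι} (hi : i ∈ N.S) (h0 : N.lev i = 0) (hj : j ∈ N.S) (h : i ≠ j) (a : A) :
    N.ok i j a := ⟨hi, hj, h, Or.inl (by omega)⟩

omit [Algebra F2 A] in
theorem ok_swap_col {k p p' : ι} {a : A} (h : N.ok k p a) (hp' : p' ∈ N.S) (h0 : N.lev p = 0)
    (hk : k ≠ p') : N.ok k p' a :=
  ⟨h.1, hp', hk, h.2.2.2.imp (fun e => by omega) id⟩

/-- Conjugation by a diagonal matrix. -/
noncomputable def alpha (d : ι → Aˣ) : St N.ok →* St N.ok :=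
  St.lift N.closed (fun i j a => St.x N.ok i j (d i * a * (d j)⁻¹))
    ⟨fun ha hb => by
      rw [← (St.isSt N.ok).add (ok_conj N ha _ _) (ok_conj N hb _ _), mul_add, add_mul],
     fun ha hb h1 h2 => (St.isSt N.ok).comm (ok_conj N ha _ _) (ok_conj N hb _ _) h1 h2,
     fun ha hb h1 => by
      rw [(St.isSt N.ok).mul (ok_conj N ha _ _) (ok_conj N hb _ _) h1]
      simp only [mul_assoc, Units.inv_mul_cancel_left]⟩

omit [Algebra F2 A] in
theorem alpha_x (d : ι → Aˣ) {i j : ι} {a : A} (h : N.ok i j a) :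
    alpha N d (St.x N.ok i j a) = St.x N.ok i j (d i * a * (d j)⁻¹) := St.lift_x _ _ _ h

omit [Algebra F2 A] in
theorem alpha_mul (d e : ι → Aˣ) (y : St N.ok) : alpha N d (alpha N e y) = alpha N (d * e) y := by
  have : (alpha N d).comp (alpha N e) = alpha N (d * e) := by
    refine St.hom_ext fun i j a h => ?_
    rw [MonoidHom.comp_apply, alpha_x N e h, alpha_x N d (ok_conj N h _ _), alpha_x N _ h]
    simp only [Pi.mul_apply, Units.val_mul, mul_inv_rev, mul_assoc]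
  exact DFunLike.congr_fun this y

omit [Algebra F2 A] in
theorem alpha_one (y : St N.ok) : alpha N 1 y = y := by
  have : alpha N 1 = MonoidHom.id _ := by
    refine St.hom_ext fun i j a h => ?_
    rw [alpha_x N _ h]; simp
  exact DFunLike.congr_fun this y

theorem alpha_mem (d : ι → Aˣ) {T : ι → ι → Prop} {g : St N.ok} (hg : g ∈ UT N.ok T) :
    alpha N d g ∈ UT N.ok T :=
  UT_induction N.closed (p := fun g => alpha N d g ∈ UT N.ok T) (by simp)
    (fun i j a g ha hT _ ih => by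
      rw [map_mul, alpha_x N d ha]
      exact Subgroup.mul_mem _ (x_mem_UT hT) ih) hg

/-- The subgroup avoiding the index `p`. -/
abbrev Av (p : ι) : Subgroup (St N.ok) := UT N.ok fun k l => k ≠ p ∧ l ≠ p

/-- The row group. -/
abbrev Row (p : ι) : Subgroup (St N.ok) := UT N.ok fun k l => k = p ∧ l ≠ p

/-- The column group. -/
abbrev Col (p : ι) : Subgroup (St N.ok) := UT N.ok fun k l => k ≠ p ∧ l = p

theorem alpha_congr {d e : ι → Aˣ} {p : ι} (h : ∀ k, k ≠ p → d k = e k) {g : St N.ok}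
    (hg : g ∈ Av N p) : alpha N d g = alpha N e g :=
  UT_induction N.closed (p := fun g => alpha N d g = alpha N e g) (by simp)
    (fun i j a g ha hT _ ih => by
      rw [map_mul, map_mul, alpha_x N d ha, alpha_x N e ha, ih, h i hT.1, h j hT.2]) hg

theorem conj_row {p : ι} {z g : St N.ok} (hz : z ∈ Av N p) (hg : g ∈ Row N p) :
    z * g * z⁻¹ ∈ Row N p :=
  conj_UT_UT N.closed (fun _ _ h h' => h.2 h'.1) (fun _ _ _ h h' => absurd h'.1 h.2)
    (fun _ _ _ h h' => ⟨h'.1, h.2⟩) hz hg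

theorem conj_col {p : ι} {z g : St N.ok} (hz : z ∈ Av N p) (hg : g ∈ Col N p) :
    z * g * z⁻¹ ∈ Col N p :=
  conj_UT_UT N.closed (fun _ _ h h' => h.1 h'.2) (fun _ _ _ h h' => ⟨h.1, h'.2⟩)
    (fun _ _ _ h h' => absurd h'.2 h.1) hz hg

variable [Fintype ι] [DecidableEq ι]

theorem row_ext {p : ι} {g h : St N.ok} (hg : g ∈ Row N p) (hh : h ∈ Row N p)
    (e : phi N.closed g = phi N.closed h) : g = h :=
  unip_ext N.closed (fun k => if k = p then 0 else 1) (fun _ _ h => by simp [h.1, h.2]) hg hh e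

theorem col_ext {p : ι} {g h : St N.ok} (hg : g ∈ Col N p) (hh : h ∈ Col N p)
    (e : phi N.closed g = phi N.closed h) : g = h :=
  unip_ext N.closed (fun k => if k = p then 1 else 0) (fun _ _ h => by simp [h.1, h.2]) hg hh e

/-- The diagonal matrix. -/
def DM (d : ι → Aˣ) : Matrix ι ι A := Matrix.diagonal fun k => (d k : A)

omit [Algebra F2 A] in
theorem DM_mul (d e : ι → Aˣ) : DM (d * e) = DM d * DM e := by
  unfold DM; rw [Matrix.diagonal_mul_diagonal]; rfl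

omit [Algebra F2 A] [Fintype ι] in
theorem DM_one : DM (1 : ι → Aˣ) = 1 := by
  unfold DM; simp

omit [Algebra F2 A] in
theorem DM_conj (d : ι → Aˣ) (i j : ι) (a : A) :
    DM d * (1 + Matrix.single i j a) = (1 + Matrix.single i j (d i * a * (d j)⁻¹)) * DM d := by
  rw [mul_add, add_mul, mul_one, one_mul]
  congr 1
  ext k l
  unfold DM
  rw [Matrix.diagonal_mul, Matrix.mul_diagonal]
  by_cases h : i = k ∧ j = l
  · obtain ⟨rfl, rfl⟩ := h
    simp
  · simp [h]

/-- `g` acts as the diagonal matrix `d`. -/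
structure IsD (g : St N.ok) (d : ι → Aˣ) : Prop where
  conj : ∀ y, g * y * g⁻¹ = alpha N d y
  mat : phi N.closed g = DM d

variable {N}

theorem IsD.mul {g h : St N.ok} {d e : ι → Aˣ} (hg : IsD N g d) (hh : IsD N h e) :
    IsD N (g * h) (d * e) :=
  ⟨fun y => by rw [← alpha_mul, ← hh.conj, ← hg.conj]; group,
   by rw [map_mul, hg.mat, hh.mat, DM_mul]⟩

theorem IsD.inv {g : St N.ok} {d : ι → Aˣ} (hg : IsD N g d) : IsD N g⁻¹ d⁻¹ := by
  refine ⟨fun y => ?_, ?_⟩
  · have := hg.conj (alpha N d⁻¹ y)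
    rw [alpha_mul, mul_inv_cancel, alpha_one] at this
    calc g⁻¹ * y * g⁻¹⁻¹ = g⁻¹ * (g * alpha N d⁻¹ y * g⁻¹) * g⁻¹⁻¹ := by rw [this]
      _ = alpha N d⁻¹ y := by group
  · have h1 : phi N.closed g⁻¹ * DM d = 1 := by rw [← hg.mat, ← map_mul, inv_mul_cancel, map_one]
    calc phi N.closed g⁻¹ = phi N.closed g⁻¹ * DM d * DM d⁻¹ := by
          rw [mul_assoc, ← DM_mul, mul_inv_cancel, DM_one, mul_one]
      _ = DM d⁻¹ := by rw [h1, one_mul]

theorem IsD.congr {g : St N.ok} {d e : ι → Aˣ} (hg : IsD N g d) (h : d = e) : IsD N g e := h ▸ hg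

theorem IsD.comm {g : St N.ok} {d : ι → Aˣ} (hg : IsD N g d) (y : St N.ok) :
    g * y = alpha N d y * g := by rw [← hg.conj]; group

theorem conj_of_diag {g : St N.ok} {d : ι → Aˣ} (hm : phi N.closed g = DM d) {k l : ι} {a : A}
    (ha : N.ok k l a) (h : g ∈ Av N k ∨ g ∈ Av N l) :
    g * St.x N.ok k l a * g⁻¹ = St.x N.ok k l (d k * a * (d l)⁻¹) := by
  have e : phi N.closed (g * St.x N.ok k l a * g⁻¹) =
      phi N.closed (St.x N.ok k l (d k * a * (d l)⁻¹)) := by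
    rw [map_mul, map_mul, hm, phi_x _ ha, DM_conj, phi_x _ (ok_conj N ha _ _), mul_assoc, ← hm,
      ← map_mul, mul_inv_cancel, map_one, mul_one]
  rcases h with h | h
  · exact row_ext N (conj_row N h (x_mem_UT ⟨rfl, ha.2.2.1.symm⟩))
      (x_mem_UT ⟨rfl, ha.2.2.1.symm⟩) e
  · exact col_ext N (conj_col N h (x_mem_UT ⟨ha.2.2.1, rfl⟩)) (x_mem_UT ⟨ha.2.2.1, rfl⟩) e

variable (N)

/-- The torus element. -/
def HH (i j : ι) (t s : A) (v : Aˣ) : St N.ok :=
  St.x N.ok j i (s * ↑v⁻¹) * St.x N.ok i j t * St.x N.ok j i s * St.x N.ok i j (↑v⁻¹ * t)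

/-- The unit `1 + s t`. -/
def wU (t s : A) (v : Aˣ) (hv : (v : A) = 1 + t * s) : Aˣ :=
  ⟨1 + s * t, 1 + s * ↑v⁻¹ * t,
    by
      have h : (1 + t * s) * ↑v⁻¹ = 1 := by rw [← hv, Units.mul_inv]
      have : (1 + s * t) * (1 + s * ↑v⁻¹ * t) =
          1 + s * t + s * ((1 + t * s) * ↑v⁻¹) * t := by noncomm_ring
      rw [this, h, mul_one, add_assoc, add_self_F2, add_zero],
    by
      have h : ↑v⁻¹ * (1 + t * s) = 1 := by rw [← hv, Units.inv_mul]
      have : (1 + s * ↑v⁻¹ * t) * (1 + s * t) =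
          1 + s * t + s * (↑v⁻¹ * (1 + t * s)) * t := by noncomm_ring
      rw [this, h, mul_one, add_assoc, add_self_F2, add_zero]⟩

omit [Fintype ι] [DecidableEq ι] [Algebra F2 A] in
theorem HH_mem {i j p : ι} (hi : i ≠ p) (hj : j ≠ p) (t s : A) (v : Aˣ) :
    HH N i j t s v ∈ Av N p :=
  Subgroup.mul_mem _ (Subgroup.mul_mem _ (Subgroup.mul_mem _ (x_mem_UT ⟨hj, hi⟩)
    (x_mem_UT ⟨hi, hj⟩)) (x_mem_UT ⟨hj, hi⟩)) (x_mem_UT ⟨hi, hj⟩)

omit [Fintype ι] [DecidableEq ι] in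
theorem x_mul_x {i j : ι} {t s : A} (ht : N.ok i j t) (hs : N.ok j i s) (v : Aˣ) :
    St.x N.ok i j t * St.x N.ok j i s =
      St.x N.ok j i (s * ↑v⁻¹) * HH N i j t s v * St.x N.ok i j (↑v⁻¹ * t) := by
  have h1 : N.ok j i (s * ↑v⁻¹) := by simpa using ok_conj N hs 1 ↑v⁻¹
  have h2 : N.ok i j (↑v⁻¹ * t) := by simpa using ok_conj N ht ↑v⁻¹ 1
  unfold HH
  simp only [← mul_assoc]
  rw [(St.isSt N.ok).mul_self N.closed h1, one_mul, mul_assoc _ (St.x N.ok i j (↑v⁻¹ * t)),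
    (St.isSt N.ok).mul_self N.closed h2, mul_one]

theorem phi_HH {i j : ι} {t s : A} (ht : N.ok i j t) (hs : N.ok j i s) (v : Aˣ)
    (hv : (v : A) = 1 + t * s) :
    phi N.closed (HH N i j t s v) = DM (Pi.mulSingle i v * Pi.mulSingle j (wU t s v hv)⁻¹) := by
  have hij := ht.2.2.1
  have h1 : N.ok j i (s * ↑v⁻¹) := by simpa using ok_conj N hs 1 ↑v⁻¹
  have h2 : N.ok i j (↑v⁻¹ * t) := by simpa using ok_conj N ht ↑v⁻¹ 1
  have h3 : ↑v⁻¹ * (1 + t * s) = 1 := by rw [← hv, Units.inv_mul]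
  have h4 : (1 + t * s) * ↑v⁻¹ = 1 := by rw [← hv, Units.mul_inv]
  have e1 : s + s * ↑v⁻¹ + s * ↑v⁻¹ * t * s = 0 := by
    have : s + s * ↑v⁻¹ + s * ↑v⁻¹ * t * s = s + s * (↑v⁻¹ * (1 + t * s)) := by noncomm_ring
    rw [this, h3, mul_one, add_self_F2]
  have e2 : t + ↑v⁻¹ * t + t * s * (↑v⁻¹ * t) = 0 := by
    have : t + ↑v⁻¹ * t + t * s * (↑v⁻¹ * t) = t + ((1 + t * s) * ↑v⁻¹) * t := by noncomm_ring
    rw [this, h4, one_mul, add_self_F2]
  have a1 : (1 + Matrix.single j i (s * ↑v⁻¹)) * (1 + Matrix.single i j t) *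
      (1 + Matrix.single j i s) =
      1 + Matrix.single i j t + Matrix.single i i (t * s) + Matrix.single j j (s * ↑v⁻¹ * t) +
        Matrix.single j i (s + s * ↑v⁻¹ + s * ↑v⁻¹ * t * s) := by
    simp only [add_mul, mul_add, one_mul, mul_one, Matrix.single_mul_single_same,
      Matrix.single_mul_single_of_ne _ _ _ _ hij, Matrix.single_add]
    abel
  have a2 : (1 + Matrix.single i j t + Matrix.single i i (t * s) +
      Matrix.single j j (s * ↑v⁻¹ * t)) * (1 + Matrix.single i j (↑v⁻¹ * t)) =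
      1 + Matrix.single i i (t * s) + Matrix.single j j (s * ↑v⁻¹ * t) +
        Matrix.single i j (t + ↑v⁻¹ * t + t * s * (↑v⁻¹ * t)) := by
    simp only [add_mul, mul_add, one_mul, mul_one, Matrix.single_mul_single_same,
      Matrix.single_mul_single_of_ne _ _ _ _ hij.symm, Matrix.single_add]
    abel
  unfold HH
  rw [map_mul, map_mul, map_mul, phi_x _ h1, phi_x _ ht, phi_x _ hs, phi_x _ h2, a1, e1,
    Matrix.single_zero, add_zero, a2, e2, Matrix.single_zero, add_zero]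
  ext k l
  unfold DM
  by_cases hkl : k = l
  · subst hkl
    by_cases hi : k = i
    · subst hi
      simp [hij, hij.symm, hv]
    · by_cases hj : k = j
      · subst hj
        simp [hij, hij.symm, wU]
      · simp [hi, hj, Ne.symm hi, Ne.symm hj]
  · have h5 : ¬ (i = k ∧ i = l) := fun h => hkl (h.1.symm.trans h.2)
    have h6 : ¬ (j = k ∧ j = l) := fun h => hkl (h.1.symm.trans h.2)
    simp [hkl, h5, h6]

theorem isD_of_gen {g : St N.ok} {d : ι → Aˣ} (hm : phi N.closed g = DM d)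
    (h : ∀ k l a, N.ok k l a → g * St.x N.ok k l a * g⁻¹ = St.x N.ok k l (d k * a * (d l)⁻¹)) :
    IsD N g d := by
  refine ⟨fun y => ?_, hm⟩
  have : (MulAut.conj g).toMonoidHom = alpha N d :=
    St.hom_ext fun i j a ha => by rw [alpha_x N d ha, ← h i j a ha]; rfl
  exact DFunLike.congr_fun this y

/-- An element of the group of two indices with diagonal matrix acts by that matrix. -/
theorem isD_two {g : St N.ok} {d : ι → Aˣ} (hm : phi N.closed g = DM d) {i j p : ι}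
    (hg : ∀ k, k ≠ i → k ≠ j → g ∈ Av N k) (hi : i ∈ N.S) (hi0 : N.lev i = 0)
    (hp : p ∈ N.S) (hp0 : N.lev p = 0) (hpi : p ≠ i) (hpj : p ≠ j) : IsD N g d := by
  have hgp := hg p hpi hpj
  have split : ∀ k l a b, N.ok k p a → N.ok p l b → k ≠ l →
      g * St.x N.ok k l (a * b) * g⁻¹ = St.x N.ok k l (d k * (a * b) * (d l)⁻¹) := by
    intro k l a b ha hb hkl
    rw [← (St.isSt N.ok).mul ha hb hkl, conjugate_commutatorElement,
      conj_of_diag hm ha (Or.inr hgp), conj_of_diag hm hb (Or.inl hgp),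
      (St.isSt N.ok).mul (ok_conj N ha _ _) (ok_conj N hb _ _) hkl]
    simp only [mul_assoc, Units.inv_mul_cancel_left]
  refine isD_of_gen N hm fun k l a ha => ?_
  by_cases hk : k ≠ i ∧ k ≠ j
  · exact conj_of_diag hm ha (Or.inl (hg k hk.1 hk.2))
  by_cases hl : l ≠ i ∧ l ≠ j
  · exact conj_of_diag hm ha (Or.inr (hg l hl.1 hl.2))
  have hkl := ha.2.2.1
  by_cases hki : k = i
  · subst hki
    have hlp : p ≠ l := by rintro rfl; exact hl ⟨hpi, hpj⟩
    simpa using split k l 1 a (ok_top N hi hi0 hp hpi.symm 1) (ok_top N hp hp0 ha.2.1 hlp a) hkl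
  · have hkj : k = j := by by_contra h; exact hk ⟨hki, h⟩
    subst hkj
    have hli : l = i := by by_contra h; exact hl ⟨h, hkl.symm⟩
    subst hli
    simpa using split k l a 1 (ok_swap_col N ha hp hi0 hpj.symm) (ok_top N hp hp0 hi hpi 1) hkl

theorem isD_HH {i j p : ι} {t s : A} (ht : N.ok i j t) (hs : N.ok j i s) (v : Aˣ)
    (hv : (v : A) = 1 + t * s) (hi0 : N.lev i = 0)
    (hp : p ∈ N.S) (hp0 : N.lev p = 0) (hpi : p ≠ i) (hpj : p ≠ j) :
    IsD N (HH N i j t s v) (Pi.mulSingle i v * Pi.mulSingle j (wU t s v hv)⁻¹) :=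
  isD_two N (phi_HH N ht hs v hv) (fun _ h1 h2 => HH_mem N h1.symm h2.symm t s v) ht.1 hi0
    hp hp0 hpi hpj

/-- The Weyl element exchanging two unital indices. -/
def WW (p q : ι) : St N.ok := St.x N.ok p q 1 * St.x N.ok q p 1 * St.x N.ok p q 1

omit [Fintype ι] [DecidableEq ι] in
theorem WW_row {p q l : ι} (hp : p ∈ N.S) (hp0 : N.lev p = 0) (hq : q ∈ N.S) (hq0 : N.lev q = 0)
    (hpq : p ≠ q) (hl : l ∈ N.S) (hlp : l ≠ p) (hlq : l ≠ q) (a : A) :
    MulAut.conj (WW N p q) (St.x N.ok p l a) = St.x N.ok q l a := by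
  have h := St.isSt N.ok
  have h1 := ok_top N hp hp0 hq hpq (1 : A)
  have h2 := ok_top N hq hq0 hp hpq.symm (1 : A)
  have h3 := ok_top N hp hp0 hl hlp.symm a
  have h4 := ok_top N hq hq0 hl hlq.symm a
  have c1 : MulAut.conj (St.x N.ok p q 1) (St.x N.ok p l a) = St.x N.ok p l a :=
    h.conj_comm h1 h3 hpq.symm hlp.symm
  have c2 : MulAut.conj (St.x N.ok q p 1) (St.x N.ok p l a) =
      St.x N.ok q l a * St.x N.ok p l a := by simpa using h.conj_left h2 h3 hlq.symm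
  have c3 : MulAut.conj (St.x N.ok p q 1) (St.x N.ok q l a) =
      St.x N.ok p l a * St.x N.ok q l a := by simpa using h.conj_left h1 h4 hlp.symm
  unfold WW
  rw [map_mul, map_mul, MulAut.mul_apply, MulAut.mul_apply, c1, c2, map_mul, c3, c1,
    (h.comm h3 h4 hlq hlp.symm).eq, mul_assoc, h.mul_self N.closed h3, mul_one]

omit [Fintype ι] [DecidableEq ι] in
theorem WW_col {p q l : ι} (hp : p ∈ N.S) (hp0 : N.lev p = 0) (hq : q ∈ N.S) (hq0 : N.lev q = 0)
    (hpq : p ≠ q) (hlq : l ≠ q) {a : A} (h3 : N.ok l p a) :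
    MulAut.conj (WW N p q) (St.x N.ok l p a) = St.x N.ok l q a := by
  have h := St.isSt N.ok
  have hlp := h3.2.2.1
  have h1 := ok_top N hp hp0 hq hpq (1 : A)
  have h2 := ok_top N hq hq0 hp hpq.symm (1 : A)
  have h4 := ok_swap_col N h3 hq hp0 hlq
  have c1 : MulAut.conj (St.x N.ok p q 1) (St.x N.ok l p a) =
      St.x N.ok l q a * St.x N.ok l p a := by simpa using h.conj_right N.closed h3 h1 hlq
  have c2 : MulAut.conj (St.x N.ok q p 1) (St.x N.ok l q a) =
      St.x N.ok l p a * St.x N.ok l q a := by simpa using h.conj_right N.closed h4 h2 hlp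
  have c3 : MulAut.conj (St.x N.ok q p 1) (St.x N.ok l p a) = St.x N.ok l p a :=
    h.conj_comm h2 h3 hlp.symm hpq.symm
  have c4 : MulAut.conj (St.x N.ok p q 1) (St.x N.ok l q a) = St.x N.ok l q a :=
    h.conj_comm h1 h4 hlq.symm hpq
  unfold WW
  rw [map_mul, map_mul, MulAut.mul_apply, MulAut.mul_apply, c1, map_mul, c2, c3,
    (h.comm h3 h4 hlp.symm hlq).eq, mul_assoc, h.mul_self N.closed h3, mul_one, c4]

omit [Fintype ι] [DecidableEq ι] in
theorem WW_HH {p q j : ι} (hp0 : N.lev p = 0) (hq : q ∈ N.S) (hq0 : N.lev q = 0)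
    (hpq : p ≠ q) (hjq : j ≠ q) {t s : A} (hs : N.ok j p s) (v : Aˣ) :
    MulAut.conj (WW N p q) (HH N p j t s v) = HH N q j t s v := by
  have h1 : N.ok j p (s * ↑v⁻¹) := by simpa using ok_conj N hs 1 ↑v⁻¹
  have hp := hs.2.1
  unfold HH
  rw [map_mul, map_mul, map_mul, WW_col N hp hp0 hq hq0 hpq hjq h1,
    WW_col N hp hp0 hq hq0 hpq hjq hs, WW_row N hp hp0 hq hq0 hpq hs.1 hs.2.2.1 hjq,
    WW_row N hp hp0 hq hq0 hpq hs.1 hs.2.2.1 hjq]

theorem WW_fix {g : St N.ok} {d : ι → Aˣ} (hg : IsD N g d) {p q : ι} (hp : p ∈ N.S)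
    (hp0 : N.lev p = 0) (hq : q ∈ N.S) (hq0 : N.lev q = 0) (hpq : p ≠ q) (h1 : d p = 1)
    (h2 : d q = 1) : MulAut.conj (WW N p q) g = g := by
  have e : alpha N d (WW N p q) = WW N p q := by
    unfold WW
    rw [map_mul, map_mul, alpha_x N d (ok_top N hp hp0 hq hpq 1),
      alpha_x N d (ok_top N hq hq0 hp hpq.symm 1), h1, h2]
    simp
  rw [MulAut.conj_apply, ← e, ← hg.comm, e]
  group

end One

end Vale.Agent.P192Z
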