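import Vale.Agent.P192Z.Grp.OneA

/-!
# P192: the extended Levi group of a net
-/

namespace Vale.Agent.P192Z

open scoped commutatorElement

variable {ι A : Type} [Ring A] [Algebra F2 A]

namespace One

/-- A base index and enough unital indices. -/
structure Ctx (N : Net ι A) where
  m : ι
  hm : m ∈ N.S
  hm0 : N.lev m = 0
  spare : ∀ a b c : ι, ∃ p ∈ N.S, N.lev p = 0 ∧ p ≠ a ∧ p ≠ b ∧ p ≠ c

variable {N : Net ι A} (C : Ctx N)

/-- The torus element of a unit. -/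
def hh (p : ι) (v : Aˣ) : St N.ok := HH N p C.m (v + 1) 1 v

theorem val_eq (v : Aˣ) : (v : A) = 1 + (v + 1) * 1 := by
  rw [mul_one, add_comm (v : A), ← add_assoc, add_self_F2, zero_add]

theorem wU_val (v : Aˣ) : wU ((v : A) + 1) 1 v (val_eq v) = v := by
  ext
  show 1 + 1 * ((v : A) + 1) = v
  rw [one_mul, add_comm (v : A), ← add_assoc, add_self_F2, zero_add]

omit [Algebra F2 A] in
theorem hh_mem {p q : ι} (hp : p ≠ q) (hq : C.m ≠ q) (v : Aˣ) : hh C p v ∈ Av N q :=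
  HH_mem N hp hq _ _ _

theorem hh_one {p : ι} (hp : p ∈ N.S) (hp0 : N.lev p = 0) (hpm : p ≠ C.m) : hh C p 1 = 1 := by
  have h := St.isSt N.ok
  have h1 := ok_top N C.hm C.hm0 hp hpm.symm (1 : A)
  have h2 := ok_top N hp hp0 C.hm hpm (0 : A)
  unfold hh HH
  simp only [inv_one, Units.val_one, mul_one, one_mul, add_self_F2, h.zero h2,
    h.mul_self N.closed h1]

/-- The cocycle, computed with the spare index `p`. -/
def cc (p : ι) (v d : Aˣ) : St N.ok := hh C p v * hh C p d * (hh C p (v * d))⁻¹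

/-- The diagonal correction, computed with the spare index `p`. -/
def DD (p j : ι) (t s : A) (v : Aˣ) : St N.ok := HH N p j t s v * (hh C p v)⁻¹

omit [Algebra F2 A] in
theorem cc_mem {p q : ι} (hp : p ≠ q) (hq : C.m ≠ q) (v d : Aˣ) : cc C p v d ∈ Av N q :=
  Subgroup.mul_mem _ (Subgroup.mul_mem _ (hh_mem C hp hq _) (hh_mem C hp hq _))
    (Subgroup.inv_mem _ (hh_mem C hp hq _))

omit [Algebra F2 A] in
theorem DD_mem {p j q : ι} (hp : p ≠ q) (hj : j ≠ q) (hq : C.m ≠ q) (t s : A) (v : Aˣ) :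
    DD C p j t s v ∈ Av N q :=
  Subgroup.mul_mem _ (HH_mem N hp hj _ _ _) (Subgroup.inv_mem _ (hh_mem C hp hq _))

/-- A chosen spare index. -/
noncomputable def pk (j : ι) : ι := (C.spare j C.m C.m).choose

omit [Algebra F2 A] in
theorem pk_spec (j : ι) : pk C j ∈ N.S ∧ N.lev (pk C j) = 0 ∧ pk C j ≠ j ∧ pk C j ≠ C.m :=
  have h := (C.spare j C.m C.m).choose_spec
  ⟨h.1, h.2.1, h.2.2.1, h.2.2.2.1⟩

/-- The cocycle. -/
noncomputable def c0 (v d : Aˣ) : St N.ok := cc C (pk C C.m) v d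

/-- The diagonal correction. -/
noncomputable def D0 (j : ι) (t s : A) (v : Aˣ) : St N.ok := DD C (pk C j) j t s v

variable [Fintype ι] [DecidableEq ι]

theorem isD_hh {p : ι} (hp : p ∈ N.S) (hp0 : N.lev p = 0) (hpm : p ≠ C.m) (v : Aˣ) :
    IsD N (hh C p v) (Pi.mulSingle p v * Pi.mulSingle C.m v⁻¹) := by
  obtain ⟨q, hq, hq0, h1, h2, -⟩ := C.spare p C.m C.m
  have := isD_HH N (ok_top N hp hp0 C.hm hpm (v + 1)) (ok_top N C.hm C.hm0 hp hpm.symm 1) v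
    (val_eq v) hp0 hq hq0 h1 h2
  rwa [wU_val] at this

theorem isD_cc {p : ι} (hp : p ∈ N.S) (hp0 : N.lev p = 0) (hpm : p ≠ C.m) (v d : Aˣ) :
    IsD N (cc C p v d) (Pi.mulSingle C.m (v⁻¹ * d⁻¹ * (v * d))) := by
  refine (((isD_hh C hp hp0 hpm v).mul (isD_hh C hp hp0 hpm d)).mul
    (isD_hh C hp hp0 hpm (v * d)).inv).congr ?_
  ext1 k
  by_cases h1 : k = p
  · subst h1; simp [hpm]
  · by_cases h2 : k = C.m
    · subst h2; simp [h1]
    · simp [h1, h2]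

theorem isD_DD {p j : ι} (hp0 : N.lev p = 0) (hpm : p ≠ C.m) {t s : A} (hs : N.ok j p s)
    (v : Aˣ) (hv : (v : A) = 1 + t * s) :
    IsD N (DD C p j t s v) (Pi.mulSingle j (wU t s v hv)⁻¹ * Pi.mulSingle C.m v) := by
  have hp := hs.2.1
  have hjp := hs.2.2.1
  obtain ⟨q, hq, hq0, h1, h2, -⟩ := C.spare p j j
  refine ((isD_HH N (ok_top N hp hp0 hs.1 hjp.symm t) hs v hv hp0 hq hq0 h1 h2).mul
    (isD_hh C hp hp0 hpm v).inv).congr ?_
  ext1 k
  by_cases h1 : k = p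
  · subst h1; simp [hpm, hjp.symm]
  · by_cases h2 : k = C.m
    · subst h2; simp [h1]
    · simp [h1, h2]

theorem cc_indep {p q : ι} (hp : p ∈ N.S) (hp0 : N.lev p = 0) (hpm : p ≠ C.m) (hq : q ∈ N.S)
    (hq0 : N.lev q = 0) (hqm : q ≠ C.m) (v d : Aˣ) : cc C p v d = cc C q v d := by
  by_cases hpq : p = q
  · rw [hpq]
  have h1 : ∀ u, MulAut.conj (WW N p q) (hh C p u) = hh C q u := fun u =>
    WW_HH N hp0 hq hq0 hpq hqm.symm (ok_top N C.hm C.hm0 hp hpm.symm 1) u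
  have h2 := WW_fix N (isD_cc C hp hp0 hpm v d) hp hp0 hq hq0 hpq (by simp [hpm]) (by simp [hqm])
  rw [← h2]
  unfold cc
  rw [map_mul, map_mul, map_inv, h1, h1, h1]

theorem DD_indep {p q j : ι} (hp0 : N.lev p = 0) (hpm : p ≠ C.m) (hq : q ∈ N.S)
    (hq0 : N.lev q = 0) (hqm : q ≠ C.m) (hjq : j ≠ q) {t s : A} (hs : N.ok j p s) (v : Aˣ)
    (hv : (v : A) = 1 + t * s) : DD C p j t s v = DD C q j t s v := by
  by_cases hpq : p = q
  · rw [hpq]
  have hp := hs.2.1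
  have h1 : MulAut.conj (WW N p q) (hh C p v) = hh C q v :=
    WW_HH N hp0 hq hq0 hpq hqm.symm (ok_top N C.hm C.hm0 hp hpm.symm 1) v
  have h2 := WW_fix N (isD_DD C hp0 hpm hs v hv) hp hp0 hq hq0 hpq
    (by simp [hpm, hs.2.2.1.symm]) (by simp [hqm, hjq.symm])
  rw [← h2]
  unfold DD
  rw [map_mul, map_inv, h1, WW_HH N hp0 hq hq0 hpq hjq hs v]

theorem c0_eq {p : ι} (hp : p ∈ N.S) (hp0 : N.lev p = 0) (hpm : p ≠ C.m) (v d : Aˣ) :
    c0 C v d = cc C p v d :=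
  have h := pk_spec C C.m
  cc_indep C h.1 h.2.1 h.2.2.2 hp hp0 hpm v d

theorem D0_eq {p j : ι} (hp0 : N.lev p = 0) (hpm : p ≠ C.m) {t s : A} (hs : N.ok j p s)
    (v : Aˣ) (hv : (v : A) = 1 + t * s) : D0 C j t s v = DD C p j t s v :=
  have h := pk_spec C j
  (DD_indep C hp0 hpm h.1 h.2.1 h.2.2.2 h.2.2.1.symm hs v hv).symm

theorem c0_mem {q : ι} (hq : q ≠ C.m) (v d : Aˣ) : c0 C v d ∈ Av N q := by
  obtain ⟨p, hp, hp0, h1, h2, -⟩ := C.spare q C.m C.m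
  rw [c0_eq C hp hp0 h2]
  exact cc_mem C h1 hq.symm v d

theorem D0_mem {p j : ι} (hp0 : N.lev p = 0) (hpm : p ≠ C.m) {t s : A} (hs : N.ok j p s)
    (v : Aˣ) (hv : (v : A) = 1 + t * s) : D0 C j t s v ∈ Av N p := by
  obtain ⟨q, hq, hq0, h1, h2, h3⟩ := C.spare p C.m j
  rw [D0_eq C hq0 h2 (ok_swap_col N hs hq hp0 h3.symm) v hv]
  exact DD_mem C h1 hs.2.2.1 hpm.symm t s v

theorem isD_c0 (v d : Aˣ) : IsD N (c0 C v d) (Pi.mulSingle C.m (v⁻¹ * d⁻¹ * (v * d))) :=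
  have h := pk_spec C C.m
  isD_cc C h.1 h.2.1 h.2.2.2 v d

theorem c0_one_left (d : Aˣ) : c0 C 1 d = 1 := by
  have h := pk_spec C C.m
  unfold c0 cc
  rw [hh_one C h.1 h.2.1 h.2.2.2, one_mul, one_mul, mul_inv_cancel]

theorem c0_one_right (v : Aˣ) : c0 C v 1 = 1 := by
  have h := pk_spec C C.m
  unfold c0 cc
  rw [hh_one C h.1 h.2.1 h.2.2.2, mul_one, mul_one, mul_inv_cancel]

/-- The action of a unit placed at the base index. -/
noncomputable def am (u : Aˣ) : St N.ok →* St N.ok := alpha N (Pi.mulSingle C.m u)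

omit [Algebra F2 A] [Fintype ι] in
theorem am_mul (u w : Aˣ) (y : St N.ok) : am C u (am C w y) = am C (u * w) y := by
  unfold am; rw [alpha_mul, ← Pi.mulSingle_mul]

omit [Algebra F2 A] [Fintype ι] in
theorem am_one (y : St N.ok) : am C 1 y = y := by
  unfold am; rw [Pi.mulSingle_one, alpha_one]

theorem hh_conj {p : ι} (hp : p ∈ N.S) (hp0 : N.lev p = 0) (hpm : p ≠ C.m) (v : Aˣ)
    {z : St N.ok} (hz : z ∈ Av N p) : hh C p v * z = am C v⁻¹ z * hh C p v := by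
  rw [(isD_hh C hp hp0 hpm v).comm]
  congr 1
  exact alpha_congr N (fun k hk => by simp [hk]) hz

theorem hh_mul {p : ι} (hp : p ∈ N.S) (hp0 : N.lev p = 0) (hpm : p ≠ C.m) (v d : Aˣ) :
    hh C p v * hh C p d = c0 C v d * hh C p (v * d) := by
  rw [c0_eq C hp hp0 hpm]; unfold cc; group

theorem cocycle (u v w : Aˣ) :
    c0 C u v * c0 C (u * v) w = am C u⁻¹ (c0 C v w) * c0 C u (v * w) := by
  obtain ⟨hp, hp0, -, hpm⟩ := pk_spec C C.m
  have h1 := mul_assoc (hh C (pk C C.m) u) (hh C (pk C C.m) v) (hh C (pk C C.m) w)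
  rw [hh_mul C hp hp0 hpm u v, mul_assoc, hh_mul C hp hp0 hpm (u * v) w,
    hh_mul C hp hp0 hpm v w, ← mul_assoc (hh C (pk C C.m) u), hh_conj C hp hp0 hpm u (c0_mem C hpm v w),
    mul_assoc (am C u⁻¹ (c0 C v w)), hh_mul C hp hp0 hpm u (v * w), ← mul_assoc, ← mul_assoc,
    mul_assoc u v w] at h1
  exact mul_right_cancel h1

/-- The extended Levi group. -/
@[ext]
structure Lam (C : Ctx N) where
  z : St N.ok
  v : Aˣ

noncomputable instance : Mul (Lam C) :=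
  ⟨fun a b => ⟨a.z * am C a.v⁻¹ b.z * c0 C a.v b.v, a.v * b.v⟩⟩

instance : One (Lam C) := ⟨⟨1, 1⟩⟩

noncomputable instance : Inv (Lam C) :=
  ⟨fun a => ⟨(am C a.v a.z * c0 C a.v⁻¹ a.v)⁻¹, a.v⁻¹⟩⟩

omit [Algebra F2 A] [Fintype ι] in
theorem Lam.mul_z (a b : Lam C) : (a * b).z = a.z * am C a.v⁻¹ b.z * c0 C a.v b.v := rfl

omit [Algebra F2 A] [Fintype ι] in
theorem Lam.mul_v (a b : Lam C) : (a * b).v = a.v * b.v := rfl

omit [Algebra F2 A] [Fintype ι] [DecidableEq ι] in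
theorem Lam.one_z : (1 : Lam C).z = 1 := rfl

omit [Algebra F2 A] [Fintype ι] [DecidableEq ι] in
theorem Lam.one_v : (1 : Lam C).v = 1 := rfl

noncomputable instance : Group (Lam C) :=
  Group.ofLeftAxioms
    (fun a b d => by
      ext1
      · simp only [Lam.mul_z, Lam.mul_v, map_mul, am_mul]
        have h := (isD_c0 C a.v b.v).comm (am C (a.v * b.v)⁻¹ d.z)
        have h' : alpha N (Pi.mulSingle C.m (a.v⁻¹ * b.v⁻¹ * (a.v * b.v)))
            (am C (a.v * b.v)⁻¹ d.z) = am C (a.v⁻¹ * b.v⁻¹) d.z := by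
          have := am_mul C (a.v⁻¹ * b.v⁻¹ * (a.v * b.v)) (a.v * b.v)⁻¹ d.z
          rw [mul_inv_cancel_right] at this
          exact this
        rw [h'] at h
        rw [mul_assoc _ (c0 C a.v b.v), h, mul_assoc, mul_assoc, mul_assoc, cocycle]
        simp only [mul_assoc]
      · simp only [Lam.mul_v, mul_assoc])
    (fun a => by
      ext1
      · rw [Lam.mul_z, Lam.one_z, Lam.one_v, inv_one, am_one, c0_one_left, one_mul, mul_one]
      · rw [Lam.mul_v, Lam.one_v, one_mul])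
    (fun a => by
      ext1
      · show (am C a.v a.z * c0 C a.v⁻¹ a.v)⁻¹ * am C a.v⁻¹⁻¹ a.z * c0 C a.v⁻¹ a.v = 1
        rw [inv_inv]; group
      · exact inv_mul_cancel a.v)

/-- The inclusion of the Steinberg group. -/
noncomputable def inl : St N.ok →* Lam C where
  toFun z := ⟨z, 1⟩
  map_one' := rfl
  map_mul' a b := by
    ext1
    · rw [Lam.mul_z]; simp only [inv_one, am_one, c0_one_left, mul_one]
    · rw [Lam.mul_v, mul_one]

theorem inl_z (z : St N.ok) : (inl C z).z = z := rfl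

theorem inl_v (z : St N.ok) : (inl C z).v = 1 := rfl

theorem inl_mul_z (y : St N.ok) (a : Lam C) : (inl C y * a).z = y * a.z := by
  rw [Lam.mul_z, inl_z, inl_v, inv_one, am_one, c0_one_left, mul_one]

theorem inl_mul_v (y : St N.ok) (a : Lam C) : (inl C y * a).v = a.v := by
  rw [Lam.mul_v, inl_v, one_mul]

/-- The torus element between the index `j` and the new index. -/
noncomputable def HL (j : ι) (t s : A) (v : Aˣ) : Lam C := ⟨D0 C j t s v, v⟩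

theorem HL_comm {p j : ι} (hp0 : N.lev p = 0) (hpm : p ≠ C.m) {t s : A} (hs : N.ok j p s)
    (v : Aˣ) (hv : (v : A) = 1 + t * s) (y : St N.ok) :
    HL C j t s v * inl C y = inl C (alpha N (Pi.mulSingle j (wU t s v hv)⁻¹) y) * HL C j t s v := by
  ext1
  · rw [inl_mul_z, Lam.mul_z, inl_z, inl_v, c0_one_right, mul_one]
    show D0 C j t s v * am C v⁻¹ y = _ * D0 C j t s v
    rw [D0_eq C hp0 hpm hs v hv, (isD_DD C hp0 hpm hs v hv).comm]
    unfold am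
    rw [alpha_mul, mul_assoc, ← Pi.mulSingle_mul, mul_inv_cancel, Pi.mulSingle_one, mul_one]
  · rw [inl_mul_v, Lam.mul_v, inl_v, mul_one]

/-- The realisation with a spare index in place of the new index. -/
def Xi (p : ι) (a : Lam C) : St N.ok := a.z * hh C p a.v

theorem mul_mem_av {p : ι} (hpm : p ≠ C.m) {a b : Lam C} (ha : a.z ∈ Av N p)
    (hb : b.z ∈ Av N p) : (a * b).z ∈ Av N p :=
  Subgroup.mul_mem _ (Subgroup.mul_mem _ ha (alpha_mem N _ hb)) (c0_mem C hpm _ _)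

theorem Xi_mul {p : ι} (hp : p ∈ N.S) (hp0 : N.lev p = 0) (hpm : p ≠ C.m) (a : Lam C)
    {b : Lam C} (hb : b.z ∈ Av N p) : Xi C p (a * b) = Xi C p a * Xi C p b := by
  unfold Xi
  rw [Lam.mul_z, Lam.mul_v, mul_assoc a.z (hh C p a.v), ← mul_assoc (hh C p a.v),
    hh_conj C hp hp0 hpm a.v hb, mul_assoc (am C a.v⁻¹ b.z), hh_mul C hp hp0 hpm]
  simp only [mul_assoc]

theorem Xi_inl {p : ι} (hp : p ∈ N.S) (hp0 : N.lev p = 0) (hpm : p ≠ C.m) (y : St N.ok) :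
    Xi C p (inl C y) = y := by
  unfold Xi
  rw [inl_z, inl_v, hh_one C hp hp0 hpm, mul_one]

theorem Xi_HL {p j : ι} (hp0 : N.lev p = 0) (hpm : p ≠ C.m) {t s : A} (hs : N.ok j p s)
    (v : Aˣ) (hv : (v : A) = 1 + t * s) : Xi C p (HL C j t s v) = HH N p j t s v := by
  show D0 C j t s v * hh C p v = _
  rw [D0_eq C hp0 hpm hs v hv]
  unfold DD
  group

theorem Xi_row {p : ι} (hp : p ∈ N.S) (hp0 : N.lev p = 0) (hpm : p ≠ C.m) {a : Lam C}
    (ha : a.z ∈ Av N p) {r : St N.ok} (hr : r ∈ Row N p) :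
    (Xi C p a)⁻¹ * r * Xi C p a ∈ Row N p := by
  have h1 := conj_row N (Subgroup.inv_mem _ ha) hr
  have h2 := (isD_hh C hp hp0 hpm a.v).inv.conj (a.z⁻¹ * r * a.z⁻¹⁻¹)
  have h3 : (Xi C p a)⁻¹ * r * Xi C p a =
      (hh C p a.v)⁻¹ * (a.z⁻¹ * r * a.z⁻¹⁻¹) * (hh C p a.v)⁻¹⁻¹ := by unfold Xi; group
  rw [h3, h2]
  exact alpha_mem N _ h1

end One

end Vale.Agent.P192Z
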