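import Vale.Agent.P192Z.Grp.OneB

/-!
# P192: column elements of Steinberg groups of nets
-/

namespace Vale.Agent.P192Z

open scoped commutatorElement

variable {ι A : Type} [Ring A] [Algebra F2 A]

namespace One

variable [Fintype ι] [DecidableEq ι]

/-- The matrix with one column. -/
def cm (γ : ι → A) (j : ι) : Matrix ι ι A := Matrix.of fun k l => if l = j then γ k else 0

omit [Algebra F2 A] [Fintype ι] in
theorem cm_apply (γ : ι → A) (j k l : ι) : cm γ j k l = if l = j then γ k else 0 := rfl

omit [Algebra F2 A] in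
theorem cm_mul (γ δ : ι → A) (j l : ι) : cm γ j * cm δ l = cm (fun k => γ k * δ j) l := by
  ext a b
  rw [Matrix.mul_apply, Finset.sum_eq_single j]
  · simp only [cm_apply, if_true]
    split_ifs <;> simp
  · intro c _ hc
    simp [cm_apply, hc]
  · simp

omit [Algebra F2 A] [Fintype ι] in
theorem single_eq_cm (i j : ι) (a : A) : Matrix.single i j a = cm (Pi.single i a) j := by
  ext k l
  rw [cm_apply, Matrix.single_apply, Pi.single_apply]
  by_cases h1 : i = k <;> by_cases h2 : j = l <;> simp [h1, h2, eq_comm]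

variable (N : Net ι A)

/-- Admissible columns. -/
def ColOK (j : ι) (γ : ι → A) : Prop := ∀ k, γ k ≠ 0 → N.ok k j (γ k)

theorem exists_col {j : ι} {γ : ι → A} (h : ColOK N j γ) :
    ∃ g ∈ UT N.ok (fun k l => γ k ≠ 0 ∧ l = j), phi N.closed g = 1 + cm γ j := by
  obtain ⟨g, hg, e⟩ := exists_block N.closed (cm γ j)
    (fun k l hkl => by
      rw [cm_apply] at hkl ⊢
      split_ifs at hkl ⊢ with e
      · rw [e]; exact h k hkl
      · exact absurd rfl hkl)
    (fun a b c d h1 h2 e => by
      rw [cm_apply] at h1 h2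
      split_ifs at h1 h2 with e1 e2
      · exact (h c h2).2.2.1 (e.symm.trans e1)
      · exact h2 rfl
      · exact h1 rfl
      · exact h1 rfl)
  refine ⟨g, UT_mono (fun k l hkl => ?_) hg, e⟩
  rw [cm_apply] at hkl
  split_ifs at hkl with e
  · exact ⟨hkl, e⟩
  · exact absurd rfl hkl

open Classical in
/-- The column element. -/
noncomputable def col (j : ι) (γ : ι → A) : St N.ok :=
  if h : ColOK N j γ then (exists_col N h).choose else 1

variable {N}

theorem col_mem' {j : ι} {γ : ι → A} (h : ColOK N j γ) {T : ι → ι → Prop}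
    (hT : ∀ k, γ k ≠ 0 → k ≠ j → T k j) : col N j γ ∈ UT N.ok T := by
  unfold col
  rw [dif_pos h]
  refine UT_mono (fun k l hkl => ?_) (exists_col N h).choose_spec.1
  rw [hkl.2]
  exact hT k hkl.1 (h k hkl.1).2.2.1

theorem col_mem {j : ι} {γ : ι → A} (h : ColOK N j γ) : col N j γ ∈ Col N j :=
  col_mem' h fun _ _ hk => ⟨hk, rfl⟩

theorem phi_col {j : ι} {γ : ι → A} (h : ColOK N j γ) :
    phi N.closed (col N j γ) = 1 + cm γ j := by
  unfold col
  rw [dif_pos h]
  exact (exists_col N h).choose_spec.2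

omit [Algebra F2 A] [Fintype ι] [DecidableEq ι] in
theorem ColOK.self {j : ι} {γ : ι → A} (h : ColOK N j γ) : γ j = 0 := by
  by_contra e
  exact (h j e).2.2.1 rfl

theorem phi_x' {i j : ι} {a : A} (ha : N.ok i j a) :
    phi N.closed (St.x N.ok i j a) = 1 + cm (Pi.single i a) j := by
  rw [phi_x _ ha, single_eq_cm]

theorem col_zero (j : ι) : col N j 0 = 1 := by
  have h : ColOK N j 0 := fun k hk => absurd rfl hk
  refine col_ext N (col_mem h) (Subgroup.one_mem _) ?_
  rw [phi_col h, map_one]
  ext k l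
  simp [cm_apply]

omit [Algebra F2 A] [Fintype ι] in
theorem ColOK.add_single {j k : ι} {γ : ι → A} {a : A} (h : ColOK N j γ) (ha : N.ok k j a) :
    ColOK N j (γ + Pi.single k a) := by
  intro i hi
  by_cases e : i = k
  · subst e
    rw [Pi.add_apply, Pi.single_eq_same]
    by_cases e' : γ i = 0
    · rw [e', zero_add]; exact ha
    · exact N.closed.add (h i e') ha
  · rw [Pi.add_apply, Pi.single_eq_of_ne e, add_zero] at hi ⊢
    exact h i hi

theorem x_mul_col {j k : ι} {γ : ι → A} {a : A} (h : ColOK N j γ) (ha : N.ok k j a) :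
    St.x N.ok k j a * col N j γ = col N j (γ + Pi.single k a) := by
  refine col_ext N (Subgroup.mul_mem _ (x_mem_UT ⟨ha.2.2.1, rfl⟩) (col_mem h))
    (col_mem (h.add_single ha)) ?_
  rw [map_mul, phi_x' ha, phi_col h, phi_col (h.add_single ha)]
  simp only [add_mul, mul_add, one_mul, mul_one, cm_mul, h.self, mul_zero]
  ext a b
  simp only [Matrix.add_apply, cm_apply, Pi.add_apply]
  split_ifs <;> abel

theorem col_mul_x {j k : ι} {γ : ι → A} {a : A} (h : ColOK N j γ) (ha : N.ok k j a) :
    col N j γ * St.x N.ok k j a = col N j (γ + Pi.single k a) := by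
  refine col_ext N (Subgroup.mul_mem _ (col_mem h) (x_mem_UT ⟨ha.2.2.1, rfl⟩))
    (col_mem (h.add_single ha)) ?_
  rw [map_mul, phi_x' ha, phi_col h, phi_col (h.add_single ha)]
  simp only [add_mul, mul_add, one_mul, mul_one, cm_mul, Pi.single_eq_of_ne ha.2.2.1.symm,
    mul_zero]
  ext a b
  simp only [Matrix.add_apply, cm_apply, Pi.add_apply]
  split_ifs <;> abel

omit [Algebra F2 A] [Fintype ι] in
theorem ColOK.act {j k l : ι} {γ : ι → A} {a : A} (h : ColOK N j γ) (ha : N.ok k l a)
    (hk : k ≠ j) : ColOK N j (γ + Pi.single k (a * γ l)) := by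
  by_cases e : γ l = 0
  · simpa [e] using h
  · exact h.add_single (N.closed.mul ha (h l e) hk)

theorem x_conj_col {j k l : ι} {γ : ι → A} {a : A} (h : ColOK N j γ) (ha : N.ok k l a)
    (hk : k ≠ j) (hl : l ≠ j) :
    St.x N.ok k l a * col N j γ = col N j (γ + Pi.single k (a * γ l)) * St.x N.ok k l a := by
  rw [← mul_inv_eq_iff_eq_mul]
  refine col_ext N (conj_col N (x_mem_UT ⟨hk, hl⟩) (col_mem h)) (col_mem (h.act ha hk)) ?_
  rw [(St.isSt N.ok).inv N.closed ha, map_mul, map_mul, phi_x' ha, phi_col h,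
    phi_col (h.act ha hk)]
  simp only [add_mul, mul_add, one_mul, mul_one, cm_mul, Pi.single_eq_of_ne hk.symm,
    Pi.single_eq_of_ne ha.2.2.1.symm, mul_zero]
  ext c d
  have := add_self_F2 (Pi.single (M := fun _ => A) k a c)
  by_cases e : c = k
  · subst e
    simp only [Matrix.add_apply, cm_apply, Pi.add_apply, Pi.single_eq_same] at this ⊢
    split_ifs with h1 h2
    · exact absurd (h1.symm.trans h2) hl
    · rw [add_zero, add_zero, add_zero, add_zero, add_zero, add_assoc, this, add_zero]
    · abel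
    · abel
  · simp only [Matrix.add_apply, cm_apply, Pi.add_apply, Pi.single_eq_of_ne e]
    split_ifs <;> simp

/-- The key commutation of a row generator with a column element. -/
theorem x_row_col {p j : ι} (hp : p ∈ N.S) (hp0 : N.lev p = 0) (hj : j ∈ N.S) (hpj : p ≠ j)
    {β : ι → A} (h : ColOK N p β) (hjp : N.ok j p (β j)) (t : A) (v : Aˣ)
    (hv : (v : A) = 1 + t * β j) (h1 : ColOK N p fun k => β k * ↑v⁻¹)
    (h2 : ColOK N j (Function.update (fun k => β k * t) j 0)) :
    St.x N.ok p j t * col N p β =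
      col N p (fun k => β k * ↑v⁻¹) * col N j (Function.update (fun k => β k * t) j 0) *
        HH N p j t (β j) v * St.x N.ok p j (↑v⁻¹ * t) := by
  have ht := ok_top N hp hp0 hj hpj t
  have h3 : ColOK N p (Function.update β j 0) := by
    intro k hk
    by_cases e : k = j
    · subst e; simp at hk
    · rw [Function.update_of_ne e] at hk ⊢
      exact h k hk
  have e1 : col N p β = col N p (Function.update β j 0) * St.x N.ok j p (β j) := by
    rw [col_mul_x h3 hjp]
    congr 1
    ext k
    by_cases e : k = j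
    · subst e; simp
    · simp [e]
  have hβp : β p = 0 := h.self
  have e2 : St.x N.ok p j t * col N p (Function.update β j 0) =
      col N p (Function.update β j 0) * col N j (Function.update (fun k => β k * t) j 0) *
        St.x N.ok p j t := by
    refine unip_ext N.closed (T := fun k l => (k = p ∧ l = j) ∨ (k ≠ p ∧ k ≠ j ∧ (l = p ∨ l = j)))
      (fun k => if k = j then 2 else if k = p then 1 else 0) ?_
      (Subgroup.mul_mem _ (x_mem_UT (Or.inl ⟨rfl, rfl⟩)) (col_mem' h3 fun k h4 h5 => ?_))
      (Subgroup.mul_mem _ (Subgroup.mul_mem _ (col_mem' h3 fun k h4 h5 => ?_)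
        (col_mem' h2 fun k h4 h5 => ?_)) (x_mem_UT (Or.inl ⟨rfl, rfl⟩))) ?_
    · rintro k l (⟨rfl, rfl⟩ | ⟨h4, h5, rfl | rfl⟩) <;> simp [*]
    · exact Or.inr ⟨h5, by rintro rfl; simp at h4, Or.inl rfl⟩
    · exact Or.inr ⟨h5, by rintro rfl; simp at h4, Or.inl rfl⟩
    · exact Or.inr ⟨by rintro rfl; simp [hpj, hβp] at h4, h5, Or.inr rfl⟩
    · rw [map_mul, map_mul, map_mul, phi_x' ht, phi_col h3, phi_col h2]
      simp only [add_mul, mul_add, one_mul, mul_one, cm_mul, Function.update_self,
        Function.update_of_ne hpj, hβp, zero_mul, mul_zero, Pi.single_eq_same,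
        Pi.single_eq_of_ne hpj.symm]
      ext c d
      simp only [Matrix.add_apply, cm_apply]
      by_cases e : c = j
      · subst e; simp
      · have := add_self_F2 (β c * t)
        simp only [Function.update_of_ne e]
        split_ifs with h4 h5
        · exact absurd (h5.symm.trans h4) hpj
        · rw [← sub_eq_zero, ← neg_eq_zero]
          refine Eq.trans ?_ this
          abel
        · abel
        · abel
  have h4 : N.ok j p (β j * ↑v⁻¹) := by simpa using ok_conj N hjp 1 ↑v⁻¹
  have e3 : col N p (Function.update β j 0) * col N j (Function.update (fun k => β k * t) j 0) *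
      St.x N.ok j p (β j * ↑v⁻¹) =
      col N p (fun k => β k * ↑v⁻¹) * col N j (Function.update (fun k => β k * t) j 0) := by
    refine unip_ext N.closed (T := fun k l => (k ≠ p ∧ l = p) ∨ (k ≠ p ∧ k ≠ j ∧ l = j))
      (fun k => if k = p then 2 else if k = j then 1 else 0) ?_
      (Subgroup.mul_mem _ (Subgroup.mul_mem _ (col_mem' h3 fun k _ h5 => Or.inl ⟨h5, rfl⟩)
        (col_mem' h2 fun k h6 h5 => ?_)) (x_mem_UT (Or.inl ⟨hpj.symm, rfl⟩)))
      (Subgroup.mul_mem _ (col_mem' h1 fun k _ h5 => Or.inl ⟨h5, rfl⟩)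
        (col_mem' h2 fun k h6 h5 => ?_)) ?_
    · rintro k l (⟨h5, rfl⟩ | ⟨h6, h5, rfl⟩)
      · simp only [h5, if_false, if_true]; split_ifs <;> omega
      · simp [h6, h5, hpj.symm]
    · exact Or.inr ⟨by rintro rfl; simp [hpj, hβp] at h6, h5, rfl⟩
    · exact Or.inr ⟨by rintro rfl; simp [hpj, hβp] at h6, h5, rfl⟩
    · rw [map_mul, map_mul, map_mul, phi_x' h4, phi_col h3, phi_col h2, phi_col h1]
      simp only [add_mul, mul_add, one_mul, mul_one, cm_mul,
        Function.update_of_ne hpj, hβp, zero_mul, mul_zero, Pi.single_eq_same,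
        Pi.single_eq_of_ne hpj]
      ext c d
      simp only [Matrix.add_apply, cm_apply]
      by_cases e : c = j
      · subst e; simp
      · have e4 : β c + β c * t * (β j * ↑v⁻¹) = β c * ↑v⁻¹ := by
          have e5 : β c * ((1 + t * β j) * ↑v⁻¹) = β c := by rw [← hv, Units.mul_inv, mul_one]
          have e6 := add_self_F2 (β c * t * (β j * ↑v⁻¹))
          calc β c + β c * t * (β j * ↑v⁻¹)
              = β c * ((1 + t * β j) * ↑v⁻¹) + β c * t * (β j * ↑v⁻¹) := by rw [e5]
            _ = β c * ↑v⁻¹ + (β c * t * (β j * ↑v⁻¹) + β c * t * (β j * ↑v⁻¹)) := by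
              noncomm_ring
            _ = _ := by rw [e6, add_zero]
        simp only [Function.update_of_ne e, Pi.single_eq_of_ne e]
        split_ifs with h4 h5
        · exact absurd (h4.symm.trans h5) hpj
        · rw [← e4]; abel
        · abel
        · abel
  rw [e1, ← mul_assoc, e2, mul_assoc _ (St.x N.ok p j t), x_mul_x N ht hjp v, ← e3]
  simp only [mul_assoc]

end One

end Vale.Agent.P192Z
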