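import Vale.Agent.P192Z.Grp.OneC

/-!
# P192: the action of the enlarged Steinberg group on the big cell
-/

namespace Vale.Agent.P192Z

open scoped commutatorElement

variable {ι A : Type} [Ring A] [Algebra F2 A]

namespace One

variable {N : Net ι A}

/-- Admissible entries of the new column. -/
def CoOK (N : Net ι A) (i : ι) (b : A) : Prop := i ∈ N.S ∧ (N.lev i = 0 ∨ N.eps b = 0)

/-- Admissible entries of the new row. -/
def RoOK (N : Net ι A) (j : ι) (t : A) : Prop := j ∈ N.S ∧ (N.lev j ≠ 0 ∨ N.eps t = 0)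

/-- Admissible new columns. -/
def InB (N : Net ι A) (β : ι → A) : Prop :=
  ∀ k, (k ∈ N.S ∨ β k = 0) ∧ (N.lev k = 0 ∨ N.eps (β k) = 0)

omit [Algebra F2 A] in
theorem InB.co {β : ι → A} (h : InB N β) {k : ι} (hk : k ∈ N.S) : CoOK N k (β k) := ⟨hk, (h k).2⟩

omit [Algebra F2 A] in
theorem CoOK.ok {k p : ι} {b : A} (h : CoOK N k b) (hp : p ∈ N.S) (hk : k ≠ p) : N.ok k p b :=
  ⟨h.1, hp, hk, h.2.imp (fun e => by omega) id⟩

omit [Algebra F2 A] in
theorem CoOK.mul_left {k l : ι} {a b : A} (h : CoOK N l b) (ha : N.ok k l a) :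
    CoOK N k (a * b) := by
  refine ⟨ha.1, ?_⟩
  by_cases e : N.lev k = 0
  · exact Or.inl e
  · right
    rw [map_mul]
    rcases ha.2.2.2 with h1 | h1
    · rw [h.2.resolve_left (by omega), mul_zero]
    · rw [h1, zero_mul]

omit [Algebra F2 A] in
theorem CoOK.add {k : ι} {a b : A} (ha : CoOK N k a) (hb : CoOK N k b) : CoOK N k (a + b) :=
  ⟨ha.1, ha.2.elim Or.inl fun h => hb.2.imp id fun h' => by rw [map_add, h, h', add_zero]⟩

omit [Algebra F2 A] in
theorem RoOK.add {k : ι} {a b : A} (ha : RoOK N k a) (hb : RoOK N k b) : RoOK N k (a + b) :=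
  ⟨ha.1, ha.2.elim Or.inl fun h => hb.2.imp id fun h' => by rw [map_add, h, h', add_zero]⟩

omit [Algebra F2 A] in
theorem RoOK.mul_right {j k : ι} {t a : A} (h : RoOK N j t) (ha : N.ok j k a) :
    RoOK N k (t * a) := by
  refine ⟨ha.2.1, ?_⟩
  by_cases e : N.lev k = 0
  · right
    rw [map_mul]
    rcases h.2 with h1 | h1
    · rw [ha.2.2.2.resolve_left (by omega), mul_zero]
    · rw [h1, zero_mul]
  · exact Or.inl e

omit [Algebra F2 A] in
theorem CoOK.ok_mul {i j : ι} {b : A} (hb : CoOK N i b) (hj : j ∈ N.S) (hij : i ≠ j) (t : A) :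
    N.ok i j (b * t) := by
  simpa using ok_conj N (hb.ok hj hij) 1 t

omit [Algebra F2 A] in
theorem eps_mul {j : ι} {t b : A} (ht : RoOK N j t) (hb : CoOK N j b) : N.eps (t * b) = 0 := by
  rw [map_mul]
  rcases ht.2 with h | h
  · rw [hb.2.resolve_left h, mul_zero]
  · rw [h, zero_mul]

omit [Algebra F2 A] in
theorem InB.mul_right {β : ι → A} (h : InB N β) (c : A) : InB N fun k => β k * c :=
  fun k => ⟨(h k).1.imp id fun e => by simp only [e, zero_mul],
    (h k).2.imp id fun e => by rw [map_mul, e, zero_mul]⟩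

omit [Algebra F2 A] in
theorem InB.colOK {β : ι → A} (h : InB N β) {p : ι} (hp : p ∈ N.S) (h0 : β p = 0) :
    ColOK N p β := fun k hk =>
  (h.co ((h k).1.resolve_right hk)).ok hp (by rintro rfl; exact hk h0)

omit [Algebra F2 A] in
theorem inB_zero : InB N 0 := fun _ => ⟨Or.inr rfl, Or.inr (map_zero _)⟩

variable [DecidableEq ι]

omit [Algebra F2 A] in
theorem InB.add_single {β : ι → A} (h : InB N β) {k : ι} {b : A} (hb : CoOK N k b) :
    InB N (β + Pi.single k b) := by
  intro i
  by_cases e : i = k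
  · subst e
    rw [Pi.add_apply, Pi.single_eq_same]
    exact ⟨Or.inl hb.1, ((h.co hb.1).add hb).2⟩
  · rw [Pi.add_apply, Pi.single_eq_of_ne e, add_zero]
    exact h i

omit [Algebra F2 A] in
theorem InB.update {β : ι → A} (h : InB N β) (j : ι) : InB N (Function.update β j 0) := by
  intro i
  by_cases e : i = j
  · subst e
    rw [Function.update_self]
    exact ⟨Or.inr rfl, Or.inr (map_zero _)⟩
  · rw [Function.update_of_ne e]
    exact h i

/-- The column produced by a row generator. -/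
def rc (β : ι → A) (j : ι) (t : A) : ι → A := Function.update (fun k => β k * t) j 0

omit [Algebra F2 A] in
theorem InB.rc_ok {β : ι → A} (h : InB N β) {j : ι} (hj : j ∈ N.S) (t : A) :
    ColOK N j (rc β j t) :=
  ((h.mul_right t).update j).colOK hj (Function.update_self ..)

open Classical in
/-- The unit `1 + a`. -/
noncomputable def uu (a : A) : Aˣ := if h : IsUnit (1 + a) then h.unit else 1

omit [Algebra F2 A] [DecidableEq ι] in
theorem uu_val {a : A} (h : IsUnit (1 + a)) : (uu a : A) = 1 + a := by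
  unfold uu; rw [dif_pos h]; rfl

omit [Algebra F2 A] [DecidableEq ι] in
theorem uu_zero : uu (0 : A) = 1 := by
  ext; rw [uu_val (by simp), add_zero, Units.val_one]

/-- Points of the big cell. -/
@[ext]
structure Pt (C : Ctx N) where
  b : ι → A
  hb : InB N b
  l : Lam C

variable [Fintype ι] (C : Ctx N)

open Classical in
/-- The action of an old generator. -/
noncomputable def opG (k l : ι) (a : A) : Function.End (Pt C) := fun ξ =>
  if h : N.ok k l a then ⟨ξ.b + Pi.single k (a * ξ.b l),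
    ξ.hb.add_single ((ξ.hb.co h.2.1).mul_left h), inl C (St.x N.ok k l a) * ξ.l⟩ else ξ

open Classical in
/-- The action of a generator in the new column. -/
noncomputable def opU (i : ι) (b : A) : Function.End (Pt C) := fun ξ =>
  if h : CoOK N i b then ⟨ξ.b + Pi.single i b, ξ.hb.add_single h, ξ.l⟩ else ξ

/-- The action of a generator in the new row. -/
noncomputable def opX (j : ι) (t : A) : Function.End (Pt C) := fun ξ =>
  ⟨fun k => ξ.b k * ↑(uu (t * ξ.b j))⁻¹, ξ.hb.mul_right _,
    inl C (col N j (rc ξ.b j t)) * HL C j t (ξ.b j) (uu (t * ξ.b j)) * ξ.l⟩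

theorem opG_b {k l : ι} {a : A} (h : N.ok k l a) (ξ : Pt C) :
    (opG C k l a ξ).b = ξ.b + Pi.single k (a * ξ.b l) := by unfold opG; rw [dif_pos h]

theorem opG_l {k l : ι} {a : A} (h : N.ok k l a) (ξ : Pt C) :
    (opG C k l a ξ).l = inl C (St.x N.ok k l a) * ξ.l := by unfold opG; rw [dif_pos h]

omit [Algebra F2 A] [Fintype ι] in
theorem opU_b {i : ι} {b : A} (h : CoOK N i b) (ξ : Pt C) :
    (opU C i b ξ).b = ξ.b + Pi.single i b := by unfold opU; rw [dif_pos h]

omit [Algebra F2 A] [Fintype ι] in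
theorem opU_l {i : ι} {b : A} (h : CoOK N i b) (ξ : Pt C) : (opU C i b ξ).l = ξ.l := by
  unfold opU; rw [dif_pos h]

theorem opX_b (j : ι) (t : A) (ξ : Pt C) :
    (opX C j t ξ).b = fun k => ξ.b k * ↑(uu (t * ξ.b j))⁻¹ := rfl

theorem opX_l (j : ι) (t : A) (ξ : Pt C) : (opX C j t ξ).l =
    inl C (col N j (rc ξ.b j t)) * HL C j t (ξ.b j) (uu (t * ξ.b j)) * ξ.l := rfl

omit [Algebra F2 A] [Fintype ι] [DecidableEq ι] in
theorem mul_app (F G : Function.End (Pt C)) (ξ : Pt C) : (F * G) ξ = F (G ξ) := rfl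

theorem G_add {k l : ι} {a b : A} (ha : N.ok k l a) (hb : N.ok k l b) :
    opG C k l (a + b) = opG C k l a * opG C k l b := by
  funext ξ
  have hab := N.closed.add ha hb
  ext1
  · rw [mul_app, opG_b C hab, opG_b C ha, opG_b C hb, Pi.add_apply,
      Pi.single_eq_of_ne ha.2.2.1.symm, add_zero, add_mul, Pi.single_add]
    abel
  · rw [mul_app, opG_l C hab, opG_l C ha, opG_l C hb, (St.isSt N.ok).add ha hb, map_mul, mul_assoc]

theorem G_zero {k l : ι} (h : N.ok k l 0) : opG C k l 0 = 1 := by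
  funext ξ
  ext1
  · rw [opG_b C h, zero_mul, Pi.single_zero, add_zero]; rfl
  · rw [opG_l C h, (St.isSt N.ok).zero h, map_one, one_mul]; rfl

theorem G_comm {i j k l : ι} {a b : A} (ha : N.ok i j a) (hb : N.ok k l b) (h1 : j ≠ k)
    (h2 : i ≠ l) : opG C i j a * opG C k l b = opG C k l b * opG C i j a := by
  funext ξ
  ext1
  · rw [mul_app, mul_app, opG_b C ha, opG_b C hb, opG_b C hb, opG_b C ha, Pi.add_apply,
      Pi.add_apply, Pi.single_eq_of_ne h1, Pi.single_eq_of_ne h2.symm, add_zero, add_zero]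
    abel
  · rw [mul_app, mul_app, opG_l C ha, opG_l C hb, opG_l C hb, opG_l C ha, ← mul_assoc,
      ← mul_assoc, ← map_mul, ← map_mul, ((St.isSt N.ok).comm ha hb h1 h2).eq]

theorem G_mul {i j k : ι} {a b : A} (ha : N.ok i j a) (hb : N.ok j k b) (h : i ≠ k) :
    opG C i j a * opG C j k b = opG C i k (a * b) * opG C j k b * opG C i j a := by
  funext ξ
  have hab := N.closed.mul ha hb h
  ext1
  · simp only [mul_app, opG_b C ha, opG_b C hb, opG_b C hab, Pi.add_apply, Pi.single_eq_same,
      Pi.single_eq_of_ne h.symm, Pi.single_eq_of_ne hb.2.2.1.symm, add_zero, mul_add,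
      Pi.single_add, mul_assoc]
    abel
  · simp only [mul_app, opG_l C ha, opG_l C hb, opG_l C hab, ← mul_assoc, ← map_mul]
    rw [← (St.isSt N.ok).conj_left ha hb h, inv_mul_cancel_right]

omit [Algebra F2 A] [Fintype ι] in
theorem U_add {i : ι} {a b : A} (ha : CoOK N i a) (hb : CoOK N i b) :
    opU C i (a + b) = opU C i a * opU C i b := by
  funext ξ
  ext1
  · rw [mul_app, opU_b C (ha.add hb), opU_b C ha, opU_b C hb, Pi.single_add]
    abel
  · rw [mul_app, opU_l C (ha.add hb), opU_l C ha, opU_l C hb]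

omit [Algebra F2 A] [Fintype ι] in
theorem U_zero {i : ι} (h : CoOK N i 0) : opU C i 0 = 1 := by
  funext ξ
  ext1
  · rw [opU_b C h, Pi.single_zero, add_zero]; rfl
  · rw [opU_l C h]; rfl

omit [Algebra F2 A] [Fintype ι] in
theorem U_comm {i k : ι} {a b : A} (ha : CoOK N i a) (hb : CoOK N k b) :
    opU C i a * opU C k b = opU C k b * opU C i a := by
  funext ξ
  ext1
  · rw [mul_app, mul_app, opU_b C ha, opU_b C hb, opU_b C hb, opU_b C ha]
    abel
  · rw [mul_app, mul_app, opU_l C ha, opU_l C hb, opU_l C hb, opU_l C ha]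

theorem GU_comm {k l i : ι} {a b : A} (ha : N.ok k l a) (hb : CoOK N i b) (h : l ≠ i) :
    opG C k l a * opU C i b = opU C i b * opG C k l a := by
  funext ξ
  ext1
  · rw [mul_app, mul_app, opG_b C ha, opU_b C hb, opU_b C hb, opG_b C ha, Pi.add_apply,
      Pi.single_eq_of_ne h, add_zero]
    abel
  · rw [mul_app, mul_app, opG_l C ha, opU_l C hb, opU_l C hb, opG_l C ha]

theorem GU_mul {k l : ι} {a b : A} (ha : N.ok k l a) (hb : CoOK N l b) :
    opG C k l a * opU C l b = opU C k (a * b) * opU C l b * opG C k l a := by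
  funext ξ
  have hab := hb.mul_left ha
  ext1
  · simp only [mul_app, opG_b C ha, opU_b C hb, opU_b C hab, Pi.add_apply, Pi.single_eq_same,
      mul_add, Pi.single_add]
    abel
  · simp only [mul_app, opG_l C ha, opU_l C hb, opU_l C hab]

theorem inv_eq_aux {t s : A} {v : Aˣ} (hv : (v : A) = 1 + t * s) :
    1 + t * (s * ↑v⁻¹) = ↑v⁻¹ := by
  have e5 : (1 + t * s) * ↑v⁻¹ = 1 := by rw [← hv, Units.mul_inv]
  have e6 := add_self_F2 (t * (s * ↑v⁻¹))
  calc 1 + t * (s * ↑v⁻¹) = (1 + t * s) * ↑v⁻¹ + t * (s * ↑v⁻¹) := by rw [e5]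
    _ = ↑v⁻¹ + (t * (s * ↑v⁻¹) + t * (s * ↑v⁻¹)) := by noncomm_ring
    _ = _ := by rw [e6, add_zero]

variable (hu : ∀ a : A, N.eps a = 0 → IsUnit (1 + a))

include hu in
omit [Algebra F2 A] [Fintype ι] [DecidableEq ι] in
theorem uu_pt {j : ι} {t : A} (ht : RoOK N j t) (ξ : Pt C) :
    (uu (t * ξ.b j) : A) = 1 + t * ξ.b j :=
  uu_val (hu _ (eps_mul ht (ξ.hb.co ht.1)))

include hu in
theorem XU_mul {i j : ι} {b t : A} (hb : CoOK N i b) (ht : RoOK N j t) (hij : i ≠ j) :
    opX C j t * opU C i b = opG C i j (b * t) * opU C i b * opX C j t := by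
  funext ξ
  have hbt := hb.ok_mul ht.1 hij t
  have hv := uu_pt C hu ht ξ
  ext1
  · simp only [mul_app, opG_b C hbt, opU_b C hb, opX_b, Pi.add_apply,
      Pi.single_eq_of_ne hij.symm, add_zero]
    funext k
    by_cases e : k = i
    · subst e
      simp only [Pi.add_apply, Pi.single_eq_same]
      rw [add_mul, add_assoc, mul_assoc b t]
      congr 1
      rw [← mul_one_add, inv_eq_aux hv]
    · simp only [Pi.add_apply, Pi.single_eq_of_ne e, add_zero]
  · simp only [mul_app, opG_l C hbt, opU_l C hb, opU_b C hb, opX_l, Pi.add_apply,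
      Pi.single_eq_of_ne hij.symm, add_zero]
    rw [← mul_assoc, ← mul_assoc, ← map_mul, x_mul_col (ξ.hb.rc_ok ht.1 t) hbt]
    congr 4
    funext k
    unfold rc
    by_cases e : k = j
    · subst e; simp [hij.symm]
    · by_cases e' : k = i
      · subst e'; simp [e, add_mul]
      · simp [e, e']

include hu in
theorem GX_comm {k l j : ι} {a t : A} (ha : N.ok k l a) (ht : RoOK N j t) (hkj : k ≠ j) :
    opG C k l a * opX C j t = opX C j t * opG C k l a := by
  funext ξ
  have hv := uu_pt C hu ht ξ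
  obtain ⟨p, hp, hp0, h1, h2, -⟩ := C.spare j C.m C.m
  have hs : N.ok j p (ξ.b j) := (ξ.hb.co ht.1).ok hp h1.symm
  ext1
  · simp only [mul_app, opG_b C ha, opX_b, Pi.add_apply, Pi.single_eq_of_ne hkj.symm, add_zero]
    funext i
    by_cases e : i = k
    · subst e
      simp only [Pi.add_apply, Pi.single_eq_same, add_mul, mul_assoc]
    · simp only [Pi.add_apply, Pi.single_eq_of_ne e, add_zero]
  · simp only [mul_app, opG_l C ha, opG_b C ha, opX_l, Pi.add_apply,
      Pi.single_eq_of_ne hkj.symm, add_zero]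
    rw [← mul_assoc, ← mul_assoc, ← mul_assoc, mul_assoc _ (HL C j t _ _) (inl C _),
      HL_comm C hp0 h2 hs _ hv, ← mul_assoc, ← map_mul, ← map_mul, alpha_x N _ ha]
    congr 3
    have hc := ξ.hb.rc_ok ht.1 t
    have hc' := (ξ.hb.add_single ((ξ.hb.co ha.2.1).mul_left ha)).rc_ok ht.1 t
    by_cases e : l = j
    · subst e
      rw [x_mul_col hc ha, col_mul_x hc' (ok_conj N ha _ _)]
      congr 1
      funext i
      unfold rc
      by_cases e1 : i = l
      · subst e1; simp [hkj.symm]
      · by_cases e2 : i = k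
        · subst e2
          have := add_self_F2 (a * ξ.b l * t)
          simp only [Pi.add_apply, Function.update_of_ne e1, Pi.single_eq_same,
            Pi.mulSingle_eq_of_ne e1, Pi.mulSingle_eq_same, inv_inv, Units.val_one, one_mul]
          show _ = _ + a * (1 + ξ.b l * t)
          rw [← sub_eq_zero, ← neg_eq_zero]
          refine Eq.trans ?_ this
          noncomm_ring
        · simp [e1, e2]
    · rw [x_conj_col hc ha hkj e]
      simp only [Pi.mulSingle_eq_of_ne hkj, Pi.mulSingle_eq_of_ne e, inv_one, Units.val_one,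
        one_mul, mul_one]
      congr 2
      funext i
      unfold rc
      by_cases e1 : i = j
      · subst e1; simp [hkj.symm]
      · by_cases e2 : i = k
        · subst e2; simp [e1, e, add_mul, mul_assoc]
        · simp [e1, e2]

end One

end Vale.Agent.P192Z
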