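import Vale.Agent.P192Z.Grp.OneD

/-!
# P192: relations between the generators of the new row
-/

namespace Vale.Agent.P192Z

open scoped commutatorElement

variable {ι A : Type} [Ring A] [Algebra F2 A]

namespace One

variable {N : Net ι A} [DecidableEq ι] [Fintype ι] (C : Ctx N)

/-- Right translation. -/
noncomputable def rt (μ : Lam C) (ξ : Pt C) : Pt C := ⟨ξ.b, ξ.hb, ξ.l * μ⟩

/-- Maps that commute with right translations. -/
def Eqvt (F : Function.End (Pt C)) : Prop := ∀ μ ξ, F (rt C μ ξ) = rt C μ (F ξ)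

omit [Algebra F2 A] [Fintype ι] in
theorem Eqvt.mul {F G : Function.End (Pt C)} (hF : Eqvt C F) (hG : Eqvt C G) : Eqvt C (F * G) :=
  fun μ ξ => by rw [mul_app, mul_app, hG, hF]

theorem eqvt_G {k l : ι} {a : A} (h : N.ok k l a) : Eqvt C (opG C k l a) := by
  intro μ ξ
  ext1
  · show _ = (opG C k l a ξ).b
    rw [opG_b C h, opG_b C h]; rfl
  · show _ = (opG C k l a ξ).l * μ
    rw [opG_l C h, opG_l C h, mul_assoc]; rfl

theorem eqvt_X (j : ι) (t : A) : Eqvt C (opX C j t) := by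
  intro μ ξ
  ext1
  · rfl
  · show _ = (opX C j t ξ).l * μ
    rw [opX_l, opX_l, mul_assoc _ ξ.l μ]; rfl

/-- The point `ξ` is modelled by the element `g`, with `p` in place of the new index. -/
def Rep (p : ι) (ξ : Pt C) (g : St N.ok) : Prop :=
  ξ.b p = 0 ∧ ξ.l.z ∈ Av N p ∧ ∃ r ∈ Row N p, g = col N p ξ.b * Xi C p ξ.l * r

/-- The map `F` is modelled by left multiplication with `y`. -/
def Mod (p : ι) (F : Function.End (Pt C)) (y : St N.ok) : Prop :=
  ∀ ξ g, Rep C p ξ g → Rep C p (F ξ) (y * g)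

theorem Mod.mul {p : ι} {F G : Function.End (Pt C)} {y z : St N.ok} (hF : Mod C p F y)
    (hG : Mod C p G z) : Mod C p (F * G) (y * z) :=
  fun ξ g h => by rw [mul_app, mul_assoc]; exact hF _ _ (hG _ _ h)

variable {p : ι} (hp : p ∈ N.S) (hp0 : N.lev p = 0) (hpm : p ≠ C.m)

include hp hp0 hpm in
theorem mod_G {k l : ι} {a : A} (h : N.ok k l a) (hk : k ≠ p) (hl : l ≠ p) :
    Mod C p (opG C k l a) (St.x N.ok k l a) := by
  rintro ξ g ⟨h1, h2, r, hr, rfl⟩
  refine ⟨?_, ?_, r, hr, ?_⟩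
  · rw [opG_b C h, Pi.add_apply, Pi.single_eq_of_ne hk.symm, h1, add_zero]
  · rw [opG_l C h, inl_mul_z]
    exact Subgroup.mul_mem _ (x_mem_UT ⟨hk, hl⟩) h2
  · rw [opG_b C h, opG_l C h, Xi_mul C hp hp0 hpm _ h2, Xi_inl C hp hp0 hpm, ← mul_assoc,
      ← mul_assoc, x_conj_col (ξ.hb.colOK hp h1) h hk hl]
    simp only [mul_assoc]

variable (hu : ∀ a : A, N.eps a = 0 → IsUnit (1 + a))

include hp hp0 hpm hu in
theorem mod_X {j : ι} {t : A} (ht : RoOK N j t) (hj : j ≠ p) :
    Mod C p (opX C j t) (St.x N.ok p j t) := by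
  rintro ξ g ⟨h1, h2, r, hr, rfl⟩
  have hv := uu_pt C hu ht ξ
  have hs : N.ok j p (ξ.b j) := (ξ.hb.co ht.1).ok hp hj
  have hc := ξ.hb.rc_ok ht.1 t
  have h3 : col N j (rc ξ.b j t) ∈ Av N p :=
    col_mem' hc fun k hk _ => ⟨by rintro rfl; exact hk (by simp [rc, hj.symm, h1]), hj⟩
  have h4 : (HL C j t (ξ.b j) (uu (t * ξ.b j))).z ∈ Av N p := D0_mem C hp0 hpm hs _ hv
  have h5 : (fun k => ξ.b k * ↑(uu (t * ξ.b j))⁻¹) p = 0 := by simp only [h1, zero_mul]
  refine ⟨h5, ?_, (Xi C p ξ.l)⁻¹ * St.x N.ok p j (↑(uu (t * ξ.b j))⁻¹ * t) * Xi C p ξ.l * r,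
    Subgroup.mul_mem _ (Xi_row C hp hp0 hpm h2 (x_mem_UT ⟨rfl, hj⟩)) hr, ?_⟩
  · rw [opX_l]
    exact mul_mem_av C hpm (mul_mem_av C hpm h3 h4) h2
  · rw [opX_b, opX_l, Xi_mul C hp hp0 hpm _ h2, Xi_mul C hp hp0 hpm _ h4, Xi_inl C hp hp0 hpm,
      Xi_HL C hp0 hpm hs _ hv, ← mul_assoc, ← mul_assoc,
      x_row_col hp hp0 ht.1 hj.symm (ξ.hb.colOK hp h1) hs t _ hv
        ((ξ.hb.mul_right _).colOK hp h5) hc]
    unfold rc
    group

theorem phi_row_col {r : St N.ok} (hr : r ∈ Row N p) (k : ι) :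
    phi N.closed r k p = (1 : Matrix ι ι A) k p :=
  phi_supp N.closed (fun _ _ _ h h' => absurd h'.1 h.2) hr k p fun h => h.2 rfl

theorem phi_av_col {z : St N.ok} (hz : z ∈ Av N p) (k : ι) :
    phi N.closed z k p = (1 : Matrix ι ι A) k p :=
  phi_supp N.closed (fun _ _ _ h h' => ⟨h.1, h'.2⟩) hz k p fun h => h.2 rfl

theorem av_row {z : St N.ok} (hz : z ∈ Av N p) (hr : z ∈ Row N p) : z = 1 := by
  refine row_ext N hr (Subgroup.one_mem _) ?_
  rw [map_one]
  ext k l
  by_cases e : k = p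
  · exact phi_supp N.closed (fun _ _ _ h h' => ⟨h.1, h'.2⟩) hz k l fun h => h.1 e
  · exact phi_supp N.closed (fun _ _ _ h h' => absurd h'.1 h.2) hr k l fun h => e h.1

omit [Algebra F2 A] in
theorem mul_col_one (M M' : Matrix ι ι A) (h : ∀ k, M' k p = (1 : Matrix ι ι A) k p) (k : ι) :
    (M * M') k p = M k p := by
  rw [Matrix.mul_apply]
  simp only [h]
  rw [← Matrix.mul_apply, mul_one]

include hp hp0 hpm in
theorem rep_col {ξ : Pt C} {g : St N.ok} (h : Rep C p ξ g) (k : ι) :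
    phi N.closed g k p = ((1 : Matrix ι ι A) k p + ξ.b k) * ξ.l.v := by
  obtain ⟨h1, h2, r, hr, rfl⟩ := h
  unfold Xi
  rw [map_mul, mul_col_one _ _ (phi_row_col hr), ← mul_assoc, map_mul,
    (isD_hh C hp hp0 hpm _).mat]
  unfold DM
  rw [Matrix.mul_diagonal, map_mul, mul_col_one _ _ (phi_av_col h2),
    phi_col (ξ.hb.colOK hp h1), Matrix.add_apply, cm_apply, if_pos rfl]
  simp [hpm]

include hp hp0 hpm in
theorem rep_inj {ξ ξ' : Pt C} {g : St N.ok} (h : Rep C p ξ g) (h' : Rep C p ξ' g) : ξ = ξ' := by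
  have e1 : ξ.l.v = ξ'.l.v := by
    have := (rep_col C hp hp0 hpm h p).symm.trans (rep_col C hp hp0 hpm h' p)
    rw [h.1, h'.1] at this
    ext
    simpa using this
  have e2 : ξ.b = ξ'.b := by
    funext k
    have := (rep_col C hp hp0 hpm h k).symm.trans (rep_col C hp hp0 hpm h' k)
    rw [e1, Units.mul_left_inj] at this
    exact add_left_cancel this
  obtain ⟨-, h2, r, hr, rfl⟩ := h
  obtain ⟨-, h2', r', hr', e⟩ := h'
  rw [← e2, mul_assoc, mul_assoc, mul_right_inj] at e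
  unfold Xi at e
  rw [← e1] at e
  have e3 : ξ'.l.z⁻¹ * ξ.l.z = hh C p ξ.l.v * (r' * r⁻¹) * (hh C p ξ.l.v)⁻¹ := by
    calc ξ'.l.z⁻¹ * ξ.l.z
        = ξ'.l.z⁻¹ * (ξ.l.z * hh C p ξ.l.v * r) * r⁻¹ * (hh C p ξ.l.v)⁻¹ := by group
      _ = _ := by rw [e]; group
  have e4 : ξ'.l.z⁻¹ * ξ.l.z = 1 := by
    refine av_row (Subgroup.mul_mem _ (Subgroup.inv_mem _ h2') h2) ?_
    rw [e3, (isD_hh C hp hp0 hpm _).conj]
    exact alpha_mem N _ (Subgroup.mul_mem _ hr' (Subgroup.inv_mem _ hr))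
  ext1
  · exact e2
  · ext1
    · exact (inv_mul_eq_one.mp e4).symm
    · exact e1

include hp hp0 hpm in
/-- Two maps with the same model and the same commutation rule with the new column agree. -/
theorem ext_mod {F G : Function.End (Pt C)} (hF : Eqvt C F) (hG : Eqvt C G) {y : St N.ok}
    (h1 : Mod C p F y) (h2 : Mod C p G y)
    (h3 : ∀ b, ∃ H : Function.End (Pt C), F * opU C p b = H * F ∧ G * opU C p b = H * G) :
    F = G := by
  funext ξ
  let ξ0 : Pt C := ⟨Function.update ξ.b p 0, ξ.hb.update p, 1⟩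
  have hb : CoOK N p (ξ.b p) := ⟨hp, Or.inl hp0⟩
  have e : ξ = rt C ξ.l (opU C p (ξ.b p) ξ0) := by
    ext1
    · show _ = (opU C p (ξ.b p) ξ0).b
      rw [opU_b C hb]
      funext k
      by_cases e : k = p
      · subst e; simp [ξ0]
      · simp [ξ0, e]
    · show _ = (opU C p (ξ.b p) ξ0).l * ξ.l
      rw [opU_l C hb]
      exact (one_mul _).symm
  have hr : Rep C p ξ0 (col N p ξ0.b * Xi C p ξ0.l * 1) :=
    ⟨Function.update_self .., Subgroup.one_mem _, 1, Subgroup.one_mem _, rfl⟩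
  have e0 : F ξ0 = G ξ0 := rep_inj C hp hp0 hpm (h1 _ _ hr) (h2 _ _ hr)
  obtain ⟨H, h4, h5⟩ := h3 (ξ.b p)
  rw [e, hF, hG, ← mul_app C F, ← mul_app C G, h4, h5, mul_app, mul_app, e0]

include hu in
theorem X_add {j : ι} {t t' : A} (ht : RoOK N j t) (ht' : RoOK N j t') :
    opX C j (t + t') = opX C j t * opX C j t' := by
  obtain ⟨p, hp, hp0, h1, hpm, -⟩ := C.spare j C.m C.m
  have o := fun a => ok_top N hp hp0 ht.1 h1 a
  refine ext_mod C hp hp0 hpm (eqvt_X C _ _) ((eqvt_X C _ _).mul C (eqvt_X C _ _))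
    (mod_X C hp hp0 hpm hu (ht.add ht') h1.symm) ?_ fun b => ?_
  · rw [(St.isSt N.ok).add (o t) (o t')]
    exact (mod_X C hp hp0 hpm hu ht h1.symm).mul C (mod_X C hp hp0 hpm hu ht' h1.symm)
  · have hb : CoOK N p b := ⟨hp, Or.inl hp0⟩
    refine ⟨_, XU_mul C hu hb (ht.add ht') h1, ?_⟩
    rw [mul_assoc, XU_mul C hu hb ht' h1, ← mul_assoc, ← mul_assoc, ← GX_comm C hu (o _) ht h1,
      mul_assoc _ (opX C j t), XU_mul C hu hb ht h1, mul_add, add_comm, G_add C (o _) (o _)]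
    simp only [mul_assoc]

include hu in
theorem X_comm {j j' : ι} {t t' : A} (ht : RoOK N j t) (ht' : RoOK N j' t') :
    opX C j t * opX C j' t' = opX C j' t' * opX C j t := by
  obtain ⟨p, hp, hp0, h1, hpm, h2⟩ := C.spare j C.m j'
  have o := fun a => ok_top N hp hp0 ht.1 h1 a
  have o' := fun a => ok_top N hp hp0 ht'.1 h2 a
  refine ext_mod C hp hp0 hpm ((eqvt_X C _ _).mul C (eqvt_X C _ _))
    ((eqvt_X C _ _).mul C (eqvt_X C _ _))
    ((mod_X C hp hp0 hpm hu ht h1.symm).mul C (mod_X C hp hp0 hpm hu ht' h2.symm)) ?_ fun b => ?_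
  · rw [((St.isSt N.ok).comm (o t) (o' t') h1.symm h2).eq]
    exact (mod_X C hp hp0 hpm hu ht' h2.symm).mul C (mod_X C hp hp0 hpm hu ht h1.symm)
  · have hb : CoOK N p b := ⟨hp, Or.inl hp0⟩
    refine ⟨opG C p j' (b * t') * opG C p j (b * t) * opU C p b, ?_, ?_⟩
    · rw [mul_assoc, XU_mul C hu hb ht' h2, ← mul_assoc, ← mul_assoc,
        ← GX_comm C hu (o' _) ht h1, mul_assoc _ (opX C j t), XU_mul C hu hb ht h1]
      simp only [mul_assoc]
    · rw [mul_assoc, XU_mul C hu hb ht h1, ← mul_assoc, ← mul_assoc,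
        ← GX_comm C hu (o _) ht' h2, mul_assoc _ (opX C j' t'), XU_mul C hu hb ht' h2,
        G_comm C (o' _) (o _) h2.symm h1]
      simp only [mul_assoc]

include hu in
theorem XG_mul {j k : ι} {t a : A} (ht : RoOK N j t) (ha : N.ok j k a) :
    opX C j t * opG C j k a = opX C k (t * a) * opG C j k a * opX C j t := by
  obtain ⟨p, hp, hp0, h1, hpm, h2⟩ := C.spare j C.m k
  have o := fun a => ok_top N hp hp0 ht.1 h1 a
  have o' := fun c => ok_top N hp hp0 ha.2.1 h2 c
  have hta := ht.mul_right ha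
  refine ext_mod C hp hp0 hpm ((eqvt_X C _ _).mul C (eqvt_G C ha))
    (((eqvt_X C _ _).mul C (eqvt_G C ha)).mul C (eqvt_X C _ _))
    ((mod_X C hp hp0 hpm hu ht h1.symm).mul C (mod_G C hp hp0 hpm ha h1.symm h2.symm)) ?_
    fun b => ?_
  · have e : St.x N.ok p j t * St.x N.ok j k a =
        St.x N.ok p k (t * a) * St.x N.ok j k a * St.x N.ok p j t := by
      rw [← (St.isSt N.ok).conj_left (o t) ha h2, inv_mul_cancel_right]
    rw [e]
    exact ((mod_X C hp hp0 hpm hu hta h2.symm).mul C (mod_G C hp hp0 hpm ha h1.symm h2.symm)).mul C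
      (mod_X C hp hp0 hpm hu ht h1.symm)
  · have hb : CoOK N p b := ⟨hp, Or.inl hp0⟩
    refine ⟨opG C p j (b * t) * opU C p b, ?_, ?_⟩
    · rw [mul_assoc, GU_comm C ha hb h2.symm, ← mul_assoc, XU_mul C hu hb ht h1]
      simp only [mul_assoc]
    · have i1 : opG C p k (b * t * a) * opG C p k (b * t * a) = 1 := by
        rw [← G_add C (o' _) (o' _), add_self_F2, G_zero C (o' _)]
      have e1 : opG C j k a * opG C p j (b * t) =
          opG C p k (b * t * a) * (opG C p j (b * t) * opG C j k a) := by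
        rw [G_mul C (o _) ha h2, ← mul_assoc, ← mul_assoc, i1, one_mul]
      have e2 := XU_mul C hu hb ht h1
      have e3 := XU_mul C hu hb hta h2
      have e4 := GX_comm C hu (o' (b * t * a)) hta h2
      have e5 := GX_comm C hu (o (b * t)) hta h2
      have e6 := GU_comm C ha hb h2.symm
      have e7 := G_comm C (o (b * t)) (o' (b * t * a)) h1.symm h2
      rw [← mul_assoc b] at e3
      calc opX C k (t * a) * opG C j k a * opX C j t * opU C p b
          = opX C k (t * a) * (opG C j k a * opG C p j (b * t)) * opU C p b * opX C j t := by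
            rw [mul_assoc, e2]; simp only [mul_assoc]
        _ = (opX C k (t * a) * opG C p k (b * t * a)) * opG C p j (b * t) *
              (opG C j k a * opU C p b) * opX C j t := by rw [e1]; simp only [mul_assoc]
        _ = opG C p k (b * t * a) * (opX C k (t * a) * opG C p j (b * t)) *
              opU C p b * opG C j k a * opX C j t := by rw [← e4, e6]; simp only [mul_assoc]
        _ = opG C p k (b * t * a) * opG C p j (b * t) * (opX C k (t * a) * opU C p b) *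
              opG C j k a * opX C j t := by rw [← e5]; simp only [mul_assoc]
        _ = opG C p j (b * t) * (opG C p k (b * t * a) * opG C p k (b * t * a)) * opU C p b *
              opX C k (t * a) * opG C j k a * opX C j t := by
            rw [e3, ← e7]; simp only [mul_assoc]
        _ = _ := by rw [i1]; simp only [mul_assoc, mul_one]

theorem X_zero (j : ι) (hj : j ∈ N.S) : opX C j (0 : A) = 1 := by
  funext ξ
  obtain ⟨p, hp, hp0, h1, hpm, -⟩ := C.spare j C.m C.m
  have hs : N.ok j p (ξ.b j) := (ξ.hb.co hj).ok hp h1.symm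
  ext1
  · rw [opX_b, zero_mul, uu_zero]
    funext k
    simp only [inv_one, Units.val_one, mul_one]
    rfl
  · have e1 : rc ξ.b j 0 = 0 := by
      funext k
      unfold rc
      by_cases e : k = j
      · subst e; simp
      · simp [e]
    have e2 : HL C j 0 (ξ.b j) 1 = 1 := by
      ext1
      · show D0 C j 0 (ξ.b j) 1 = 1
        rw [D0_eq C hp0 hpm hs 1 (by simp)]
        unfold DD HH
        rw [hh_one C hp hp0 hpm]
        simp only [inv_one, Units.val_one, mul_one, mul_zero,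
          (St.isSt N.ok).zero (ok_top N hp hp0 hj h1 0), (St.isSt N.ok).mul_self N.closed hs]
      · rfl
    rw [opX_l, zero_mul, uu_zero, e1, col_zero, map_one, e2, one_mul, one_mul]
    rfl

end One

end Vale.Agent.P192Z
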