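import Vale.Agent.P192Z.Grp.OneE

/-!
# P192: injective stability for Steinberg groups of nets
-/

namespace Vale.Agent.P192Z

open scoped commutatorElement

variable {ι A : Type} [Ring A] [Algebra F2 A]

/-- Steinberg relations in a monoid give a homomorphism to its units. -/
theorem exists_hom_units {ok : ι → ι → A → Prop} (hc : Closed ok) {M : Type} [Monoid M]
    (f : ι → ι → A → M) (h0 : ∀ i j, ok i j 0 → f i j 0 = 1)
    (h1 : ∀ i j a b, ok i j a → ok i j b → f i j (a + b) = f i j a * f i j b)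
    (h2 : ∀ i j k l a b, ok i j a → ok k l b → j ≠ k → i ≠ l →
      f i j a * f k l b = f k l b * f i j a)
    (h3 : ∀ i j k a b, ok i j a → ok j k b → i ≠ k →
      f i j a * f j k b = f i k (a * b) * f j k b * f i j a) :
    ∃ ψ : St ok →* Mˣ, ∀ i j a, ok i j a → (ψ (St.x ok i j a) : M) = f i j a := by
  classical
  have hs : ∀ i j a, ok i j a → f i j a * f i j a = 1 := fun i j a h => by
    rw [← h1 i j a a h h, add_self_F2, h0 i j (hc.zero h)]
  let y : ι → ι → A → Mˣ := fun i j a =>
    if h : ok i j a then ⟨f i j a, f i j a, hs i j a h, hs i j a h⟩ else 1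
  have hy : ∀ i j a, ok i j a → (y i j a : M) = f i j a := fun i j a h => by
    simp only [y, dif_pos h]
  have hst : IsSt ok y := by
    refine ⟨fun {i j a b} ha hb => ?_, fun {i j k l a b} ha hb e1 e2 => ?_,
      fun {i j k a b} ha hb e => ?_⟩
    · ext; rw [Units.val_mul, hy _ _ _ ha, hy _ _ _ hb, hy _ _ _ (hc.add ha hb), h1 _ _ _ _ ha hb]
    · ext; rw [Units.val_mul, Units.val_mul, hy _ _ _ ha, hy _ _ _ hb, h2 _ _ _ _ _ _ ha hb e1 e2]
    · have : y i j a * y j k b = y i k (a * b) * y j k b * y i j a := by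
        ext
        rw [Units.val_mul, Units.val_mul, Units.val_mul, hy _ _ _ ha, hy _ _ _ hb,
          hy _ _ _ (hc.mul ha hb e), h3 _ _ _ _ _ ha hb e]
      rw [commutatorElement_def, this]
      group
  exact ⟨St.lift hc y hst, fun i j a h => by rw [St.lift_x hc y hst h, hy _ _ _ h]⟩

theorem onestep [Fintype ι] [DecidableEq ι] (N : Net ι A)
    (hunit : ∀ a : A, N.eps a = 0 → IsUnit (1 + a))
    (h4 : 4 ≤ (N.S.filter fun i => N.lev i = 0).card)
    (s : ι) (hs : s ∉ N.S) (hs0 : 0 < N.lev s)
    (hs1 : ∀ j ∈ N.S, N.lev j ≠ 0 → N.lev s < N.lev j) :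
    Function.Injective (N.incl (Finset.subset_insert s N.S)) := by
  have spare : ∀ a b c : ι, ∃ p ∈ N.S, N.lev p = 0 ∧ p ≠ a ∧ p ≠ b ∧ p ≠ c := by
    intro a b c
    have : ({a, b, c} : Finset ι).card < (N.S.filter fun i => N.lev i = 0).card :=
      lt_of_le_of_lt Finset.card_le_three (by omega)
    obtain ⟨p, hp, hp'⟩ := Finset.exists_mem_notMem_of_card_lt_card this
    rw [Finset.mem_filter] at hp
    simp only [Finset.mem_insert, Finset.mem_singleton, not_or] at hp'
    exact ⟨p, hp.1, hp.2, hp'⟩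
  obtain ⟨m, hm, hm0, -⟩ := spare s s s
  let C : One.Ctx N := ⟨m, hm, hm0, spare⟩
  let N' := N.withS (insert s N.S)
  have cX : ∀ {j a}, N'.ok s j a → One.RoOK N j a := fun {j a} h =>
    ⟨(Finset.mem_insert.mp h.2.1).resolve_left h.2.2.1.symm,
      h.2.2.2.imp (fun e : N.lev s ≤ N.lev j => by omega) id⟩
  have cU : ∀ {i a}, N'.ok i s a → One.CoOK N i a := fun {i a} h => by
    have hi := (Finset.mem_insert.mp h.1).resolve_left h.2.2.1
    refine ⟨hi, h.2.2.2.imp (fun e : N.lev i ≤ N.lev s => ?_) id⟩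
    by_contra e'
    have := hs1 i hi e'
    omega
  have cG : ∀ {i j a}, N'.ok i j a → i ≠ s → j ≠ s → N.ok i j a := fun h e1 e2 =>
    ⟨(Finset.mem_insert.mp h.1).resolve_left e1, (Finset.mem_insert.mp h.2.1).resolve_left e2,
      h.2.2⟩
  let f : ι → ι → A → Function.End (One.Pt C) := fun i j a =>
    if i = s then One.opX C j a else if j = s then One.opU C i a else One.opG C i j a
  have fX : ∀ j a, f s j a = One.opX C j a := fun j a => by simp only [f, if_true]
  have fU : ∀ {i} a, i ≠ s → f i s a = One.opU C i a := fun a h => by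
    simp only [f, if_neg h, if_true]
  have fG : ∀ {i j} a, i ≠ s → j ≠ s → f i j a = One.opG C i j a := fun a h h' => by
    simp only [f, if_neg h, if_neg h']
  obtain ⟨ψ, hψ⟩ := exists_hom_units N'.closed f
    (fun i j h => by
      by_cases e1 : i = s
      · subst e1; rw [fX, One.X_zero C j (cX h).1]
      by_cases e2 : j = s
      · subst e2; rw [fU _ e1, One.U_zero C (cU h)]
      · rw [fG _ e1 e2, One.G_zero C (cG h e1 e2)])
    (fun i j a b ha hb => by
      by_cases e1 : i = s
      · subst e1; rw [fX, fX, fX, One.X_add C hunit (cX ha) (cX hb)]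
      by_cases e2 : j = s
      · subst e2; rw [fU _ e1, fU _ e1, fU _ e1, One.U_add C (cU ha) (cU hb)]
      · rw [fG _ e1 e2, fG _ e1 e2, fG _ e1 e2, One.G_add C (cG ha e1 e2) (cG hb e1 e2)])
    (fun i j k l a b ha hb hjk hil => by
      by_cases e1 : i = s
      · subst e1
        by_cases e3 : k = i
        · subst e3; rw [fX, fX, One.X_comm C hunit (cX ha) (cX hb)]
        · rw [fX, fG _ e3 hil.symm,
            One.GX_comm C hunit (cG hb e3 hil.symm) (cX ha) hjk.symm]
      by_cases e2 : j = s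
      · subst e2
        by_cases e4 : l = j
        · subst e4; rw [fU _ e1, fU _ hjk.symm, One.U_comm C (cU ha) (cU hb)]
        · rw [fU _ e1, fG _ hjk.symm e4, One.GU_comm C (cG hb hjk.symm e4) (cU ha) hil.symm]
      by_cases e3 : k = s
      · subst e3
        rw [fX, fG _ e1 e2, One.GX_comm C hunit (cG ha e1 e2) (cX hb) hil]
      by_cases e4 : l = s
      · subst e4
        rw [fU _ e3, fG _ e1 e2, One.GU_comm C (cG ha e1 e2) (cU hb) hjk]
      · rw [fG _ e1 e2, fG _ e3 e4, One.G_comm C (cG ha e1 e2) (cG hb e3 e4) hjk hil])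
    (fun i j k a b ha hb hik => by
      by_cases e1 : i = s
      · subst e1
        rw [fX, fX, fG _ ha.2.2.1.symm hik.symm,
          One.XG_mul C hunit (cX ha) (cG hb ha.2.2.1.symm hik.symm)]
      by_cases e2 : j = s
      · subst e2
        have o := (cU ha).ok_mul (cX hb).1 hik b
        rw [fX, fU _ e1, fG _ e1 hb.2.2.1.symm, mul_assoc,
          One.XU_mul C hunit (cU ha) (cX hb) hik, ← mul_assoc, ← mul_assoc,
          ← One.G_add C o o, add_self_F2, One.G_zero C (N.closed.zero o), one_mul]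
      by_cases e3 : k = s
      · subst e3
        rw [fU _ e1, fU _ e2, fG _ e1 e2, One.GU_mul C (cG ha e1 e2) (cU hb)]
      · rw [fG _ e1 e2, fG _ e2 e3, fG _ e1 e3, One.G_mul C (cG ha e1 e2) (cG hb e2 e3) hik])
  have key : ∀ g : St N.ok, (ψ (N.incl (Finset.subset_insert s N.S) g) : Function.End (One.Pt C))
      ⟨0, One.inB_zero, 1⟩ = ⟨0, One.inB_zero, One.inl C g⟩ := by
    intro g
    induction g using St.induction_left N.closed with
    | h1 => rw [map_one, map_one, map_one]; rfl
    | hx i j a g ha ih =>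
      have e1 : i ≠ s := by rintro rfl; exact hs ha.1
      have e2 : j ≠ s := by rintro rfl; exact hs ha.2.1
      have ha' : N'.ok i j a :=
        ⟨Finset.mem_insert_of_mem ha.1, Finset.mem_insert_of_mem ha.2.1, ha.2.2⟩
      have e3 : N.incl (Finset.subset_insert s N.S) (St.x N.ok i j a) = St.x N'.ok i j a :=
        St.reindex_x _ _ _ _ ha
      rw [map_mul, map_mul, Units.val_mul, One.mul_app, ih, e3, hψ _ _ _ ha', fG _ e1 e2]
      ext1
      · rw [One.opG_b C ha]; simp
      · rw [One.opG_l C ha, map_mul]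
  rw [injective_iff_map_eq_one]
  intro g hg
  have := key g
  rw [hg, map_one] at this
  exact (congrArg (fun ξ : One.Pt C => ξ.l.z) this).symm

omit [Algebra F2 A] in
theorem Net.incl_x (N : Net ι A) {S' : Finset ι} (h : N.S ⊆ S') {i j : ι} {a : A}
    (ha : N.ok i j a) : N.incl h (St.x N.ok i j a) = St.x (N.withS S').ok i j a :=
  St.reindex_x _ _ _ _ ha

/-- Adding indices of positive level, in decreasing order of levels. -/
theorem chain [Fintype ι] [DecidableEq ι] (N : Net ι A)
    (hunit : ∀ a : A, N.eps a = 0 → IsUnit (1 + a))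
    (h4 : 4 ≤ (N.S.filter fun i => N.lev i = 0).card) (h0 : ∀ j ∈ N.S, N.lev j = 0)
    (hinj : ∀ i j, i ∉ N.S → j ∉ N.S → N.lev i = N.lev j → i = j)
    (hpos : ∀ i, i ∉ N.S → 0 < N.lev i) (T : Finset ι) (hT : Disjoint T N.S) :
    Function.Injective (N.incl (Finset.subset_union_left (s₁ := N.S) (s₂ := T))) := by
  induction T using Finset.induction_on_min_value N.lev with
  | empty =>
    have h : N.S ∪ ∅ ⊆ N.S := by simp
    have : ((N.withS (N.S ∪ ∅)).incl h).comp (N.incl Finset.subset_union_left) =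
        MonoidHom.id _ := by
      refine St.hom_ext fun i j a ha => ?_
      have ha' : (N.withS (N.S ∪ ∅)).ok i j a :=
        ⟨Finset.mem_union_left _ ha.1, Finset.mem_union_left _ ha.2.1, ha.2.2⟩
      rw [MonoidHom.comp_apply, Net.incl_x N _ ha, Net.incl_x _ h ha']
      rfl
    exact Function.LeftInverse.injective (fun g => DFunLike.congr_fun this g)
  | insert s T hsT hmin ih =>
    rw [Finset.disjoint_insert_left] at hT
    have hs : s ∉ (N.withS (N.S ∪ T)).S := fun h =>
      (Finset.mem_union.mp h).elim hT.1 hsT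
    have h1 := onestep (N.withS (N.S ∪ T)) hunit
      (h4.trans (Finset.card_le_card (Finset.filter_subset_filter _ Finset.subset_union_left)))
      s hs (hpos s hT.1) (fun j hj hj0 => by
        have hjT : j ∈ T := (Finset.mem_union.mp hj).resolve_left fun h => hj0 (h0 j h)
        have h2 := hmin j hjT
        have h3 : N.lev s ≠ N.lev j := fun e =>
          hsT (hinj s j hT.1 (Finset.disjoint_left.mp hT.2 hjT) e ▸ hjT)
        exact lt_of_le_of_ne h2 h3)
    have h : (N.withS (N.S ∪ insert s T)).S ⊆ insert s (N.S ∪ T) :=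
      (Finset.union_insert s N.S T).subset
    let f1 : St (N.withS (N.S ∪ insert s T)).ok →* St (N.withS (insert s (N.S ∪ T))).ok :=
      (N.withS (N.S ∪ insert s T)).incl h
    let f2 : St (N.withS (N.S ∪ T)).ok →* St (N.withS (insert s (N.S ∪ T))).ok :=
      (N.withS (N.S ∪ T)).incl (Finset.subset_insert s _)
    have hf2 : Function.Injective f2 := h1
    have : f1.comp (N.incl Finset.subset_union_left) =
        f2.comp (N.incl Finset.subset_union_left) := by
      refine St.hom_ext fun i j a ha => ?_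
      have ha' : ∀ U, (N.withS (N.S ∪ U)).ok i j a := fun U =>
        ⟨Finset.mem_union_left _ ha.1, Finset.mem_union_left _ ha.2.1, ha.2.2⟩
      have e1 : f1 (St.x (N.withS (N.S ∪ insert s T)).ok i j a) =
          St.x (N.withS (insert s (N.S ∪ T))).ok i j a := Net.incl_x _ h (ha' _)
      have e2 : f2 (St.x (N.withS (N.S ∪ T)).ok i j a) =
          St.x (N.withS (insert s (N.S ∪ T))).ok i j a := Net.incl_x _ _ (ha' _)
      rw [MonoidHom.comp_apply, MonoidHom.comp_apply, Net.incl_x N _ ha, Net.incl_x N _ ha, e1, e2]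
    have h2 : Function.Injective (f1.comp (N.incl Finset.subset_union_left)) := by
      rw [this]
      exact hf2.comp (ih hT.2)
    exact Function.Injective.of_comp (f := f1) h2

theorem unToBig_injective (ε : A →+* F2) (hunit : ∀ a : A, ε a = 0 → IsUnit (1 + a)) (m : ℕ) :
    Function.Injective (unToBig ε m) := by
  let S0 : Finset (Fin 5 × Fin (m + 1)) := Finset.univ.filter fun p => p.2 = 0
  let N := (bigNet ε m).withS S0
  have hS : ∀ p, p ∈ N.S ↔ p.2 = 0 := fun p => by simp [N, S0, Net.withS]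
  have hl : ∀ p, N.lev p = if p.2 = 0 then 0 else 5 * p.2.val + p.1.val := fun p => rfl
  have h1 := chain N hunit
    (by
      have : (Finset.univ.map ⟨fun i : Fin 5 => ((i, 0) : Fin 5 × Fin (m + 1)),
          fun _ _ h => congrArg Prod.fst h⟩) ⊆ N.S.filter fun i => N.lev i = 0 := by
        intro p hp
        obtain ⟨i, -, rfl⟩ := Finset.mem_map.mp hp
        exact Finset.mem_filter.mpr ⟨(hS _).2 rfl, by rw [hl]; exact if_pos rfl⟩
      have := Finset.card_le_card this
      rw [Finset.card_map, Finset.card_univ, Fintype.card_fin] at this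
      omega)
    (fun j hj => by rw [hl, if_pos ((hS j).1 hj)])
    (fun i j hi hj e => by
      rw [hS] at hi hj
      rw [hl, hl, if_neg hi, if_neg hj] at e
      have := i.1.2
      have := j.1.2
      ext <;> omega)
    (fun i hi => by
      rw [hS] at hi
      rw [hl, if_neg hi]
      have : i.2.val ≠ 0 := fun e => hi (Fin.ext e)
      omega)
    S0ᶜ disjoint_compl_left
  let r : St (unNet ε).ok →* St N.ok :=
    St.reindex (unNet ε).closed (fun i => (i, 0)) (fun _ _ h => congrArg Prod.fst h)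
      fun i j a h => ⟨(hS _).2 rfl, (hS _).2 rfl, fun e => h.2.2.1 (congrArg Prod.fst e),
        Or.inl (by rw [hl, hl]; simp)⟩
  have hfst : ∀ {i j a}, N.ok i j a → (unNet ε).ok i.1 j.1 a := fun {i j a} h =>
    (unNet_ok ..).2 fun e => h.2.2.1 (Prod.ext e (((hS i).1 h.1).trans ((hS j).1 h.2.1).symm))
  have hne : ∀ {i j : Fin 5 × Fin (m + 1)}, i ∈ N.S → j ∈ N.S → i ≠ j → i.1 ≠ j.1 :=
    fun {i j} hi hj h e => h (Prod.ext e (((hS i).1 hi).trans ((hS j).1 hj).symm))
  have hst : IsSt N.ok fun i j a => St.x (unNet ε).ok i.1 j.1 a :=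
    ⟨fun ha hb => (St.isSt _).add (hfst ha) (hfst hb),
     fun ha hb e1 e2 => (St.isSt _).comm (hfst ha) (hfst hb) (hne ha.2.1 hb.1 e1)
      (hne ha.1 hb.2.1 e2),
     fun ha hb e => (St.isSt _).mul (hfst ha) (hfst hb) (hne ha.1 hb.2.1 e)⟩
  have hok : ∀ {i j a}, (unNet ε).ok i j a → N.ok (i, 0) (j, 0) a := fun h =>
    ⟨(hS _).2 rfl, (hS _).2 rfl, fun e => h.2.2.1 (congrArg Prod.fst e),
      Or.inl (by rw [hl, hl]; simp)⟩
  have hr : ∀ {i j a}, (unNet ε).ok i j a →
      r (St.x (unNet ε).ok i j a) = St.x N.ok (i, 0) (j, 0) a := fun ha =>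
    St.reindex_x _ _ _ _ ha
  have h2 : (St.lift N.closed _ hst).comp r = MonoidHom.id _ := by
    refine St.hom_ext fun i j a ha => ?_
    rw [MonoidHom.comp_apply, hr ha, St.lift_x _ _ _ (hok ha)]
    rfl
  have h3 : Function.Injective r :=
    Function.LeftInverse.injective (fun g => DFunLike.congr_fun h2 g)
  let ρ : St (bigNet ε m).ok →* St (N.withS (N.S ∪ S0ᶜ)).ok :=
    St.reindex (bigNet ε m).closed id Function.injective_id fun i j _ h =>
      ⟨(Finset.union_compl S0).ge (Finset.mem_univ i),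
        (Finset.union_compl S0).ge (Finset.mem_univ j), h.2.2⟩
  have h4 : ρ.comp (unToBig ε m) = (N.incl Finset.subset_union_left).comp r := by
    refine St.hom_ext fun i j a ha => ?_
    have hb : (bigNet ε m).ok (i, 0) (j, 0) a :=
      ⟨Finset.mem_univ _, Finset.mem_univ _, (hok ha).2.2⟩
    have e1 : unToBig ε m (St.x (unNet ε).ok i j a) = St.x (bigNet ε m).ok (i, 0) (j, 0) a :=
      St.reindex_x _ _ _ _ ha
    rw [MonoidHom.comp_apply, MonoidHom.comp_apply, e1, hr ha, Net.incl_x _ _ (hok ha)]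
    exact St.reindex_x _ _ _ _ hb
  have h5 : Function.Injective (ρ.comp (unToBig ε m)) := by
    rw [h4]
    exact h1.comp h3
  exact Function.Injective.of_comp (f := ρ) h5

end Vale.Agent.P192Z
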