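import Vale.Agent.P192Z.Grp.Unip

/-!
# P192: block elements of the parahoric Steinberg group and the twisted homomorphisms
-/

namespace Vale.Agent.P192Z

namespace Tr

open scoped commutatorElement

section General

variable {ι A : Type} [Ring A] [Algebra F2 A]

theorem commute_UT {ok : ι → ι → A → Prop} (hc : Closed ok) {T T' : ι → ι → Prop}
    (h : ∀ i j k l, T i j → T' k l → j ≠ k ∧ i ≠ l) {g g' : St ok} (hg : g ∈ UT ok T)
    (hg' : g' ∈ UT ok T') : Commute g g' := by
  refine UT_induction hc (p := fun g => Commute g g') (Commute.one_left _)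
    (fun i j a g ha hT _ ih => Commute.mul_left ?_ ih) hg
  refine UT_induction hc (p := fun g' => Commute (St.x ok i j a) g') (Commute.one_right _)
    (fun k l b g' hb hT' _ ih => Commute.mul_right ?_ ih) hg'
  exact (St.isSt ok).comm ha hb (h i j k l hT hT').1 (h i j k l hT hT').2

variable [Fintype ι] [DecidableEq ι]

theorem exists_unip {ok : ι → ι → A → Prop} (hc : Closed ok) (ρ : ι → ℕ)
    (N : Matrix ι ι A) (hN : ∀ i j, N i j ≠ 0 → ok i j (N i j))
    (hρ : ∀ i j, N i j ≠ 0 → ρ i < ρ j) :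
    ∃ g ∈ UT ok (fun i j => N i j ≠ 0), phi hc g = 1 + N := by
  have key : ∀ n : ℕ, ∃ g ∈ UT ok (fun i j => N i j ≠ 0),
      phi hc g = 1 + Matrix.of fun i j => if ρ j < n then N i j else 0 := by
    intro n
    induction n with
    | zero => exact ⟨1, Subgroup.one_mem _, by ext i j; simp⟩
    | succ n ih =>
      obtain ⟨g, hg, e⟩ := ih
      have hne : ∀ i j, (Matrix.of fun i j => if ρ j = n then N i j else 0) i j ≠ 0 →
          ρ j = n ∧ N i j ≠ 0 := by
        intro i j h
        rw [Matrix.of_apply] at h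
        by_cases h' : ρ j = n
        · exact ⟨h', by simpa [h'] using h⟩
        · simp [h'] at h
      obtain ⟨u, hu, eu⟩ := exists_block hc (Matrix.of fun i j => if ρ j = n then N i j else 0)
        (fun i j h => by
          obtain ⟨h1, h2⟩ := hne i j h
          rw [Matrix.of_apply, if_pos h1]
          exact hN i j h2)
        (fun i j k l h h' e => by
          obtain ⟨h1, _⟩ := hne i j h
          obtain ⟨h3, h4⟩ := hne k l h'
          have := hρ k l h4
          subst e
          omega)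
      refine ⟨u * g, Subgroup.mul_mem _ (UT_mono (fun i j h => (hne i j h).2) hu) hg, ?_⟩
      have hz : (Matrix.of fun i j => if ρ j = n then N i j else 0) *
          (Matrix.of fun i j => if ρ j < n then N i j else 0) = 0 := by
        ext i k
        rw [Matrix.mul_apply, Matrix.zero_apply]
        refine Finset.sum_eq_zero fun j _ => ?_
        rw [Matrix.of_apply, Matrix.of_apply]
        by_cases h1 : ρ j = n
        · by_cases h2 : ρ k < n
          · have : N j k = 0 := by
              by_contra h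
              have := hρ j k h
              omega
            simp [this]
          · simp [h2]
        · simp [h1]
      rw [map_mul, eu, e, add_mul, one_mul, mul_add, mul_one, hz, add_zero]
      ext i j
      simp only [Matrix.add_apply, Matrix.of_apply, add_assoc, add_right_inj]
      by_cases h1 : ρ j < n
      · simp [h1, h1.ne, Nat.lt_succ_of_lt h1]
      · by_cases h2 : ρ j = n
        · simp [h2]
        · have h3 : ¬ ρ j < n + 1 := by omega
          simp [h1, h2, h3]
  obtain ⟨g, hg, e⟩ := key (Finset.univ.sup ρ + 1)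
  refine ⟨g, hg, ?_⟩
  rw [e]
  ext i j
  have : ρ j < Finset.univ.sup ρ + 1 := Nat.lt_succ_of_le (Finset.le_sup (Finset.mem_univ j))
  simp only [Matrix.add_apply, Matrix.of_apply, if_pos this]

end General

variable {A : Type} [Ring A] [Algebra F2 A] (ε : A →+* F2) (m : ℕ)

/-- Square blocks. -/
abbrev Blk (A : Type) (m : ℕ) : Type := Matrix (Fin (m + 1)) (Fin (m + 1)) A

/-- Index set of the parahoric group. -/
abbrev Ix (m : ℕ) : Type := Fin 5 × Fin (m + 1)

/-- From block matrices to matrices. -/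
abbrev cmp : Matrix (Fin 5) (Fin 5) (Blk A m) ≃+* Matrix (Ix m) (Ix m) A :=
  Matrix.compRingEquiv (Fin 5) (Fin (m + 1)) A

/-- The parahoric group. -/
abbrev Gam : Type := St (bigNet ε m).ok

/-- The matrix of an element of the parahoric group. -/
noncomputable abbrev Phi : Gam ε m →* Matrix (Ix m) (Ix m) A := phi (bigNet ε m).closed

/-- Subgroups of the parahoric group given by positions. -/
abbrev U (T : Ix m → Ix m → Prop) : Subgroup (Gam ε m) := UT (bigNet ε m).ok T

omit [Algebra F2 A] in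
theorem cmp_apply (M : Matrix (Fin 5) (Fin 5) (Blk A m)) (p p' : Ix m) :
    cmp m M p p' = M p.1 p'.1 p.2 p'.2 := rfl

/-- Admissible blocks. -/
def Adm (i j : Fin 5) (M : Blk A m) : Prop :=
  i ≠ j ∧ ∀ r r', ε (M r r') = 0 ∨ (r = r' ∧ i < j)

variable {ε m}

omit [Algebra F2 A] in
theorem Adm.ok {i j : Fin 5} {M : Blk A m} (h : Adm ε m i j M) (r r' : Fin (m + 1)) :
    (bigNet ε m).ok (i, r) (j, r') (M r r') := by
  refine ⟨Finset.mem_univ _, Finset.mem_univ _, fun e => h.1 (congrArg Prod.fst e), ?_⟩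
  rcases h.2 r r' with h' | ⟨rfl, h'⟩
  · exact Or.inr h'
  · left
    have : i.val < j.val := h'
    simp only [bigNet]
    split_ifs <;> omega

theorem exists_XB {i j : Fin 5} {M : Blk A m} (h : Adm ε m i j M) :
    ∃ g ∈ U ε m (fun p p' => p.1 = i ∧ p'.1 = j ∧ M p.2 p'.2 ≠ 0),
      Phi ε m g = cmp m (1 + Matrix.single i j M) := by
  have hne : ∀ p p' : Ix m, cmp m (Matrix.single i j M) p p' ≠ 0 →
      p.1 = i ∧ p'.1 = j ∧ M p.2 p'.2 ≠ 0 := by
    intro p p' hp
    rw [cmp_apply, Matrix.single_apply] at hp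
    by_cases e : i = p.1 ∧ j = p'.1
    · rw [if_pos e] at hp
      exact ⟨e.1.symm, e.2.symm, hp⟩
    · rw [if_neg e] at hp
      exact absurd rfl hp
  obtain ⟨g, hg, e⟩ := exists_block (bigNet ε m).closed (cmp m (Matrix.single i j M))
    (fun p p' hp => by
      obtain ⟨h1, h2, _⟩ := hne p p' hp
      obtain ⟨k, r⟩ := p
      obtain ⟨l, r'⟩ := p'
      simp only at h1 h2
      subst h1 h2
      rw [cmp_apply, Matrix.single_apply_same]
      exact h.ok r r')
    (fun p p' p'' p''' h1 h2 e => by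
      have e1 := (hne _ _ h1).2.1
      have e2 := (hne _ _ h2).1
      rw [e, e2] at e1
      exact h.1 e1)
  exact ⟨g, UT_mono hne hg, by rw [map_add, map_one]; exact e⟩

variable (ε)

open Classical in
/-- The block generator. -/
noncomputable def XB (i j : Fin 5) (M : Blk A m) : Gam ε m :=
  if h : Adm ε m i j M then (exists_XB h).choose else 1

variable {ε}

theorem XB_mem {i j : Fin 5} {M : Blk A m} (h : Adm ε m i j M) :
    XB ε i j M ∈ U ε m (fun p p' => p.1 = i ∧ p'.1 = j ∧ M p.2 p'.2 ≠ 0) := by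
  unfold XB; rw [dif_pos h]; exact (exists_XB h).choose_spec.1

theorem XB_mem' {i j : Fin 5} {M : Blk A m} (h : Adm ε m i j M) {T : Ix m → Ix m → Prop}
    (hT : ∀ r r', M r r' ≠ 0 → T (i, r) (j, r')) : XB ε i j M ∈ U ε m T := by
  refine UT_mono ?_ (XB_mem h)
  rintro ⟨k, r⟩ ⟨l, r'⟩ ⟨h1, h2, h3⟩
  simp only at h1 h2 h3
  subst h1 h2
  exact hT r r' h3

theorem Phi_XB {i j : Fin 5} {M : Blk A m} (h : Adm ε m i j M) :
    Phi ε m (XB ε i j M) = cmp m (1 + Matrix.single i j M) := by
  unfold XB; rw [dif_pos h]; exact (exists_XB h).choose_spec.2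

theorem XB_add {i j : Fin 5} {M M' : Blk A m} (h : Adm ε m i j M) (h' : Adm ε m i j M')
    (h'' : Adm ε m i j (M + M')) : XB ε i j (M + M') = XB ε i j M * XB ε i j M' := by
  refine unip_ext (bigNet ε m).closed (T := fun p p' => p.1 = i ∧ p'.1 = j)
    (fun p => if p.1 = j then 1 else 0) (fun p p' hp => ?_)
    (XB_mem' h'' fun _ _ _ => ⟨rfl, rfl⟩)
    (Subgroup.mul_mem _ (XB_mem' h fun _ _ _ => ⟨rfl, rfl⟩) (XB_mem' h' fun _ _ _ => ⟨rfl, rfl⟩)) ?_
  · simp [hp.1, hp.2, h.1]
  · rw [map_mul, Phi_XB h, Phi_XB h', Phi_XB h'', ← map_mul]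
    congr 1
    rw [add_mul, mul_add, mul_add, one_mul, one_mul, mul_one,
      Matrix.single_mul_single_of_ne _ _ _ _ (Ne.symm h.1), Matrix.single_add]
    abel

theorem XB_comm {i j k l : Fin 5} {M M' : Blk A m} (h : Adm ε m i j M) (h' : Adm ε m k l M')
    (h1 : j ≠ k) (h2 : i ≠ l) : Commute (XB ε i j M) (XB ε k l M') := by
  refine commute_UT (bigNet ε m).closed ?_ (XB_mem h) (XB_mem h')
  rintro p p' p'' p''' ⟨e1, e2, _⟩ ⟨e3, e4, _⟩
  exact ⟨fun e => h1 (by rw [← e2, e, e3]), fun e => h2 (by rw [← e1, e, e4])⟩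

theorem XB_mul {i j k : Fin 5} {M M' : Blk A m} (h : Adm ε m i j M) (h' : Adm ε m j k M')
    (h'' : Adm ε m i k (M * M')) : ⁅XB ε i j M, XB ε j k M'⁆ = XB ε i k (M * M') := by
  have hij := h.1
  have hjk := h'.1
  have hik := h''.1
  have key : XB ε i j M * XB ε j k M' = XB ε i k (M * M') * XB ε j k M' * XB ε i j M := by
    refine unip_ext (bigNet ε m).closed
      (T := fun p p' => (p.1 = i ∧ p'.1 = j) ∨ (p.1 = j ∧ p'.1 = k) ∨ (p.1 = i ∧ p'.1 = k))
      (fun p => if p.1 = j then 1 else if p.1 = k then 2 else 0) (fun p p' hp => ?_)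
      (Subgroup.mul_mem _ (XB_mem' h fun _ _ _ => Or.inl ⟨rfl, rfl⟩)
        (XB_mem' h' fun _ _ _ => Or.inr (Or.inl ⟨rfl, rfl⟩)))
      (Subgroup.mul_mem _ (Subgroup.mul_mem _
        (XB_mem' h'' fun _ _ _ => Or.inr (Or.inr ⟨rfl, rfl⟩))
        (XB_mem' h' fun _ _ _ => Or.inr (Or.inl ⟨rfl, rfl⟩)))
        (XB_mem' h fun _ _ _ => Or.inl ⟨rfl, rfl⟩)) ?_
    · rcases hp with hp | hp | hp <;> simp [hp.1, hp.2, hij, hik, hjk.symm]
    · rw [map_mul, map_mul, map_mul, Phi_XB h, Phi_XB h', Phi_XB h'', ← map_mul, ← map_mul,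
        ← map_mul]
      congr 1
      simp only [add_mul, mul_add, one_mul, mul_one, Matrix.single_mul_single_same,
        Matrix.single_mul_single_of_ne _ _ _ _ (Ne.symm hjk),
        Matrix.single_mul_single_of_ne _ _ _ _ (Ne.symm hik), add_zero]
      abel
  rw [commutatorElement_def, key]
  group

/-- Non-unital homomorphisms to blocks that respect the augmentation. -/
structure Good (ε : A →+* F2) (m : ℕ) where
  f : A →ₙ+* Blk A m
  good : ∀ a r r', ε (f a r r') = 0 ∨ (r = r' ∧ ε a ≠ 0)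

omit [Algebra F2 A] in
theorem Good.adm (F : Good ε m) {i j : Fin 5} {a : A} (ha : (iwNet ε).ok i j a) :
    Adm ε m i j (F.f a) := by
  obtain ⟨h1, h2⟩ := (iwNet_ok ε i j a).mp ha
  refine ⟨h1, fun r r' => ?_⟩
  rcases F.good a r r' with h | ⟨h, h'⟩
  · exact Or.inl h
  · exact Or.inr ⟨h, lt_of_le_of_ne (h2.resolve_right h') h1⟩

/-- The twisted homomorphism from the Iwahori group to the parahoric group. -/
noncomputable def Good.th (F : Good ε m) : St (iwNet ε).ok →* Gam ε m :=
  St.lift (iwNet ε).closed (fun i j a => XB ε i j (F.f a))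
    ⟨fun ha hb => by
      rw [map_add]
      exact XB_add (F.adm ha) (F.adm hb)
        (by rw [← map_add]; exact F.adm ((iwNet ε).closed.add ha hb)),
     fun ha hb h1 h2 => XB_comm (F.adm ha) (F.adm hb) h1 h2,
     fun ha hb h1 => by
      rw [map_mul]
      exact XB_mul (F.adm ha) (F.adm hb)
        (by rw [← map_mul]; exact F.adm ((iwNet ε).closed.mul ha hb h1))⟩

theorem Good.th_x (F : Good ε m) {i j : Fin 5} {a : A} (ha : (iwNet ε).ok i j a) :
    F.th (St.x _ i j a) = XB ε i j (F.f a) :=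
  St.lift_x _ _ _ ha

theorem Good.Phi_th (F : Good ε m) (g : St (iwNet ε).ok) :
    Phi ε m (F.th g) = cmp m (1 + (phi (iwNet ε).closed g - 1).map F.f) := by
  refine St.induction_left (iwNet ε).closed
    (p := fun g => Phi ε m (F.th g) = cmp m (1 + (phi (iwNet ε).closed g - 1).map F.f)) ?_
    (fun i j a g ha ih => ?_) g
  · rw [map_one, map_one, map_one, sub_self, Matrix.map_zero _ (map_zero _), add_zero, map_one]
  · rw [map_mul, map_mul, map_mul, ih, F.th_x ha, Phi_XB (F.adm ha), ← map_mul, phi_x _ ha]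
    congr 1
    have e : (1 + Matrix.single i j a) * phi (iwNet ε).closed g - 1 =
        Matrix.single i j a + (phi (iwNet ε).closed g - 1) +
          Matrix.single i j a * (phi (iwNet ε).closed g - 1) := by noncomm_ring
    rw [e, Matrix.map_add _ (map_add _), Matrix.map_add _ (map_add _), Matrix.map_mul,
      Matrix.map_single]
    noncomm_ring

theorem Good.Phi_th_eq_one (F : Good ε m) {y : St (iwNet ε).ok}
    (hy : phi (iwNet ε).closed y = 1) : Phi ε m (F.th y) = 1 := by
  rw [F.Phi_th, hy, sub_self, Matrix.map_zero _ (map_zero _), add_zero, map_one]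

/-- The image lies in the subgroup given by the support of the blocks. -/
theorem Good.th_mem (F : Good ε m) {T : Ix m → Ix m → Prop}
    (hT : ∀ i j a r r', (iwNet ε).ok i j a → F.f a r r' ≠ 0 → T (i, r) (j, r'))
    (g : St (iwNet ε).ok) : F.th g ∈ U ε m T :=
  St.mem_of_gen ((U ε m T).comap F.th) (fun i j a ha => by
    rw [Subgroup.mem_comap, F.th_x ha]
    exact XB_mem' (F.adm ha) fun r r' h => hT i j a r r' ha h) g

end Tr

end Vale.Agent.P192Z
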