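import Vale.Agent.P192Z.Grp.TransferA

/-!
# P192: comparison of twisted homomorphisms
-/

namespace Vale.Agent.P192Z

namespace Tr

variable {A : Type} [Ring A] [Algebra F2 A] {ε : A →+* F2} {m : ℕ}

omit [Algebra F2 A] in
theorem Adm.sub {i j : Fin 5} {M M' : Blk A m} (h : Adm ε m i j M) (h' : Adm ε m i j M') :
    Adm ε m i j (M - M') := by
  refine ⟨h.1, fun r r' => ?_⟩
  rcases h.2 r r' with e | e
  · rcases h'.2 r r' with e' | e'
    · left; rw [Matrix.sub_apply, map_sub, e, e', sub_self]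
    · exact Or.inr e'
  · exact Or.inr e

theorem th_mul_inv_x (F G : Good ε m) {i j : Fin 5} {a : A} (ha : (iwNet ε).ok i j a) :
    F.th (St.x _ i j a) * (G.th (St.x _ i j a))⁻¹ = XB ε i j (F.f a - G.f a) := by
  rw [F.th_x ha, G.th_x ha, mul_inv_eq_iff_eq_mul,
    ← XB_add ((F.adm ha).sub (G.adm ha)) (G.adm ha) (by rw [sub_add_cancel]; exact F.adm ha),
    sub_add_cancel]

theorem th_step (F G : Good ε m) (x g : St (iwNet ε).ok) :
    F.th (x * g) * (G.th (x * g))⁻¹ =
      (F.th x * (G.th x)⁻¹) * (G.th x * (F.th g * (G.th g)⁻¹) * (G.th x)⁻¹) := by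
  rw [map_mul, map_mul]; group

variable (ε) in
/-- The diagonal homomorphism supported on `s`. -/
def dl (s : Finset (Fin (m + 1))) : Good ε m where
  f :=
    { toFun := fun a => Matrix.diagonal fun r => if r ∈ s then a else 0
      map_mul' := fun a b => by
        rw [Matrix.diagonal_mul_diagonal]; congr 1; funext r; split_ifs <;> simp
      map_zero' := by simp
      map_add' := fun a b => by
        rw [Matrix.diagonal_add]; congr 1; funext r; split_ifs <;> simp }
  good := fun a r r' => by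
    show ε (Matrix.diagonal (fun r => if r ∈ s then a else 0) r r') = 0 ∨ _
    rw [Matrix.diagonal_apply]
    by_cases h : r = r'
    · by_cases h' : ε a = 0
      · left; split_ifs <;> simp [h']
      · exact Or.inr ⟨h, h'⟩
    · left; simp [h]

omit [Algebra F2 A] in
theorem dl_apply (s : Finset (Fin (m + 1))) (a : A) (r r' : Fin (m + 1)) :
    (dl ε s).f a r r' = if r = r' ∧ r ∈ s then a else 0 := by
  show Matrix.diagonal (fun r => if r ∈ s then a else 0) r r' = _
  rw [Matrix.diagonal_apply]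
  by_cases h : r = r' <;> simp [h]

omit [Algebra F2 A] in
theorem dl_ne {s : Finset (Fin (m + 1))} {a : A} {r r' : Fin (m + 1)}
    (h : (dl ε s).f a r r' ≠ 0) : r = r' ∧ r ∈ s := by
  rw [dl_apply] at h
  by_contra h'
  exact h (if_neg h')

theorem dl_mem (s : Finset (Fin (m + 1))) (g : St (iwNet ε).ok) :
    (dl ε s).th g ∈ U ε m (fun p p' => p.2 = p'.2 ∧ p.2 ∈ s) :=
  (dl ε s).th_mem (fun _ _ _ _ _ _ h => dl_ne h) g

/-- A lower triangular homomorphism agrees with its diagonal part on the kernel. -/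
theorem th_eq_dl (F : Good ε m) (s : Finset (Fin (m + 1)))
    (h1 : ∀ a r r', r < r' → F.f a r r' = 0) (h2 : ∀ a r, r ∈ s → F.f a r r = a)
    (h3 : ∀ a r, r ∉ s → ε a = 0 → F.f a r r = 0) {y : St (iwNet ε).ok}
    (hy : phi (iwNet ε).closed y = 1) : F.th y = (dl ε s).th y := by
  have key : ∀ g, F.th g * ((dl ε s).th g)⁻¹ ∈
      U ε m (fun p p' => p'.2 < p.2 ∨ (p.2 = p'.2 ∧ p.2 ∉ s ∧ p.1 < p'.1)) := by
    intro g
    refine St.induction_left (iwNet ε).closed (p := fun g => F.th g * ((dl ε s).th g)⁻¹ ∈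
      U ε m (fun p p' => p'.2 < p.2 ∨ (p.2 = p'.2 ∧ p.2 ∉ s ∧ p.1 < p'.1))) (by simp)
      (fun i j a g ha ih => ?_) g
    rw [th_step, th_mul_inv_x _ _ ha]
    refine Subgroup.mul_mem _ (XB_mem' ((F.adm ha).sub ((dl ε s).adm ha)) fun r r' h => ?_)
      (conj_UT_UT (bigNet ε m).closed ?_ ?_ ?_ (dl_mem s _) ih)
    · rw [Matrix.sub_apply, dl_apply] at h
      rcases lt_trichotomy r r' with e | e | e
      · exact absurd (by rw [h1 a r r' e, if_neg (fun h => e.ne h.1), sub_zero]) h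
      · subst e
        by_cases hs : r ∈ s
        · exact absurd (by rw [h2 a r hs, if_pos ⟨rfl, hs⟩, sub_self]) h
        · refine Or.inr ⟨rfl, hs, ?_⟩
          obtain ⟨e1, e2⟩ := (iwNet_ok ε i j a).mp ha
          refine lt_of_le_of_ne (e2.resolve_right fun e => h ?_) e1
          rw [h3 a r hs e, if_neg (fun h => hs h.2), sub_zero]
      · exact Or.inl e
    · rintro p p' ⟨e, hs⟩ (h | h)
      · exact h.ne e
      · exact h.2.1 (e ▸ hs)
    · rintro p p' l ⟨e, hs⟩ (h | h)
      · exact Or.inl (e ▸ h)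
      · exact absurd (e ▸ hs) h.2.1
    · rintro p p' l ⟨e, hs⟩ (h | h)
      · exact Or.inl (e ▸ h)
      · exact absurd (h.1 ▸ hs) h.2.1
  rw [← mul_inv_eq_one]
  refine unip_inj (bigNet ε m).closed (fun p => (m - p.2.val) * 5 + p.1.val) ?_ (key y) ?_
  · rintro ⟨i, r⟩ ⟨j, r'⟩ (h | ⟨h, _, h'⟩)
    · have h : r'.val < r.val := h
      have := r.2
      have := i.2
      simp only
      omega
    · have h' : i.val < j.val := h'
      simp only at h
      subst h
      simp only
      omega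
  · rw [mul_inv_eq_iff_eq_mul.mpr (mul_inv_eq_iff_eq_mul.mp rfl), map_mul, F.Phi_th_eq_one hy,
      one_mul, ← map_inv]
    exact (dl ε s).Phi_th_eq_one (by
      rw [← one_mul (phi _ y⁻¹), ← hy, ← map_mul, mul_inv_cancel, map_one, hy])

theorem dl_empty (g : St (iwNet ε).ok) : (dl ε (∅ : Finset (Fin (m + 1)))).th g = 1 :=
  UT_induction (bigNet ε m).closed (p := fun g => g = 1) rfl
    (fun _ _ _ _ _ h => absurd h.2 (Finset.notMem_empty _)) (dl_mem ∅ g)

theorem dl_insert {s : Finset (Fin (m + 1))} {r : Fin (m + 1)} (hr : r ∉ s)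
    (g : St (iwNet ε).ok) : (dl ε (insert r s)).th g = (dl ε {r}).th g * (dl ε s).th g := by
  refine St.induction_left (iwNet ε).closed
    (p := fun g => (dl ε (insert r s)).th g = (dl ε {r}).th g * (dl ε s).th g) (by simp)
    (fun i j a g ha ih => ?_) g
  have e : (dl ε (insert r s)).f a = (dl ε {r}).f a + (dl ε s).f a := by
    ext t t'
    simp only [Matrix.add_apply, dl_apply, Finset.mem_insert, Finset.mem_singleton]
    by_cases h : t = t'
    · by_cases h' : t = r
      · subst h h'; simp [hr]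
      · simp [h']
    · simp [h]
  have hc : Commute ((dl ε s).th (St.x _ i j a)) ((dl ε {r}).th g) := by
    refine commute_UT (bigNet ε m).closed ?_ (dl_mem s _) (dl_mem {r} _)
    rintro p p' l l' ⟨e1, e2⟩ ⟨e3, e4⟩
    rw [Finset.mem_singleton] at e4
    exact ⟨fun e => hr (by rw [← e4, ← e, ← e1]; exact e2),
      fun e => hr (by rw [← e4, e3, ← e]; exact e2)⟩
  rw [map_mul, map_mul, map_mul, ih, mul_assoc, ← mul_assoc ((dl ε {r}).th g), ← hc.eq,
    ← mul_assoc, ← mul_assoc, ← mul_assoc, Good.th_x _ ha, Good.th_x _ ha, Good.th_x _ ha, e,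
    XB_add ((dl ε {r}).adm ha) ((dl ε s).adm ha) (by rw [← e]; exact (dl ε _).adm ha)]

theorem dl_zero (g : St (iwNet ε).ok) :
    (dl ε ({0} : Finset (Fin (m + 1)))).th g = unToBig ε m (iwToUn ε g) := by
  have : (dl ε ({0} : Finset (Fin (m + 1)))).th = (unToBig ε m).comp (iwToUn ε) := by
    refine St.hom_ext fun i j a ha => ?_
    have hij : i ≠ j := ha.2.2.1
    have ha' : (unNet ε).ok i j a := (unNet_ok ε i j a).mpr hij
    have hb : (bigNet ε m).ok (i, 0) (j, 0) a :=
      ⟨Finset.mem_univ _, Finset.mem_univ _, fun e => hij (congrArg Prod.fst e),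
        Or.inl (by simp [bigNet])⟩
    have e : (unToBig ε m).comp (iwToUn ε) (St.x _ i j a) =
        St.x (bigNet ε m).ok (i, 0) (j, 0) a := by
      rw [MonoidHom.comp_apply]
      unfold iwToUn unToBig
      rw [St.reindex_x _ _ _ _ ha]
      exact St.reindex_x _ _ _ _ ha'
    rw [e, Good.th_x _ ha]
    refine unip_ext (bigNet ε m).closed (T := fun p p' => p.1 = i ∧ p'.1 = j)
      (fun p => if p.1 = j then 1 else 0) (fun p p' hp => by simp [hp.1, hp.2, hij])
      (XB_mem' ((dl ε _).adm ha) fun _ _ _ => ⟨rfl, rfl⟩) (x_mem_UT ⟨rfl, rfl⟩) ?_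
    rw [Phi_XB ((dl ε _).adm ha), phi_x _ hb, map_add, map_one]
    congr 1
    ext ⟨k, r⟩ ⟨l, r'⟩
    rw [cmp_apply]
    simp only [Matrix.single_apply, Prod.mk.injEq]
    by_cases h : i = k ∧ j = l
    · rw [if_pos h, dl_apply]
      simp only [h.1, h.2, true_and, Finset.mem_singleton]
      refine if_congr ⟨fun ⟨a, b⟩ => ⟨b.symm, by rw [← a, b]⟩, fun ⟨a, b⟩ => ⟨by rw [← a, b], a.symm⟩⟩
        rfl rfl
    · rw [if_neg h, if_neg (fun h' => h ⟨h'.1.1, h'.2.1⟩)]
      rfl
  rw [this, MonoidHom.comp_apply]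

theorem exists_Ph (P : Blk A m) (h0 : ∀ r r', r' < r → P r r' = 0) (h1 : ∀ r, P r r = 1) :
    ∃ g ∈ U ε m (fun p p' => p.1 = p'.1 ∧ p.2 < p'.2 ∧ P p.2 p'.2 ≠ 0),
      Phi ε m g = cmp m (Matrix.diagonal fun _ => P) := by
  have hne : ∀ p p' : Ix m, cmp m (Matrix.diagonal fun _ => P - 1) p p' ≠ 0 →
      p.1 = p'.1 ∧ p.2 < p'.2 ∧ P p.2 p'.2 ≠ 0 := by
    intro p p' hp
    rw [cmp_apply, Matrix.diagonal_apply] at hp
    by_cases e : p.1 = p'.1
    · rw [if_pos e, Matrix.sub_apply] at hp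
      rcases lt_trichotomy p.2 p'.2 with h | h | h
      · exact ⟨e, h, by rwa [Matrix.one_apply_ne h.ne, sub_zero] at hp⟩
      · exact absurd (by rw [h, h1, Matrix.one_apply_eq, sub_self]) hp
      · exact absurd (by rw [h0 _ _ h, Matrix.one_apply_ne h.ne', sub_self]) hp
    · rw [if_neg e] at hp
      exact absurd rfl hp
  obtain ⟨g, hg, e⟩ := exists_unip (bigNet ε m).closed (fun p => p.2.val)
    (cmp m (Matrix.diagonal fun _ => P - 1))
    (fun p p' hp => by
      obtain ⟨e1, e2, _⟩ := hne p p' hp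
      refine ⟨Finset.mem_univ _, Finset.mem_univ _, fun e => e2.ne (congrArg Prod.snd e),
        Or.inl ?_⟩
      have e3 : p.2.val < p'.2.val := e2
      have e4 : p'.2 ≠ 0 := fun e => by rw [e] at e3; simp at e3
      simp only [bigNet, e1, if_neg e4]
      split_ifs <;> omega)
    (fun p p' hp => (hne p p' hp).2.1)
  refine ⟨g, UT_mono hne hg, ?_⟩
  rw [e, ← map_one (cmp m), ← map_add]
  congr 1
  rw [← Matrix.diagonal_one, Matrix.diagonal_add]
  simp

theorem conj_th {P : Blk A m} {z : Gam ε m}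
    (hz : z ∈ U ε m (fun p p' => p.1 = p'.1 ∧ p.2 < p'.2 ∧ P p.2 p'.2 ≠ 0))
    (ez : Phi ε m z = cmp m (Matrix.diagonal fun _ => P)) (F G : Good ε m)
    (h : ∀ a, P * G.f a = F.f a * P) (g : St (iwNet ε).ok) : z * G.th g = F.th g * z := by
  refine St.induction_left (iwNet ε).closed (p := fun g => z * G.th g = F.th g * z) (by simp)
    (fun i j a g ha ih => ?_) g
  have hij : i ≠ j := ha.2.2.1
  have e : z * G.th (St.x _ i j a) = F.th (St.x _ i j a) * z := by
    rw [G.th_x ha, F.th_x ha]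
    have hz' : z ∈ U ε m (fun p p' => (p.1 = p'.1 ∧ p.2 < p'.2) ∨ (p.1 = i ∧ p'.1 = j)) :=
      UT_mono (fun _ _ h => Or.inl ⟨h.1, h.2.1⟩) hz
    refine unip_ext (bigNet ε m).closed
      (T := fun p p' => (p.1 = p'.1 ∧ p.2 < p'.2) ∨ (p.1 = i ∧ p'.1 = j))
      (fun p => (if p.1 = j then m + 1 else 0) + p.2.val) ?_
      (Subgroup.mul_mem _ hz' (XB_mem' (G.adm ha) fun _ _ _ => Or.inr ⟨rfl, rfl⟩))
      (Subgroup.mul_mem _ (XB_mem' (F.adm ha) fun _ _ _ => Or.inr ⟨rfl, rfl⟩) hz') ?_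
    · rintro p p' (⟨e1, e2⟩ | ⟨e1, e2⟩)
      · have : p.2.val < p'.2.val := e2
        simp only [e1]
        omega
      · have := p.2.2
        simp only [e1, e2, if_neg hij, if_true]
        omega
    · rw [map_mul, map_mul, ez, Phi_XB (G.adm ha), Phi_XB (F.adm ha), ← map_mul, ← map_mul]
      congr 1
      rw [mul_add, add_mul, mul_one, one_mul]
      congr 1
      refine Matrix.ext fun k l => ?_
      rw [Matrix.diagonal_mul, Matrix.mul_diagonal, Matrix.single_apply, Matrix.single_apply]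
      split_ifs
      · exact h a
      · simp
  rw [map_mul, map_mul, ← mul_assoc, e, mul_assoc, ih, mul_assoc]

end Tr

end Vale.Agent.P192Z
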