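import Vale.Agent.P192Z.Grp.Defs

/-!
# P192: the map to matrices is injective on unipotent subgroups
-/

namespace Vale.Agent.P192Z

open scoped commutatorElement

variable {ι A : Type} [Ring A] [Algebra F2 A]

/-- Conjugating a generator by a generator (not the opposite one). -/
theorem conj_x_mem {ok : ι → ι → A → Prop} (hc : Closed ok) {T : ι → ι → Prop} {i j k l : ι}
    {a b : A} (ha : ok i j a) (hb : ok k l b) (hT : T k l) (h0 : ¬ (j = k ∧ l = i))
    (h1 : j = k → T i l) (h2 : l = i → T k j) :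
    St.x ok i j a * St.x ok k l b * (St.x ok i j a)⁻¹ ∈ UT ok T := by
  by_cases e1 : j = k
  · subst e1
    have hil : i ≠ l := fun e => h0 ⟨rfl, e.symm⟩
    rw [(St.isSt ok).conj_left ha hb hil]
    exact Subgroup.mul_mem _ (x_mem_UT (h1 rfl)) (x_mem_UT hT)
  · by_cases e2 : l = i
    · subst e2
      rw [(St.isSt ok).conj_right hc hb ha (Ne.symm e1)]
      exact Subgroup.mul_mem _ (x_mem_UT (h2 rfl)) (x_mem_UT hT)
    · rw [(St.isSt ok).conj_comm ha hb e1 (Ne.symm e2)]
      exact x_mem_UT hT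

/-- A generator normalises `UT ok T` under the obvious closure conditions. -/
theorem conj_UT_mem {ok : ι → ι → A → Prop} (hc : Closed ok) {T : ι → ι → Prop} {i j : ι}
    {a : A} (ha : ok i j a) (h0 : ¬ T j i) (h1 : ∀ l, T j l → T i l) (h2 : ∀ k, T k i → T k j)
    {g : St ok} (hg : g ∈ UT ok T) : St.x ok i j a * g * (St.x ok i j a)⁻¹ ∈ UT ok T := by
  refine UT_induction hc (p := fun g => St.x ok i j a * g * (St.x ok i j a)⁻¹ ∈ UT ok T)
    (by simp) (fun k l b g hb hT _ ih => ?_) hg
  have := conj_x_mem hc ha hb hT (by rintro ⟨rfl, rfl⟩; exact h0 hT)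
    (by rintro rfl; exact h1 l hT) (by rintro rfl; exact h2 k hT)
  have e : St.x ok i j a * (St.x ok k l b * g) * (St.x ok i j a)⁻¹ =
      (St.x ok i j a * St.x ok k l b * (St.x ok i j a)⁻¹) *
        (St.x ok i j a * g * (St.x ok i j a)⁻¹) := by group
  rw [e]
  exact Subgroup.mul_mem _ this ih

/-- Every element of `UT ok T'` normalises `UT ok T` if the generators do. -/
theorem conj_UT_UT {ok : ι → ι → A → Prop} (hc : Closed ok) {T T' : ι → ι → Prop}
    (h0 : ∀ i j, T' i j → ¬ T j i) (h1 : ∀ i j l, T' i j → T j l → T i l)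
    (h2 : ∀ i j k, T' i j → T k i → T k j) {z g : St ok} (hz : z ∈ UT ok T')
    (hg : g ∈ UT ok T) : z * g * z⁻¹ ∈ UT ok T := by
  refine UT_induction hc (p := fun z => z * g * z⁻¹ ∈ UT ok T)
    (by simpa using hg) (fun i j a z ha hT _ ih => ?_) hz
  have := conj_UT_mem hc ha (h0 i j hT) (fun l => h1 i j l hT) (fun k => h2 i j k hT) ih
  have e : St.x ok i j a * z * g * (St.x ok i j a * z)⁻¹ =
      St.x ok i j a * (z * g * z⁻¹) * (St.x ok i j a)⁻¹ := by group
  rw [e]
  exact this

variable [Fintype ι] [DecidableEq ι]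

/-- Support of the matrices of a transitive set of positions. -/
theorem phi_supp {ok : ι → ι → A → Prop} (hc : Closed ok) {T : ι → ι → Prop}
    (htr : ∀ i j k, T i j → T j k → T i k) {g : St ok} (hg : g ∈ UT ok T) :
    ∀ i j, ¬ T i j → phi hc g i j = (1 : Matrix ι ι A) i j := by
  refine UT_induction hc (p := fun g => ∀ i j, ¬ T i j → phi hc g i j = (1 : Matrix ι ι A) i j)
    (by simp) (fun k l b g hb hT _ ih i j hij => ?_) hg
  rw [map_mul, phi_x hc hb, add_mul, one_mul, Matrix.add_apply, ih i j hij]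
  by_cases e : i = k
  · subst e
    have h1 : ¬ T l j := fun h => hij (htr _ _ _ hT h)
    have h2 : l ≠ j := by rintro rfl; exact hij hT
    rw [Matrix.single_mul_apply_same, ih l j h1, Matrix.one_apply_ne h2, mul_zero, add_zero]
  · rw [Matrix.single_mul_apply_of_ne _ _ _ _ _ e, add_zero]

theorem unip_aux {ok : ι → ι → A → Prop} (hc : Closed ok) (ρ : ι → ℕ) (n : ℕ) :
    ∀ T : Finset (ι × ι), T.card = n → (∀ i j, (i, j) ∈ T → ρ i < ρ j) →
      (∀ i j k, (i, j) ∈ T → ρ j < ρ k → (i, k) ∈ T) →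
      (∀ i j k, (i, j) ∈ T → ρ k < ρ i → (k, j) ∈ T) →
      ∀ g ∈ UT ok (fun i j => (i, j) ∈ T), phi hc g = 1 → g = 1 := by
  induction n with
  | zero =>
    intro T hT _ _ _ g hg _
    rw [Finset.card_eq_zero] at hT
    subst hT
    exact UT_induction hc (p := fun g => g = 1) rfl (fun i j a g _ h => by simp at h) hg
  | succ n ih =>
    intro T hT hρ hr hl g hg h1
    obtain ⟨⟨i, j⟩, hp, hmin⟩ := T.exists_min_image (fun p => ρ p.2 - ρ p.1)
      (Finset.card_pos.mp (by omega))
    have hij := hρ i j hp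
    set T' := T.erase (i, j) with hT'
    have mem' : ∀ k l, (k, l) ∈ T' ↔ (k, l) ≠ (i, j) ∧ (k, l) ∈ T := fun k l => Finset.mem_erase
    have hρ' : ∀ k l, (k, l) ∈ T' → ρ k < ρ l := fun k l h => hρ k l ((mem' k l).mp h).2
    have hr' : ∀ k l m, (k, l) ∈ T' → ρ l < ρ m → (k, m) ∈ T' := by
      intro k l m h hm
      have h2 := ((mem' k l).mp h).2
      refine (mem' k m).mpr ⟨fun e => ?_, hr k l m h2 hm⟩
      obtain ⟨rfl, rfl⟩ := Prod.mk.inj e
      have := hmin _ h2
      have := hρ _ _ h2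
      simp only at *
      omega
    have hl' : ∀ k l m, (k, l) ∈ T' → ρ m < ρ k → (m, l) ∈ T' := by
      intro k l m h hm
      have h2 := ((mem' k l).mp h).2
      refine (mem' m l).mpr ⟨fun e => ?_, hl k l m h2 hm⟩
      obtain ⟨rfl, rfl⟩ := Prod.mk.inj e
      have := hmin _ h2
      have := hρ _ _ h2
      simp only at *
      omega
    have hconj : ∀ a, ok i j a → ∀ u ∈ UT ok (fun k l => (k, l) ∈ T'),
        St.x ok i j a * u * (St.x ok i j a)⁻¹ ∈ UT ok (fun k l => (k, l) ∈ T') := by
      intro a ha u hu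
      refine conj_UT_mem hc ha (fun h => ?_) (fun l h => hl' j l i h hij)
        (fun k h => hr' k i j h hij) hu
      have := hρ' _ _ h
      omega
    have hdec : g ∈ UT ok (fun k l => (k, l) ∈ T') ∨
        ∃ a, ok i j a ∧ ∃ u ∈ UT ok (fun k l => (k, l) ∈ T'), g = St.x ok i j a * u := by
      refine UT_induction hc (p := fun g => g ∈ UT ok (fun k l => (k, l) ∈ T') ∨
        ∃ a, ok i j a ∧ ∃ u ∈ UT ok (fun k l => (k, l) ∈ T'), g = St.x ok i j a * u)
        (Or.inl (Subgroup.one_mem _)) (fun k l b g hb hkl _ ih => ?_) hg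
      by_cases e : (k, l) = (i, j)
      · obtain ⟨rfl, rfl⟩ := Prod.mk.inj e
        rcases ih with h | ⟨a, ha, u, hu, rfl⟩
        · exact Or.inr ⟨b, hb, g, h, rfl⟩
        · exact Or.inr ⟨b + a, hc.add hb ha, u, hu, by rw [(St.isSt ok).add hb ha, mul_assoc]⟩
      · have hx : St.x ok k l b ∈ UT ok (fun k l => (k, l) ∈ T') :=
          x_mem_UT ((mem' k l).mpr ⟨e, hkl⟩)
        rcases ih with h | ⟨a, ha, u, hu, rfl⟩
        · exact Or.inl (Subgroup.mul_mem _ hx h)
        · refine Or.inr ⟨a, ha, _, Subgroup.mul_mem _ (hconj a ha _ hx) hu, ?_⟩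
          rw [(St.isSt ok).inv hc ha]
          simp only [← mul_assoc]
          rw [(St.isSt ok).mul_self hc ha, one_mul]
    have hcard : T'.card = n := by rw [hT', Finset.card_erase_of_mem hp]; omega
    rcases hdec with h | ⟨a, ha, u, hu, rfl⟩
    · exact ih T' hcard hρ' hr' hl' g h h1
    · have hs := phi_supp hc (T := fun k l => (k, l) ∈ T')
        (fun k l m h h' => hr' k l m h (hρ' _ _ h')) hu
      have e := congrFun (congrFun h1 i) j
      rw [map_mul, phi_x hc ha, add_mul, one_mul, Matrix.add_apply,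
        hs i j (fun h => ((mem' i j).mp h).1 rfl), Matrix.single_mul_apply_same,
        hs j j (fun h => lt_irrefl _ (hρ' _ _ h)), Matrix.one_apply_eq, mul_one] at e
      have ha0 : a = 0 := by simpa using e
      subst ha0
      rw [(St.isSt ok).zero ha, one_mul] at h1 ⊢
      exact ih T' hcard hρ' hr' hl' u hu h1

theorem unip_inj {ok : ι → ι → A → Prop} (hc : Closed ok)
    {T : ι → ι → Prop} (ρ : ι → ℕ) (hT : ∀ i j, T i j → ρ i < ρ j) {g : St ok}
    (hg : g ∈ UT ok T) (h1 : phi hc g = 1) : g = 1 := by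
  refine unip_aux hc ρ _ (Finset.univ.filter fun p : ι × ι => ρ p.1 < ρ p.2) rfl
    (fun i j h => by simpa using h) (fun i j k h h' => ?_) (fun i j k h h' => ?_) g
    (UT_mono (fun i j h => by simpa using hT i j h) hg) h1
  · simp only [Finset.mem_filter, Finset.mem_univ, true_and] at h ⊢; omega
  · simp only [Finset.mem_filter, Finset.mem_univ, true_and] at h ⊢; omega

theorem unip_ext {ok : ι → ι → A → Prop} (hc : Closed ok)
    {T : ι → ι → Prop} (ρ : ι → ℕ) (hT : ∀ i j, T i j → ρ i < ρ j) {g h : St ok}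
    (hg : g ∈ UT ok T) (hh : h ∈ UT ok T) (h1 : phi hc g = phi hc h) : g = h := by
  have := unip_inj hc ρ hT (Subgroup.mul_mem _ hg (Subgroup.inv_mem _ hh))
    (by rw [map_mul, h1, ← map_mul, mul_inv_cancel, map_one])
  exact mul_inv_eq_one.mp this

theorem exists_block {ok : ι → ι → A → Prop} (hc : Closed ok)
    (M : Matrix ι ι A) (hM : ∀ i j, M i j ≠ 0 → ok i j (M i j))
    (hd : ∀ i j k l, M i j ≠ 0 → M k l ≠ 0 → j ≠ k) :
    ∃ g ∈ UT ok (fun i j => M i j ≠ 0), phi hc g = 1 + M := by
  classical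
  have key : ∀ s : Finset (ι × ι), ∃ g ∈ UT ok (fun i j => M i j ≠ 0),
      phi hc g = 1 + Matrix.of fun i j => if (i, j) ∈ s then M i j else 0 := by
    intro s
    induction s using Finset.induction_on with
    | empty => exact ⟨1, Subgroup.one_mem _, by ext i j; simp⟩
    | insert p s hp ih =>
      obtain ⟨i, j⟩ := p
      obtain ⟨g, hg, e⟩ := ih
      by_cases h0 : M i j = 0
      · refine ⟨g, hg, ?_⟩
        rw [e]
        ext k l
        by_cases h : (k, l) = (i, j)
        · obtain ⟨rfl, rfl⟩ := Prod.mk.inj h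
          simp [h0]
        · simp only [Matrix.add_apply, Matrix.of_apply, Finset.mem_insert, h, false_or]
      · refine ⟨St.x ok i j (M i j) * g, Subgroup.mul_mem _ (x_mem_UT h0) hg, ?_⟩
        have hz : Matrix.single i j (M i j) *
            (Matrix.of fun k l => if (k, l) ∈ s then M k l else 0) = 0 := by
          ext k l
          by_cases h : k = i
          · subst h
            rw [Matrix.single_mul_apply_same, Matrix.of_apply]
            have : M j l = 0 := by
              by_contra h'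
              exact hd _ _ _ _ h0 h' rfl
            simp [this]
          · rw [Matrix.single_mul_apply_of_ne _ _ _ _ _ h]; rfl
        rw [map_mul, phi_x hc (hM i j h0), e, add_mul, one_mul, mul_add, mul_one, hz, add_zero]
        ext k l
        by_cases h : (k, l) = (i, j)
        · obtain ⟨rfl, rfl⟩ := Prod.mk.inj h
          simp [hp]
        · have h' : ¬ (i = k ∧ j = l) := fun ⟨a, b⟩ => h (by rw [a, b])
          simp only [Matrix.add_apply, Matrix.of_apply, Finset.mem_insert, h, false_or,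
            Matrix.single_apply, h', if_false, add_zero]
  obtain ⟨g, hg, e⟩ := key Finset.univ
  exact ⟨g, hg, by rw [e]; ext i j; simp⟩

end Vale.Agent.P192Z
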